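import Vale.Agent.P371.Leg.Chain

/-!
# P371: the base values of the chain
-/

namespace Vale.Agent.P371.Leg

open Real

variable {p th : ℝ}

/-- `cosh (2p) - 1` and friends for `p ≤ 0.55`. -/
lemma base_facts (h0 : 0 ≤ p) (h1 : p ≤ 11 / 20) :
    2 * p ^ 2 ≤ cosh (2 * p) - 1 ∧ cosh (2 * p) - 1 ≤ 23 / 10 * p ^ 2 ∧
      2 * p ≤ sinh (2 * p) ∧ sinh (2 * p) ≤ 2 * p + 3 / 2 * p ^ 3 ∧
      sinh (2 * p) - 2 * p ≤ 1442 / 1000 * p ^ 3 := by
  obtain ⟨u1, u2⟩ := taylor_upper (x := 2 * p) (by linarith) (by linarith)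
  have hp2 : p ^ 2 ≤ (11 / 20) ^ 2 := pow_le_pow_left₀ h0 h1 2
  have h3 : 0 ≤ p ^ 3 := pow_nonneg h0 3
  refine ⟨by linarith [cosh_ge_quad (2 * p), show (2 * p) ^ 2 = 4 * p ^ 2 by ring], ?_,
    self_le_sinh_iff.2 (by linarith), ?_, ?_⟩
  · nlinarith [sq_nonneg p]
  · nlinarith
  · nlinarith

lemma tanh_pp (p : ℝ) : psi p p = 0 := by simp [psi]

lemma base_zero (h0 : 0 ≤ p) (h1 : p ≤ 11 / 20) (hth : 0 < th) : p ^ 3 ≤ P0 p th p := by
  obtain ⟨-, -, -, -, hS⟩ := base_facts h0 h1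
  rw [P0, tanh_pp]
  have hw := wt_mem hth
  have hsp : p ≤ sinh p := self_le_sinh_iff.2 h0
  have hf : 3 / 2 * p ^ 3 ≤ fq p (p + p) th := by
    unfold fq
    have hs0 : 0 ≤ sinh (p + p) := sinh_nonneg_iff.2 (by linarith)
    have h2 : th * p ^ 2 ≤ th * sinh p ^ 2 :=
      mul_le_mul_of_nonneg_left (pow_le_pow_left₀ h0 hsp 2) hth.le
    rcases le_total th (p + p) with hle | hle
    · have h3 := wt_ge hth hle
      have h4 : (p + p - th) ^ 2 / 2 ≤ cosh (p + p - th) - 1 := by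
        linarith [cosh_ge_quad (p + p - th)]
      have h5 := mul_le_mul h3 h4 (by positivity) (mul_nonneg hw.1.le hs0)
      nlinarith [mul_nonneg h0 (sq_nonneg (th - p))]
    · have h3 : 0 ≤ wt th / 2 * (sinh (p + p) * (cosh (p + p - th) - 1)) := by
        have := one_le_cosh (p + p - th)
        have : 0 ≤ cosh (p + p - th) - 1 := by linarith
        have := hw.1
        positivity
      nlinarith [mul_le_mul_of_nonneg_right hle (sq_nonneg p)]
  unfold cc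
  linarith [pow_nonneg h0 3]

lemma base_one (h0 : 0 ≤ p) (h1 : p ≤ 11 / 20) (hth : 0 < th) :
    889 / 1000 * p ^ 2 ≤ P1 p th p := by
  obtain ⟨hv0, hv1, hs0, hs1, -⟩ := base_facts h0 h1
  rw [P1, tanh_pp, sub_self, show 2 * (p + p) - th = 4 * p - th by ring, ← two_mul]
  obtain ⟨hc, -⟩ := wt_cosh hth (4 * p)
  have hw := wt_mem hth
  have e4 : cosh (4 * p) = 2 * cosh (2 * p) ^ 2 - 1 := by
    rw [show 4 * p = 2 * (2 * p) by ring, cosh_two_mul]; linarith [cosh_sq (2 * p)]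
  have es : sinh (4 * p) = 2 * sinh (2 * p) * cosh (2 * p) := by
    rw [show 4 * p = 2 * (2 * p) by ring, sinh_two_mul]
  have eh : 4 * sinh p ^ 2 = 2 * (cosh (2 * p) - 1) := by
    rw [cosh_two_mul]; linarith [cosh_sq p]
  have hsq : sinh (2 * p) ^ 2 = cosh (2 * p) ^ 2 - 1 := by linarith [cosh_sq (2 * p)]
  set v := cosh (2 * p) - 1 with hv
  have hC : cosh (2 * p) = 1 + v := by rw [hv]; ring
  rw [hC] at e4 es hsq
  have hv2 : v ≤ 7 / 10 := by nlinarith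
  have hC4 : 0 < cosh (4 * p) := cosh_pos _
  have hr : sinh (2 * p) * v ≤ 502 / 1000 * (cosh (4 * p) / 2) := by
    have : sinh (2 * p) ≤ 135 / 100 := by nlinarith
    rw [e4]
    nlinarith [mul_le_mul_of_nonneg_right this (show 0 ≤ v by nlinarith)]
  have hl := loss_le hth (show 0 < cosh (4 * p) / 2 by linarith) hr
  have e6 : 84 / 100 * (sinh (2 * p) * v) ^ 2 / (cosh (4 * p) / 2) =
      168 / 100 * (v ^ 3 * (2 + v)) / cosh (4 * p) := by
    rw [mul_pow, hsq]; field_simp; ring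
  rw [e6] at hl
  have h5 : cc * (168 / 100 * (v ^ 3 * (2 + v)) / cosh (4 * p)) * 2 ≤ (163 / 100 * v) * v := by
    rw [mul_div_assoc', div_mul_eq_mul_div, div_le_iff₀ hC4, e4]
    have hv3 : 0 ≤ v := by nlinarith
    unfold cc
    nlinarith [mul_nonneg hv3 hv3, pow_nonneg hv3 3, pow_nonneg hv3 4]
  have hw2 : wt th * cosh (2 * p) ≤ cosh (2 * p) := mul_le_of_le_one_left (cosh_pos _).le hw.2
  have key : (cosh (4 * p) - cosh (2 * p)) / 2 - 168 / 100 * (v ^ 3 * (2 + v)) / cosh (4 * p) ≤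
      th * sinh (2 * p) + wt th / 2 * (cosh (4 * p - th) - cosh (2 * p)) := by
    rw [es] at hc
    nlinarith
  unfold cc at *
  rw [e4, hC] at key
  rw [eh, hC]
  nlinarith

lemma a_upper {v : ℝ} (h0 : 0 ≤ p) (h1 : p ≤ 11 / 20) (hv0 : 2 * p ^ 2 ≤ v)
    (hv1 : v ≤ 23 / 10 * p ^ 2) :
    2 * (1 + v) ^ 2 - 1 - 2 * (1 + v) ≤ 781 / 100 * p ^ 2 - 1 := by
  have h2 : v * v ≤ (23 / 10 * p ^ 2) * (23 / 10 * (11 / 20) ^ 2) :=
    mul_le_mul hv1 (hv1.trans (by nlinarith [pow_le_pow_left₀ h0 h1 2]))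
      (by nlinarith) (by positivity)
  nlinarith

lemma loss_cubic (h0 : 0 ≤ p) :
    2 * (815 / 1000) * (84 / 100 * (502 / 1000)) * (781 / 100 * p ^ 2 - 1) ≤ 7 * p ^ 3 := by
  nlinarith [sq_nonneg (p - 512 / 1000), mul_nonneg h0 (sq_nonneg (p - 512 / 1000))]

lemma base_two (h0 : 0 ≤ p) (h1 : p ≤ 11 / 20) (hth : 0 < th) :
    -(1111 / 1000) * p ≤ P2 p th p := by
  obtain ⟨hv0, hv1, hs0, hs1, -⟩ := base_facts h0 h1
  rw [P2, tanh_pp, sub_self, show 2 * (p + p) - th = 4 * p - th by ring, ← two_mul p]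
  rcases h0.eq_or_lt with e | hp
  · subst e
    simp only [mul_zero, tanh_zero, sinh_zero, cosh_zero, zero_sub, sub_zero, add_zero]
    have h := (wt_cosh hth 0).2
    simp only [zero_sub, sinh_zero, cosh_zero, mul_zero, zero_sub, mul_one] at h
    unfold cc
    nlinarith
  obtain ⟨-, hs⟩ := wt_cosh hth (4 * p)
  have hw := wt_mem hth
  have e4 : cosh (4 * p) = 2 * cosh (2 * p) ^ 2 - 1 := by
    rw [show 4 * p = 2 * (2 * p) by ring, cosh_two_mul]; linarith [cosh_sq (2 * p)]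
  have es : sinh (4 * p) = 2 * sinh (2 * p) * cosh (2 * p) := by
    rw [show 4 * p = 2 * (2 * p) by ring, sinh_two_mul]
  set v := cosh (2 * p) - 1 with hv
  have hC : cosh (2 * p) = 1 + v := by rw [hv]; ring
  rw [hC] at e4 es
  have hG : 0 < sinh (4 * p) := sinh_pos_iff.2 (by linarith)
  set a := cosh (4 * p) - 2 * cosh (2 * p) with ha
  have hr : a ≤ 502 / 1000 * sinh (4 * p) := by
    rw [ha, e4, es, hC]
    nlinarith [mul_le_mul_of_nonneg_right hs0 (show 0 ≤ 1 + v by nlinarith),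
      mul_le_mul_of_nonneg_right hv1 (show 0 ≤ 1 + v by nlinarith),
      mul_nonneg hp.le (show 0 ≤ 11 / 20 - p by linarith)]
  have hl := loss_le hth hG hr
  have hkey : sinh (4 * p) - sinh (2 * p) / 2 - th * a + (sinh (4 * p) * (tc th - 1)) ≤
      2 * th * cosh (2 * p) + wt th / 2 * (2 * sinh (4 * p - th) - sinh (2 * p)) := by
    have := mul_le_of_le_one_left (sinh_nonneg_iff.2 (by linarith : (0:ℝ) ≤ 2 * p)) hw.2
    nlinarith
  -- the loss
  have hloss : 2 * cc * (th * a - sinh (4 * p) * (tc th - 1)) ≤ 7 * p ^ 3 := by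
    rcases le_or_gt a 0 with ha0 | ha0
    · have := mul_nonneg hG.le (sub_nonneg.2 (tc_ge_one hth))
      have := mul_nonpos_of_nonneg_of_nonpos hth.le ha0
      unfold cc; nlinarith [pow_nonneg h0 3]
    · have h2 : 84 / 100 * a ^ 2 / sinh (4 * p) ≤ 84 / 100 * (502 / 1000) * a := by
        rw [div_le_iff₀ hG]; nlinarith
      have h3 : a ≤ 781 / 100 * p ^ 2 - 1 := by
        rw [ha, e4, hC]; exact a_upper h0 h1 hv0 hv1
      have h6 := loss_cubic h0
      unfold cc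
      linarith
  have ht := (tanh_bounds h0).2.2.1
  unfold cc at *
  rw [es] at hkey hloss
  rw [hC] at hkey ⊢
  have hA := mul_le_mul_of_nonneg_left hs0 (show 0 ≤ v by nlinarith)
  nlinarith

end Vale.Agent.P371.Leg
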