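import Vale.Agent.P371.Leg.Chain

/-!
# P371: the main elementary inequality for `p ≥ 11/20`
-/

namespace Vale.Agent.P371.Leg

open Set Real

lemma psi_nonneg {p t : ℝ} (hpt : p ≤ t) : 0 ≤ psi t p := by
  have h := monotoneOn_of_hasDerivWithinAt_nonneg (convex_Icc p t)
    (fun s _ => (hasDerivAt_psi s p).continuousAt.continuousWithinAt)
    (fun s _ => (hasDerivAt_psi s p).hasDerivWithinAt)
    (fun s hs => by
      rw [interior_Icc] at hs
      have h1 : 0 ≤ 1 - tanh s ^ 2 := by
        have := tanh_lt_one s; have := neg_one_lt_tanh s; nlinarith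
      exact mul_nonneg h1 (by linarith [hs.1]))
    (left_mem_Icc.2 hpt) (right_mem_Icc.2 hpt) hpt
  simpa [psi] using h

lemma exp_eleven_twentieths :
    17332525 / 10000000 ≤ exp (11 / 20 : ℝ) ∧ exp (11 / 20 : ℝ) ≤ 17332535 / 10000000 := by
  constructor
  · have h := Real.sum_le_exp_of_nonneg (x := (11 / 20 : ℝ)) (by norm_num) 10
    norm_num [Finset.sum_range_succ, Nat.factorial] at h ⊢
    linarith
  · have h := Real.exp_bound' (x := (11 / 20 : ℝ)) (by norm_num) (by norm_num) (n := 9) (by norm_num)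
    norm_num [Finset.sum_range_succ, Nat.factorial] at h ⊢
    linarith

/-- For `θ ≥ t + 11/20` the part `θ sinh² t` is already enough. -/
lemma sinh_sub_self_le {x : ℝ} (hx : 0 ≤ x) : sinh x - x ≤ x / 3 * (cosh x - 1) := by
  refine le_of_deriv_le hx (fun z _ => (hasDerivAt_sinh z).sub (hasDerivAt_id z))
    (fun z _ => ((hasDerivAt_id z).div_const 3).mul ((hasDerivAt_cosh z).sub_const 1))
    (by simp) fun z hz => ?_
  have h := (tanh_bounds (x := z / 2) (by linarith [hz.1])).2.1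
  rw [tanh_eq_sinh_div_cosh, div_le_iff₀ (cosh_pos _)] at h
  have hc : cosh z = cosh (z / 2) ^ 2 + sinh (z / 2) ^ 2 := by rw [← cosh_two_mul]; ring_nf
  have hs : sinh z = 2 * sinh (z / 2) * cosh (z / 2) := by rw [← sinh_two_mul]; ring_nf
  have h1 := cosh_sq (z / 2)
  simp only [id_eq]
  rw [hc, hs]
  nlinarith [mul_le_mul_of_nonneg_left h (sinh_nonneg_iff.2 (by linarith [hz.1] : (0:ℝ) ≤ z / 2))]

/-- The one-variable inequality left after the loss bound. -/
lemma tail_nonneg {t : ℝ} (ht : 11 / 20 ≤ t) :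
    0 ≤ 546 / 10000 * exp (2 * t) + 661 / 1000 * exp (-(2 * t)) - 2862 / 10000 -
      815 / 2000 * (17333 / 10000 * exp t - 5769 / 10000 * exp (-t)) + 2 * t := by
  obtain ⟨hlo, hhi⟩ := exp_eleven_twentieths
  have hd : ∀ s : ℝ, HasDerivAt (fun s => 546 / 10000 * exp (2 * s) +
      661 / 1000 * exp (-(2 * s)) - 2862 / 10000 -
      815 / 2000 * (17333 / 10000 * exp s - 5769 / 10000 * exp (-s)) + 2 * s)
      (546 / 10000 * (exp (2 * s) * 2) + 661 / 1000 * (exp (-(2 * s)) * -2) -
        815 / 2000 * (17333 / 10000 * exp s + 5769 / 10000 * exp (-s)) + 2) s := fun s => by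
    have h2 : HasDerivAt (fun s : ℝ => 2 * s) 2 s := by
      simpa using (hasDerivAt_id s).const_mul (2 : ℝ)
    have h3 : HasDerivAt (fun s : ℝ => exp (-s)) (-exp (-s)) s := by
      simpa using (hasDerivAt_id s).neg.exp
    exact ((((h2.exp.const_mul (546 / 10000)).add (h2.neg.exp.const_mul (661 / 1000))).sub_const
      (2862 / 10000)).sub ((((hasDerivAt_exp s).const_mul (17333 / 10000)).sub
        (h3.const_mul (5769 / 10000))).const_mul (815 / 2000))).add h2 |>.congr_deriv
          (by simp only [Pi.neg_apply]; ring)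
  have mon := monotoneOn_of_hasDerivWithinAt_nonneg (convex_Ici (11 / 20 : ℝ))
    (fun s _ => (hd s).continuousAt.continuousWithinAt) (fun s _ => (hd s).hasDerivWithinAt)
    (fun s hs => ?_) (self_mem_Ici) (mem_Ici.2 ht) ht
  · refine le_trans ?_ mon
    have e2 : exp (2 * (11 / 20) : ℝ) = exp (11 / 20 : ℝ) ^ 2 := by
      rw [sq, ← exp_add]; ring_nf
    have e3 : (546 : ℝ) / 10000 * 3 ≤ 546 / 10000 * exp (2 * (11 / 20)) := by rw [e2]; nlinarith
    have e4 : (3328 : ℝ) / 10000 ≤ exp (-(2 * (11 / 20))) := by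
      rw [exp_neg, e2, le_inv_comm₀ (by norm_num) (pow_pos (exp_pos _) 2)]; nlinarith
    have e5 : (5769 : ℝ) / 10000 ≤ exp (-(11 / 20)) := by
      rw [exp_neg, le_inv_comm₀ (by norm_num) (exp_pos _)]; linarith
    nlinarith
  · rw [interior_Ici] at hs
    have hs' : (11 : ℝ) / 20 < s := hs
    have hv : (17332 : ℝ) / 10000 ≤ exp s := by linarith [exp_le_exp.2 hs'.le]
    rw [show exp (2 * s) = exp s ^ 2 by rw [sq, ← exp_add]; ring_nf,
      show exp (-(2 * s)) = (exp s ^ 2)⁻¹ by rw [exp_neg, sq, ← exp_add]; ring_nf, exp_neg]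
    have hv0 := exp_pos s
    generalize exp s = v at hv hv0
    have key : 0 ≤ 1092 / 10000 * v ^ 4 - 1322 / 1000 - 815 / 2000 * (17333 / 10000) * v ^ 3 -
        815 / 2000 * (5769 / 10000) * v + 2 * v ^ 2 := by
      nlinarith [mul_nonneg (sq_nonneg v) (sq_nonneg (v - 324 / 100)),
        mul_le_mul hv hv (by norm_num) hv0.le]
    have := mul_nonneg key (inv_nonneg.2 (sq_nonneg v))
    refine le_of_le_of_eq this ?_
    field_simp
    ring

/-- The inequality `P0 ≥ 0` for `11/20 ≤ p ≤ t`. -/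
theorem P0_big {p th t : ℝ} (hp : 11 / 20 ≤ p) (hpt : p ≤ t) (hth : 0 < th) (_hth' : th ≤ t + p) :
    0 ≤ P0 p th t := by
  have ht : 11 / 20 ≤ t := hp.trans hpt
  obtain ⟨hw0, hw1⟩ := wt_mem hth
  have hpsi : 0 ≤ sinh (2 * t) * psi t p :=
    mul_nonneg (sinh_nonneg_iff.2 (by linarith)) (psi_nonneg hpt)
  have hd : 0 ≤ sinh (t + p) := sinh_nonneg_iff.2 (by linarith)
  rcases le_or_gt (t + 11 / 20) th with hcase | hcase
  · have hh : 2 * sinh t ^ 2 = cosh (2 * t) - 1 := by
      rw [cosh_two_mul]; linarith [cosh_sq t]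
    have h0 : 0 ≤ wt th / 2 * (sinh (t + p) * (cosh (t + p - th) - 1)) := by
      have := one_le_cosh (t + p - th)
      have : 0 ≤ cosh (t + p - th) - 1 := by linarith
      positivity
    have h1 := sinh_sub_self_le (show 0 ≤ 2 * t by linarith)
    have h2 : (t + 11 / 20) * sinh t ^ 2 ≤ th * sinh t ^ 2 :=
      mul_le_mul_of_nonneg_right hcase (sq_nonneg _)
    have h3 : 2 * t / 3 * sinh t ^ 2 ≤ cc * (t + 11 / 20) * sinh t ^ 2 :=
      mul_le_mul_of_nonneg_right (by unfold cc; linarith) (sq_nonneg _)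
    rw [← hh] at h1
    simp only [P0, fq, cc] at *
    nlinarith
  · set d := t + 11 / 20 with hd0
    -- lowering `t + p` to `d`
    have hS0 : 0 ≤ sinh d := sinh_nonneg_iff.2 (by linarith)
    have hmono : fq t d th ≤ fq t (t + p) th := by
      unfold fq
      have hC : cosh (d - th) ≤ cosh (t + p - th) := by
        rw [cosh_le_cosh, abs_of_nonneg (by linarith), abs_of_nonneg (by linarith)]; linarith
      have hS : sinh d ≤ sinh (t + p) := sinh_le_sinh.2 (by linarith)
      have := one_le_cosh (d - th)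
      gcongr
    have hfq : sinh d * (cosh d - 1) / 2 -
        (th * (sinh d ^ 2 - 2 * sinh t ^ 2) - sinh d * cosh d * (tc th - 1)) / 2 ≤ fq t d th := by
      unfold fq
      have e := (wt_cosh hth d).1
      have hw : wt th * sinh d ≤ 1 * sinh d := mul_le_mul_of_nonneg_right hw1 hS0
      linear_combination hw / 2 - sinh d / 2 * e
    obtain ⟨hlo, hhi⟩ := exp_eleven_twentieths
    have hv : exp (11 / 20 : ℝ) ≤ exp t := exp_le_exp.2 ht
    set v := exp t with hvdef
    set E := exp (11 / 20 : ℝ) with hEdef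
    have hv0 : 0 < v := exp_pos t
    have hE0 : 0 < E := exp_pos _
    have eS : sinh d = (E * v - E⁻¹ * v⁻¹) / 2 := by
      rw [sinh_eq, hd0, exp_neg, exp_add, mul_inv]; ring
    have eC : cosh d = (E * v + E⁻¹ * v⁻¹) / 2 := by
      rw [cosh_eq, hd0, exp_neg, exp_add, mul_inv]; ring
    have eh : sinh t = (v - v⁻¹) / 2 := by rw [sinh_eq, exp_neg]
    have e2 : exp (2 * t) = v ^ 2 := by rw [hvdef, sq, ← exp_add]; ring_nf
    have e2' : exp (-(2 * t)) = v⁻¹ ^ 2 := by rw [exp_neg, e2, inv_pow]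
    have hS2 : sinh (2 * t) = (v ^ 2 - v⁻¹ ^ 2) / 2 := by rw [sinh_eq, e2, e2']
    set x := v ^ 2 with hx
    set y := v⁻¹ ^ 2 with hy
    set e := E ^ 2 with he
    set f := E⁻¹ ^ 2 with hf
    have hvv : v * v⁻¹ = 1 := mul_inv_cancel₀ hv0.ne'
    have hEE : E * E⁻¹ = 1 := mul_inv_cancel₀ hE0.ne'
    have hxy : x * y = 1 := by rw [hx, hy, ← mul_pow, hvv, one_pow]
    clear_value v E x y e f
    have hx3 : 30041 / 10000 ≤ x := by
      rw [hx]; nlinarith only [hv, hlo]
    have hy0 : 0 ≤ y := hy ▸ sq_nonneg _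
    have hy1 : y ≤ 1 / 3 := by nlinarith only [mul_le_mul_of_nonneg_right hx3 hy0, hxy]
    have hel : 300416 / 100000 ≤ e := by rw [he]; nlinarith only [hlo]
    have heh : e ≤ 300417 / 100000 := by rw [he]; nlinarith only [hhi, hlo]
    have hfh : f ≤ 332875 / 1000000 := by
      have : e * f = 1 := by rw [he, hf, ← mul_pow, hEE, one_pow]
      nlinarith only [this, mul_le_mul_of_nonneg_right hel (hf ▸ sq_nonneg E⁻¹)]
    set a := sinh d ^ 2 - 2 * sinh t ^ 2 with ha
    set G := sinh d * cosh d with hG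
    have ea : a = (e * x + f * y) / 4 - (x + y) / 2 + 1 / 2 := by
      rw [ha, eS, eh, he, hf, hx, hy]
      linear_combination (-(v * v⁻¹) / 2) * hEE + (1 / 2) * hvv
    have eG : G = (e * x - f * y) / 4 := by
      rw [hG, eS, eC, he, hf, hx, hy]; ring
    have hGpos : 0 < G := by
      rw [eG]; nlinarith only [mul_le_mul_of_nonneg_right hel (show 0 ≤ x by linarith only [hx3]), mul_le_mul_of_nonneg_right hfh hy0, hx3, hy1]
    have hr : a ≤ 502 / 1000 * G := by
      have h1 : 0 ≤ (12598 / 100000 * x ^ 2 + 375 / 1000 - x / 2) * y := mul_nonneg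
        (by nlinarith only [sq_nonneg (x - 3004 / 1000), hx3]) hy0
      rw [show (12598 / 100000 * x ^ 2 + 375 / 1000 - x / 2) * y =
        12598 / 100000 * x * (x * y) + 375 / 1000 * y - (x * y) / 2 by ring, hxy] at h1
      rw [ea, eG]
      nlinarith only [h1, hy0, hx3, mul_le_mul_of_nonneg_right heh (by linarith : (0:ℝ) ≤ x),
        mul_le_mul_of_nonneg_right hfh hy0]
    have hrho : 334 / 1000 * G ≤ a := by
      rw [ea, eG]
      nlinarith only [hx3, hy0, hy1, mul_le_mul_of_nonneg_right hel (by linarith : (0:ℝ) ≤ x),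
        mul_nonneg (hf ▸ sq_nonneg E⁻¹) hy0]
    have hloss : th * a - G * (tc th - 1) ≤ 84 / 100 * (836 / 1000 * a - 167668 / 1000000 * G) := by
      refine (loss_le hth hGpos hr).trans ?_
      rw [mul_div_assoc]
      refine mul_le_mul_of_nonneg_left ?_ (by norm_num)
      rw [div_le_iff₀ hGpos]
      nlinarith only [mul_nonneg (sub_nonneg.2 hr) (sub_nonneg.2 hrho)]
    have hz := tail_nonneg ht
    rw [e2, e2', exp_neg, ← hvdef] at hz
    have hA : 546 / 10000 * x ≤ ((815 / 1000 * (1 + 84 / 100 * (167668 / 1000000)) -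
        84 / 100 * (815 / 1000) * (836 / 1000)) * (e / 4) +
        84 / 100 * (815 / 1000) * (836 / 1000) / 2 - 1 / 2) * x :=
      mul_le_mul_of_nonneg_right (by linarith) (by linarith)
    have hB : 661 / 1000 * y ≤ (1 / 2 + 84 / 100 * (815 / 1000) * (836 / 1000) / 2 -
        (815 / 1000 * (1 + 84 / 100 * (167668 / 1000000)) +
        84 / 100 * (815 / 1000) * (836 / 1000)) * (f / 4)) * y :=
      mul_le_mul_of_nonneg_right (by linarith) hy0
    have hE1 : E * v ≤ 17333 / 10000 * v := mul_le_mul_of_nonneg_right (by linarith) hv0.le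
    have hE2 : 5769 / 10000 * v⁻¹ ≤ E⁻¹ * v⁻¹ := mul_le_mul_of_nonneg_right
      (by rw [le_inv_comm₀ (by norm_num) hE0]; linarith) (inv_nonneg.2 hv0.le)
    have hexp : sinh d * (cosh d - 1) = G - sinh d := by rw [hG]; ring
    rw [hexp] at hfq
    simp only [P0, cc]
    rw [hS2] at hpsi ⊢
    rw [ea, eG] at hloss
    rw [eG, eS, ea] at hfq
    linarith

end Vale.Agent.P371.Leg
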