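import Vale.Agent.P371.Leg.Defs
import Vale.Agent.P371.Gamma.Main

/-!
# P371: the constant of the dual inequality is the one bound state constant
-/

namespace Vale.Agent.P371.Leg

open Real MeasureTheory Vale.Agent.P371.Gamma

variable {dl : ℝ}

lemma gam_gt_one (h0 : 0 < dl) (h1 : dl < 1) : 1 < gam dl := by
  have : 1 / 2 < 1 / (1 + dl) := by rw [lt_div_iff₀ (by linarith)]; linarith
  rw [gam]; linarith

lemma gam_sub_half (dl : ℝ) : gam dl - 1 / 2 = 1 / aExp dl := by rw [gam, aExp]; ring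

lemma density_exp (h0 : 0 < dl) :
    (gam dl + 1 / 2) / (gam dl - 1 / 2) = 1 + aExp dl := by
  rw [gam_sub_half, gam, aExp]; field_simp; ring

lemma dual_exp (h0 : 0 < dl) (h1 : dl < 1) : gam dl / (gam dl - 1) = gExp dl := by
  have : gam dl - 1 ≠ 0 := by linarith [gam_gt_one h0 h1]
  rw [div_eq_iff this, gExp, bExp, gam]
  have : (1 : ℝ) - dl ≠ 0 := by linarith
  field_simp
  ring

lemma J1_eq (h0 : 0 < dl) :
    J1 dl = √π * Gamma (1 / aExp dl) / Gamma (1 / aExp dl + 1 / 2) := by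
  have ha : 0 < aExp dl := by rw [aExp]; linarith
  set μ := 1 / aExp dl with hμdef
  have hμ : 0 < μ := by positivity
  have hν : -(dl / aExp dl) = μ - 1 := by rw [hμdef, aExp]; field_simp; ring
  have hsub := intervalIntegral.smul_integral_comp_mul_sub
    (a := (0:ℝ)) (b := 1) (f := fun s : ℝ => (1 - s ^ 2) ^ (μ - 1)) (2 : ℝ) (1 : ℝ)
  rw [smul_eq_mul] at hsub
  norm_num only at hsub
  have hb : ∫ t in (0:ℝ)..1, (t * (1 - t)) ^ (μ - 1) = Gamma μ * Gamma μ / Gamma (μ + μ) := by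
    apply Complex.ofReal_injective
    rw [Complex.ofReal_div, Complex.ofReal_mul, ← Complex.Gamma_ofReal, ← Complex.Gamma_ofReal,
      Complex.ofReal_add, ← Complex.betaIntegral_eq_Gamma_mul_div _ _ (by simpa) (by simpa),
      ← intervalIntegral.integral_ofReal, Complex.betaIntegral]
    refine intervalIntegral.integral_congr fun t ht => ?_
    rw [Set.uIcc_of_le zero_le_one] at ht
    simp only [mul_rpow ht.1 (sub_nonneg.2 ht.2), Complex.ofReal_mul, Complex.ofReal_cpow ht.1,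
      Complex.ofReal_cpow (sub_nonneg.2 ht.2)]
    push_cast
    ring
  have hin : ∫ t in (0:ℝ)..1, (1 - (2 * t - 1) ^ 2) ^ (μ - 1) =
      4 ^ (μ - 1) * (Gamma μ * Gamma μ / Gamma (μ + μ)) := by
    rw [← hb, ← intervalIntegral.integral_const_mul]
    refine intervalIntegral.integral_congr fun t ht => ?_
    rw [Set.uIcc_of_le zero_le_one] at ht
    rw [← mul_rpow (by norm_num) (mul_nonneg ht.1 (sub_nonneg.2 ht.2))]
    congr 1
    ring
  rw [J1, hν, ← hsub, hin]
  have hd := Gamma_mul_Gamma_add_half μ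
  have h4 : (2 : ℝ) ^ (1 - 2 * μ) = 2 / 4 ^ μ := by
    rw [rpow_sub two_pos, rpow_one, rpow_mul two_pos.le]; norm_num
  rw [h4] at hd
  rw [show μ + μ = 2 * μ by ring]
  have g1 := Gamma_pos_of_pos hμ
  have g2 := Gamma_pos_of_pos (by linarith : 0 < μ + 1 / 2)
  have g3 := Gamma_pos_of_pos (by linarith : 0 < 2 * μ)
  have h4p : (0:ℝ) < 4 ^ μ := rpow_pos_of_pos (by norm_num) _
  rw [rpow_sub_one (by norm_num : (4:ℝ) ≠ 0), eq_div_iff g2.ne']
  field_simp at hd ⊢
  linear_combination 2 * hd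

lemma Kc_pos (h0 : 0 < dl) : 0 < Kc dl := by
  have ha : 0 < aExp dl := by rw [aExp]; linarith
  refine rpow_pos_of_pos (div_pos ?_ ha) _
  rw [J1_eq h0]
  exact div_pos (mul_pos (sqrt_pos.2 pi_pos) (Gamma_pos_of_pos (by positivity)))
    (Gamma_pos_of_pos (by positivity))

lemma calibration_const (h0 : 0 < dl) (h1 : dl < 1) :
    youngC (gam dl + 1 / 2) (Kc dl) *
      (gam dl * (gam dl * (1 / gExp dl) / (gam dl - 1)) ^ (gam dl - 1)) = oneState (gam dl) := by
  have hγ := gam_gt_one h0 h1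
  rw [show gam dl * (1 / gExp dl) / (gam dl - 1) = 1 by
    rw [← dual_exp h0 h1]; have : gam dl - 1 ≠ 0 := by linarith
    field_simp, one_rpow, mul_one, oneState, youngC, Kc, J1_eq h0, ← gam_sub_half]
  set γ := gam dl with hγdef
  have ha : aExp dl = 1 / (γ - 1 / 2) := by rw [gam_sub_half, one_div_one_div]
  rw [ha]
  obtain ⟨ν, hν, hγν⟩ : ∃ ν, 0 < ν ∧ γ = ν + 1 / 2 := ⟨γ - 1 / 2, by linarith, by ring⟩
  rw [hγν, show ν + 1 / 2 + 1 / 2 - 1 = ν by ring, show ν + 1 / 2 - 1 / 2 = ν by ring,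
    show ν + 1 / 2 + 1 / 2 = ν + 1 by ring, show ν + 1 / 2 + 3 / 2 = ν + 1 + 1 by ring,
    Gamma_add_one (by linarith : ν + 1 ≠ 0), Gamma_add_one (by linarith : ν + 1 / 2 ≠ 0),
    Gamma_add_one hν.ne', div_div_eq_mul_div, div_one]
  have g1 := Gamma_pos_of_pos hν
  have g2 := Gamma_pos_of_pos (by linarith : 0 < ν + 1 / 2)
  set X := √π * Gamma ν / Gamma (ν + 1 / 2) * ν
  have hX : 0 < X := mul_pos (div_pos (mul_pos (sqrt_pos.2 pi_pos) g1) g2) hν
  rw [mul_rpow (div_nonneg (by linarith) hν.le) (rpow_nonneg hX.le _), ← rpow_mul hX.le,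
    show 1 / ν * -ν = -1 by field_simp, rpow_neg_one, rpow_neg (div_nonneg (by linarith) hν.le),
    div_rpow (by linarith : (0:ℝ) ≤ ν + 1) hν.le, div_rpow hν.le (by linarith : (0:ℝ) ≤ ν + 1)]
  have := rpow_pos_of_pos hν ν
  have := rpow_pos_of_pos (show 0 < ν + 1 by linarith) ν
  simp only [X]
  field_simp

end Vale.Agent.P371.Leg
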