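import Vale.Agent.P371.Leg.Deriv
import Vale.Agent.P371.Leg.Constants

/-!
# P371: a profile and the pointwise inequality give the exact constant
-/

namespace Vale.Agent.P371.Leg

open Finset Vale.Agent.P371 Vale.Agent.P371.Gamma
open scoped InnerProductSpace

variable {N : ℕ} {dl : ℝ} {E Q : ℝ → ℝ}

/-- The coordinate eigenbasis of a diagonal operator. -/
noncomputable def diagEig (d : Fin N → ℝ) : Eig (diagOp d) where
  b := EuclideanSpace.basisFun (Fin N) ℂ
  g := d
  hb a := by
    refine ext_inner_left ℂ fun v => ?_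
    rw [inner_diagOp, inner_smul_right, EuclideanSpace.basisFun_apply,
      EuclideanSpace.inner_single_right, one_mul]
    simp [PiLp.single_apply]
  hs v w := by
    rw [inner_diagOp, ← inner_conj_symm (diagOp d v) w, inner_diagOp, map_sum]
    refine sum_congr rfl fun i _ => ?_
    simp only [map_mul, Complex.conj_ofReal, Complex.conj_conj]
    ring

lemma Phi_zero_diag (hdl : 0 < dl) (hdl1 : dl < 1) (hP : IsProfile dl E Q) (d : Fin N → ℝ)
    (hd : ∀ i, 0 < d i) :
    Phi dl E Q 0 (diagOp d) = -(∑ i, d i ^ gExp dl / gExp dl) := by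
  have hF : (diagEig d).Pos := fun a => hd a
  rw [Phi_eq hdl hdl1 hP (diagEig d) hF, val_point]
  simp [diagEig, Eig.pw]

lemma calibrated_of_profile (hdl : 0 < dl) (hdl1 : dl < 1) (hP : IsProfile dl E Q)
    (hS : Subsolution dl E Q) : Calibrated (gam dl) (Kc dl) (1 / gExp dl) := by
  intro N δ T R hδ _ hR
  refine ⟨Phi dl E Q, exists_lipschitz_Phi hdl hdl1 hP hδ hR, ?_, ?_⟩
  · intro U D G x hU hG hbox d hd
    rw [density_exp hdl]
    exact deriv_Phi_le hdl hdl1 hP hS hδ U D G x hU hG hbox hd
  · intro t ht _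
    rw [Phi_zero_diag hdl hdl1 hP _ (fun i => add_pos hδ (ht i)),
      Phi_zero_diag hdl hdl1 hP _ (fun _ => hδ), dual_exp hdl hdl1, ← Finset.sum_div,
      ← Finset.sum_div, sum_sub_distrib]
    exact le_of_eq (by ring)

/-- A profile with the pointwise inequality gives the exact Lieb-Thirring constant. -/
theorem isGreatest_of_profile (hdl : 0 < dl) (hdl1 : dl < 1) (hP : IsProfile dl E Q)
    (hS : Subsolution dl E Q) : IsGreatest (Gamma.ratios (gam dl)) (Gamma.oneState (gam dl)) := by
  have hg : 0 < gExp dl := by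
    have : 0 ≤ bExp dl := div_nonneg (by linarith) (by linarith)
    rw [gExp]; linarith
  exact isGreatest_of_kinetic (gam_gt_one hdl hdl1) (Kc_pos hdl) (one_div_pos.2 hg)
    (calibration_const hdl hdl1)
    (kineticP_of_calibrated (gam_gt_one hdl hdl1) (calibrated_of_profile hdl hdl1 hP hS))

end Vale.Agent.P371.Leg
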