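import Vale.Agent.P371.Leg.Sign

/-!
# P371: uniform bounds on the profile
-/

namespace Vale.Agent.P371.Leg

open Set Filter Topology Real MeasureTheory

variable {dl : ℝ}

lemma Small.Kc_mem (h : Small dl) : 2 * (1 - dl) ≤ Kc dl ∧ Kc dl ≤ 2 * (1 + dl) := by
  have hn := h.nu_mem
  have ha := h.a_pos
  have hlo : 2 ≤ J1 dl := by
    have := intervalIntegral.integral_mono_on_of_le_Ioo (a := (-1:ℝ)) (b := 1) (by norm_num)
      (intervalIntegrable_const (c := (1:ℝ))) h.jw_integrable fun s hs => by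
        exact one_le_rpow_of_pos_of_le_one_of_nonpos (one_sub_sq_pos hs) (by nlinarith)
          (by linarith)
    simpa [J1, jw, nu, one_add_one_eq_two] using this
  have i1 : IntervalIntegrable (fun s : ℝ => (1 - s) ^ (-nu dl)) volume 0 1 := by
    have := ((intervalIntegral.intervalIntegrable_rpow' (show -1 < -nu dl by linarith)
      (a := 1) (b := 0)).comp_sub_left 1)
    norm_num at this ⊢
    exact this
  have i2 : IntervalIntegrable (fun s : ℝ => (1 + s) ^ (-nu dl)) volume (-1) 0 := by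
    have := ((intervalIntegral.intervalIntegrable_rpow' (show -1 < -nu dl by linarith)
      (a := 0) (b := 1)).comp_add_left 1)
    norm_num at this ⊢
    exact this
  have e1 : (∫ s in (0:ℝ)..1, (1 - s) ^ (-nu dl)) = aExp dl := by
    rw [intervalIntegral.integral_comp_sub_left (fun x => x ^ (-nu dl)) 1,
      integral_rpow (Or.inl (by linarith)), sub_self, sub_zero, one_rpow,
      zero_rpow (by linarith), sub_zero]
    unfold nu; field_simp; unfold aExp; ring
  have e2 : (∫ s in (-1:ℝ)..0, (1 + s) ^ (-nu dl)) = aExp dl := by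
    rw [intervalIntegral.integral_comp_add_left (fun x => x ^ (-nu dl)) 1,
      integral_rpow (Or.inl (by linarith)), add_neg_cancel, add_zero, one_rpow,
      zero_rpow (by linarith), sub_zero]
    unfold nu; field_simp; unfold aExp; ring
  have hA : IntervalIntegrable (jw dl) volume (-1) 0 :=
    h.jw_integrable.mono_set (by simp [uIcc_of_le, Icc_subset_Icc])
  have hB : IntervalIntegrable (jw dl) volume 0 1 :=
    h.jw_integrable.mono_set (by simp [uIcc_of_le, Icc_subset_Icc])
  have hhi : J1 dl ≤ 2 * aExp dl := by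
    have u1 := intervalIntegral.integral_mono_on_of_le_Ioo (a := (-1:ℝ)) (b := 0) (by norm_num)
      hA i2 fun s hs => rpow_le_rpow_of_nonpos (by linarith [hs.1]) (by nlinarith [hs.1, hs.2])
        (by linarith)
    have u2 := intervalIntegral.integral_mono_on_of_le_Ioo (a := (0:ℝ)) (b := 1) (by norm_num)
      hB i1 fun s hs => rpow_le_rpow_of_nonpos (by linarith [hs.2]) (by nlinarith [hs.1, hs.2])
        (by linarith)
    show (∫ s in (-1:ℝ)..1, jw dl s) ≤ _
    rw [← intervalIntegral.integral_add_adjacent_intervals hA hB]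
    linarith
  have hx : 2 / aExp dl ≤ J1 dl / aExp dl := by gcongr
  have hx2 : J1 dl / aExp dl ≤ 2 := by rw [div_le_iff₀ ha]; linarith
  have hx1 : 1 ≤ 2 / aExp dl := by rw [le_div_iff₀ ha]; unfold aExp; linarith [h.2]
  have ha1 : 1 ≤ aExp dl := by unfold aExp; linarith [h.1]
  refine ⟨?_, ?_⟩
  · calc 2 * (1 - dl) ≤ 2 / aExp dl := by
          rw [le_div_iff₀ ha]; unfold aExp; nlinarith [sq_nonneg dl]
      _ ≤ J1 dl / aExp dl := hx
      _ ≤ _ := self_le_rpow_of_one_le (hx1.trans hx) ha1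
  · calc Kc dl ≤ (2:ℝ) ^ aExp dl :=
          rpow_le_rpow (div_nonneg h.J1_pos.le ha.le) hx2 ha.le
      _ = 2 * (1 + 1) ^ dl := by rw [aExp, rpow_add two_pos, rpow_one]; norm_num
      _ ≤ _ := by
          have := rpow_one_add_le_one_add_mul_self (show (-1:ℝ) ≤ 1 by norm_num) h.1.le
            (by linarith [h.2])
          nlinarith

lemma Small.k_mem (h : Small dl) :
    2 ≤ kExp dl ∧ kExp dl ≤ 2 + 3 * dl ∧ bExp dl - 1 ≤ 3 * dl := by
  have hd : 0 < 1 - dl := by linarith [h.2]
  refine ⟨by linarith [h.k_eq, h.one_lt_b], ?_, ?_⟩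
  · unfold kExp; rw [div_le_iff₀ hd]; nlinarith [h.1, h.2]
  · unfold bExp; rw [sub_le_iff_le_add, div_le_iff₀ hd]; nlinarith [h.1, h.2]

namespace Flow

variable (F : Flow dl)

lemma one_add_le_D (h : Small dl) (l : ℝ) : 1 + 2 * exp l ≤ F.D l := by
  unfold D
  nlinarith [F.one_le_E h l, F.q_nonneg h l, h.one_lt_b, exp_pos l]

lemma z_eq (l : ℝ) : F.z l = (4:ℝ) ^ dl * exp (dl * l) := by
  rw [z, mul_rpow (by norm_num) (exp_pos l).le, ← exp_mul, mul_comm l]

lemma z_le (h : Small dl) (l : ℝ) :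
    F.z l ≤ 1 + 4 * exp l ∧ F.z l ≤ 2 + 2 * exp (l / 4) ∧ F.z l ≤ 2 * exp (l / 2) + 2 ∧
      exp (dl * l) ≤ F.z l := by
  have h4 : (4:ℝ) ^ dl ≤ 2 := by
    calc (4:ℝ) ^ dl ≤ (4:ℝ) ^ (1 / 2 : ℝ) :=
          rpow_le_rpow_of_exponent_le (by norm_num) (by linarith [h.2])
      _ = 2 := by rw [show (4:ℝ) = 2 ^ (2:ℝ) by norm_num, ← rpow_mul two_pos.le]; norm_num
  have h41 : 1 ≤ (4:ℝ) ^ dl := one_le_rpow (by norm_num) h.1.le
  have hgen : ∀ c, dl ≤ c → exp (dl * l) ≤ 1 + exp (c * l) := fun c hc => by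
    rcases le_total l 0 with hl | hl
    · linarith [exp_le_one_iff.2 (mul_nonpos_of_nonneg_of_nonpos h.1.le hl), exp_pos (c * l)]
    · linarith [exp_le_exp.2 (mul_le_mul_of_nonneg_right hc hl), exp_pos (c * l)]
  refine ⟨?_, ?_, ?_, ?_⟩
  · rcases le_total (4 * exp l) 1 with hx | hx
    · have := rpow_le_one (by positivity) hx h.1.le
      unfold z; nlinarith [exp_pos l]
    · calc F.z l ≤ (4 * exp l) ^ (1:ℝ) := rpow_le_rpow_of_exponent_le hx (by linarith [h.2])
        _ ≤ _ := by rw [rpow_one]; linarith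
  · rw [F.z_eq, show l / 4 = 1 / 4 * l by ring]
    nlinarith [hgen (1/4) (by linarith [h.2]), exp_pos (dl * l)]
  · rw [F.z_eq, show l / 2 = 1 / 2 * l by ring]
    nlinarith [hgen (1/2) (by linarith [h.2]), exp_pos (dl * l)]
  · rw [F.z_eq]; nlinarith [exp_pos (dl * l)]

/-- `2 z/(1+2u)` is bounded and decays. -/
lemma z_div_le (h : Small dl) (l : ℝ) :
    F.z l / (1 + 2 * exp l) ≤ 2 ∧ (0 ≤ l → F.z l / (1 + 2 * exp l) ≤ 2 * exp (-l / 2)) := by
  obtain ⟨h1, -, h3, -⟩ := F.z_le h l
  have hp : 0 < 1 + 2 * exp l := by positivity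
  refine ⟨by rw [div_le_iff₀ hp]; linarith [exp_pos l], fun hl => ?_⟩
  rw [div_le_iff₀ hp]
  have e1 : exp (-l / 2) * exp l = exp (l / 2) := by rw [← exp_add]; ring_nf
  have e2 : 1 ≤ exp (l / 2) := one_le_exp (by linarith)
  nlinarith [exp_pos (-l / 2)]

lemma qd_ge_of_le_one (h : Small dl) {l : ℝ} (hq : F.q l ≤ 1) :
    -(4.1 * dl * (F.z l / (1 + 2 * exp l))) ≤ F.qd l := by
  have hz := F.z_pos l
  have hM : F.M l ≤ dl * Kc dl * F.z l := by
    unfold M
    have h1 : 0 ≤ F.q l * (1 - F.q l) * exp l := by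
      have := F.q_nonneg h l; have : 0 ≤ 1 - F.q l := by linarith
      positivity
    have h2 : 0 ≤ (F.E l ^ 2 - 1) / (4 * exp l) :=
      div_nonneg (by nlinarith [F.one_le_E h l]) (by positivity)
    linarith
  rw [F.qd_eq h, neg_le_neg_iff, ← mul_div_assoc]
  have hK : dl * Kc dl * F.z l ≤ 2.05 * dl * F.z l := by
    have := h.Kc_mem.2
    have : Kc dl ≤ 2.05 := by norm_num; linarith [h.2]
    have := mul_le_mul_of_nonneg_left this (mul_nonneg h.1.le hz.le)
    linarith
  calc 2 * F.M l / F.D l ≤ 2 * F.M l / (1 + 2 * exp l) :=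
        div_le_div_of_nonneg_left (by linarith [F.M_nonneg h l]) (by positivity)
          (F.one_add_le_D h l)
    _ ≤ _ := div_le_div_of_nonneg_right (by linarith) (by positivity)

lemma big_q (h : Small dl) {l : ℝ} (hq : 1 < F.q l) : exp l ≤ 18 * dl * F.z l := by
  have hqc : Continuous F.q := continuous_iff_continuousAt.2 fun l => (F.hq l).continuousAt
  obtain ⟨r, hr1, hr2⟩ := ((F.q_top.eventually_lt_const one_pos).and
    (eventually_ge_atTop l)).exists
  obtain ⟨c, hc, hc1⟩ := intermediate_value_Icc' hr2 hqc.continuousOn ⟨hr1.le, hq.le⟩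
  have hle : ∀ s, c ≤ s → F.q s ≤ 1 := fun s hs => (F.q_anti h hs).trans hc1.le
  have hc0 : ∀ l0, 0 ≤ l0 → c ≤ l0 → F.q l0 ≤ 17 * dl * exp (-l0 / 2) := by
    intro l0 h0 hcl
    have mono : MonotoneOn (fun s => F.q s - 17 * dl * exp (-s / 2)) (Ici l0) := by
      refine monotoneOn_of_hasDerivWithinAt_nonneg (convex_Ici _)
        (hqc.sub (by fun_prop)).continuousOn
        (fun s _ => ((F.hq s).sub
          ((((hasDerivAt_id s).neg.div_const 2).exp).const_mul (17 * dl))).hasDerivWithinAt)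
        fun s hs => ?_
      rw [interior_Ici, mem_Ioi] at hs
      have h1 := F.qd_ge_of_le_one h (hle s (hcl.trans hs.le))
      have h2 := (F.z_div_le h s).2 (h0.trans hs.le)
      simp only [id_eq, Pi.neg_apply]
      nlinarith [mul_le_mul_of_nonneg_left h2 h.1.le, h.1, exp_pos (-s / 2)]
    have lim : Tendsto (fun s => F.q s - 17 * dl * exp (-s / 2)) atTop (𝓝 0) := by
      have : Tendsto (fun s : ℝ => exp (-s / 2)) atTop (𝓝 0) :=
        Real.tendsto_exp_atBot.comp ((tendsto_neg_atTop_atBot).atBot_div_const two_pos)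
      simpa using F.q_top.sub (this.const_mul (17 * dl))
    have := ge_of_tendsto lim (eventually_atTop.2 ⟨l0, fun s hs =>
      mono (self_mem_Ici) hs hs⟩)
    linarith
  have hc' : c < 0 := by
    by_contra hh
    push Not at hh
    have := hc0 c hh le_rfl
    rw [hc1] at this
    nlinarith [exp_le_one_iff.2 (show -c / 2 ≤ 0 by linarith), h.1, h.2]
  have mono : MonotoneOn (fun s => F.q s + 9 * dl * s) (Icc c 0) := by
    refine monotoneOn_of_hasDerivWithinAt_nonneg (convex_Icc _ _)
      (hqc.add (by fun_prop)).continuousOn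
      (fun s _ => ((F.hq s).add ((hasDerivAt_id s).const_mul (9 * dl))).hasDerivWithinAt)
      fun s hs => ?_
    rw [interior_Icc] at hs
    have h1 := F.qd_ge_of_le_one h (hle s hs.1.le)
    nlinarith [mul_le_mul_of_nonneg_left (F.z_div_le h s).1 h.1.le, h.1]
  have hm := mono (left_mem_Icc.2 hc'.le) (right_mem_Icc.2 hc'.le) hc'.le
  have h0 := hc0 0 le_rfl hc'.le
  simp only [hc1, neg_zero, zero_div, exp_zero, mul_zero, add_zero, mul_one] at hm h0
  have hlc : l ≤ c := hc.1
  -- `exp (c/2) ≤ 18 dl`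
  have hk : exp (c / 2) ≤ 18 * dl := by
    have h1 := add_one_le_exp (-(c / 2))
    have h3 : exp (-(c / 2)) * exp (c / 2) = 1 := by rw [← exp_add]; simp
    have h4 : 1 ≤ 18 * dl * exp (-(c / 2)) := by
      nlinarith [h.1]
    nlinarith [mul_le_mul_of_nonneg_left h4 (exp_pos (c / 2)).le]
  calc exp l ≤ exp (l / 2) * exp (dl * l) := by
        rw [← exp_add]; exact exp_le_exp.2 (by nlinarith [h.2])
    _ ≤ 18 * dl * F.z l := mul_le_mul ((exp_le_exp.2 (by linarith)).trans hk)
        (F.z_le h l).2.2.2 (exp_pos _).le (by linarith [h.1])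

lemma M_le (h : Small dl) (l : ℝ) : F.M l ≤ 50 * dl * F.z l := by
  have hz := F.z_pos l
  have h2 : 0 ≤ (F.E l ^ 2 - 1) / (4 * exp l) :=
    div_nonneg (by nlinarith [F.one_le_E h l]) (by positivity)
  have hK : dl * Kc dl * F.z l ≤ 3 * dl * F.z l := by
    nlinarith [h.Kc_mem.2, mul_pos h.1 hz, h.2]
  have hq0 := F.q_nonneg h l
  unfold M
  rcases le_or_gt (F.q l) 1 with hq | hq
  · have : 0 ≤ F.q l * (1 - F.q l) * exp l := by
      have : 0 ≤ 1 - F.q l := by linarith
      positivity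
    nlinarith [mul_pos h.1 hz]
  · have hqk := F.q_le_k h l
    have hb : F.q l * (F.q l - 1) ≤ 2.5 := by
      have := h.k_mem.2.1; have := h.2
      norm_num; nlinarith
    have := mul_le_mul hb (F.big_q h hq) (exp_pos l).le (by norm_num)
    nlinarith [mul_pos h.1 hz]

lemma qd_ge (h : Small dl) (l : ℝ) : -(100 * dl * (F.z l / (1 + 2 * exp l))) ≤ F.qd l := by
  rw [F.qd_eq h, neg_le_neg_iff, ← mul_div_assoc]
  calc 2 * F.M l / F.D l ≤ 2 * F.M l / (1 + 2 * exp l) :=
        div_le_div_of_nonneg_left (by linarith [F.M_nonneg h l]) (by positivity)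
          (F.one_add_le_D h l)
    _ ≤ _ := div_le_div_of_nonneg_right (by linarith [F.M_le h l]) (by positivity)

lemma Ed_le (h : Small dl) (l : ℝ) :
    -(exp l * F.qd l) ≤ 100 * dl * (F.z l / (1 + 2 * exp l)) * exp l := by
  have := mul_le_mul_of_nonneg_left (F.qd_ge h l) (exp_pos l).le
  linarith

lemma E_sub_one_le_aux (h : Small dl) (R Rd : ℝ → ℝ) (hR : ∀ l, HasDerivAt R (Rd l) l)
    (hle : ∀ l, 100 * dl * (F.z l / (1 + 2 * exp l)) * exp l ≤ Rd l)
    (h0 : Tendsto R atBot (𝓝 0)) (l : ℝ) : F.E l - 1 ≤ R l := by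
  have anti : Antitone (fun s => F.E s - 1 - R s) :=
    antitone_of_hasDerivAt_nonpos (fun s => ((F.hE s).sub_const 1).sub (hR s))
      fun s => show _ ≤ (0:ℝ) by linarith [F.Ed_le h s, hle s]
  have lim : Tendsto (fun s => F.E s - 1 - R s) atBot (𝓝 0) := by
    simpa using (F.E_bot.sub_const 1).sub h0
  linarith [ge_of_tendsto lim (eventually_atBot.2 ⟨l, fun s hs => anti hs⟩)]

lemma z_atBot (h : Small dl) : Tendsto F.z atBot (𝓝 0) := by
  have := (Real.tendsto_exp_atBot.const_mul 4).rpow_const (p := dl) (Or.inr h.1.le)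
  rwa [mul_zero, zero_rpow h.1.ne'] at this

lemma E_sub_one_le (h : Small dl) (l : ℝ) : F.E l - 1 ≤ 100 * dl * (exp l * F.z l) ∧
    F.E l - 1 ≤ 200 * dl * exp l ∧ F.E l - 1 ≤ 800 * dl * exp (l / 4) := by
  refine ⟨F.E_sub_one_le_aux h _ (fun s => 100 * dl * (exp s * F.z s + exp s * (dl * F.z s)))
      (fun s => ((Real.hasDerivAt_exp s).mul (F.hasDerivAt_z s)).const_mul _) (fun s => ?_) ?_ l,
    F.E_sub_one_le_aux h _ (fun s => 200 * dl * exp s)
      (fun s => (Real.hasDerivAt_exp s).const_mul _) (fun s => ?_) ?_ l,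
    F.E_sub_one_le_aux h _ (fun s => 200 * dl * exp (s / 4))
      (fun s => ((((hasDerivAt_id s).div_const 4).exp).const_mul (800 * dl)).congr_deriv
        (by simp only [id_eq]; ring)) (fun s => ?_) ?_ l⟩
  · have h1 : F.z s / (1 + 2 * exp s) ≤ F.z s :=
      div_le_self (F.z_pos s).le (by linarith [exp_pos s])
    have h2 := mul_le_mul_of_nonneg_left h1 (mul_nonneg h.1.le (exp_pos s).le)
    nlinarith [mul_pos (mul_pos h.1 h.1) (mul_pos (exp_pos s) (F.z_pos s))]
  · simpa using ((Real.tendsto_exp_atBot).mul (F.z_atBot h)).const_mul (100 * dl)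
  · nlinarith [mul_le_mul_of_nonneg_left (F.z_div_le h s).1 (mul_nonneg h.1.le (exp_pos s).le)]
  · simpa using (Real.tendsto_exp_atBot).const_mul (200 * dl)
  · have hp : 0 < 1 + 2 * exp s := by positivity
    have key : F.z s * exp s / (1 + 2 * exp s) ≤ 2 * exp (s / 4) := by
      rw [div_le_iff₀ hp]
      have h2 := mul_le_mul_of_nonneg_right (F.z_le h s).2.1 (exp_pos s).le
      have h3 : exp s ≤ exp (s / 4) * (1 + exp s) := by
        rcases le_total s 0 with hs | hs
        · nlinarith [exp_le_exp.2 (show s ≤ s / 4 by linarith), exp_pos (s / 4), exp_pos s]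
        · nlinarith [one_le_exp (show 0 ≤ s / 4 by linarith), exp_pos s]
      nlinarith [exp_pos (s / 4), exp_pos s]
    rw [mul_assoc, div_mul_eq_mul_div]
    nlinarith [h.1]
  · have := Real.tendsto_exp_atBot.comp ((tendsto_id (α := ℝ)).atBot_div_const four_pos)
    simpa using this.const_mul (800 * dl)

lemma sq_term_le (h : Small dl) (l : ℝ) :
    (F.E l ^ 2 - 1) / (4 * exp l) ≤ 2000 * dl * F.z l := by
  obtain ⟨hc, -, hb⟩ := F.E_sub_one_le h l
  have hz := F.z_pos l
  have hE := F.one_le_E h l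
  have hu := exp_pos l
  rw [div_le_iff₀ (by positivity)]
  have key : (F.E l - 1) * (F.E l - 1) ≤ 6500 * dl * F.z l * exp l := by
    rcases le_total l 0 with hl | hl
    · have : F.E l - 1 ≤ 8 := by
        nlinarith [exp_le_one_iff.2 (show l / 4 ≤ 0 by linarith), h.1, h.2, exp_pos (l / 4)]
      nlinarith [mul_le_mul hc this (by linarith) (by have := h.1; positivity),
        mul_pos (mul_pos h.1 hu) hz]
    · have h1 := mul_le_mul hb hb (by linarith) (by have := h.1; positivity)
      have e : exp (l / 4) * exp (l / 4) = exp (l / 2) := by rw [← exp_add]; ring_nf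
      have h2 : exp (l / 2) ≤ F.z l * exp l := by
        have : 1 ≤ F.z l :=
          (one_le_exp (mul_nonneg h.1.le hl)).trans (F.z_le h l).2.2.2
        nlinarith [exp_le_exp.2 (show l / 2 ≤ l by linarith)]
      have h3 : dl * dl ≤ dl * (1 / 100) := mul_le_mul_of_nonneg_left h.2 h.1.le
      have h4 : 800 * dl * exp (l / 4) * (800 * dl * exp (l / 4)) =
          640000 * (dl * dl) * exp (l / 2) := by rw [← e]; ring
      rw [h4] at h1
      have h5 := mul_le_mul h3 h2 (exp_pos _).le (by linarith [h.1])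
      nlinarith [mul_pos (mul_pos h.1 hu) hz]
  nlinarith [mul_pos (mul_pos h.1 hu) hz]

lemma qu_le (h : Small dl) (l : ℝ) : F.q l * exp l ≤ 800 * dl * F.z l := by
  have hqc : Continuous F.q := continuous_iff_continuousAt.2 fun l => (F.hq l).continuousAt
  have pos : ∀ s, 0 ≤ s → F.q s ≤ 100 * dl * (F.z s * exp (-s)) := by
    intro s0 h0
    have mono : MonotoneOn (fun s => F.q s - 100 * dl * (F.z s * exp (-s))) (Ici s0) := by
      refine monotoneOn_of_hasDerivWithinAt_nonneg (convex_Ici _)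
        (hqc.continuousOn.sub fun s _ => ((F.hasDerivAt_z s).mul
          (hasDerivAt_id s).neg.exp |>.const_mul _).continuousAt.continuousWithinAt)
        (fun s _ => ((F.hq s).sub (((F.hasDerivAt_z s).mul
          (hasDerivAt_id s).neg.exp).const_mul (100 * dl))).hasDerivWithinAt) fun s _ => ?_
      have h1 := F.qd_ge h s
      have h2 : F.z s / (1 + 2 * exp s) ≤ F.z s * exp (-s) / 2 := by
        rw [div_le_iff₀ (by positivity)]
        have e : exp (-s) * exp s = 1 := by rw [← exp_add]; simp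
        nlinarith [mul_pos (F.z_pos s) (exp_pos (-s)), F.z_pos s]
      have h3 := mul_pos (mul_pos h.1 (F.z_pos s)) (exp_pos (-s))
      simp only [id_eq, Pi.neg_apply]
      nlinarith [mul_le_mul_of_nonneg_left h2 h.1.le,
        mul_le_mul_of_nonneg_right h.2 h3.le]
    have lim : Tendsto (fun s => F.q s - 100 * dl * (F.z s * exp (-s))) atTop (𝓝 0) := by
      have h1 : Tendsto (fun s : ℝ => exp (-(1 - dl) * s)) atTop (𝓝 0) :=
        Real.tendsto_exp_atBot.comp (tendsto_id.const_mul_atTop_of_neg (by linarith [h.2]))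
      have e : (fun s => F.z s * exp (-s)) = fun s => (4:ℝ) ^ dl * exp (-(1 - dl) * s) := by
        funext s; rw [F.z_eq, mul_assoc, ← exp_add]; ring_nf
      have := F.q_top.sub ((h1.const_mul ((4:ℝ) ^ dl)).const_mul (100 * dl))
      simp only [mul_zero, sub_zero] at this
      exact this.congr fun s => by rw [congrFun e s]
    have := ge_of_tendsto lim (eventually_atTop.2 ⟨s0, fun s hs => mono self_mem_Ici hs hs⟩)
    linarith
  rcases le_total 0 l with hl | hl
  · have e : exp (-l) * exp l = 1 := by rw [← exp_add]; simp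
    calc F.q l * exp l ≤ 100 * dl * (F.z l * exp (-l)) * exp l :=
          mul_le_mul_of_nonneg_right (pos l hl) (exp_pos l).le
      _ = 100 * dl * F.z l * (exp (-l) * exp l) := by ring
      _ ≤ _ := by rw [e]; nlinarith [mul_pos h.1 (F.z_pos l)]
  · have mono : MonotoneOn (fun s => F.q s + 200 * dl * s) (Icc l 0) := by
      refine monotoneOn_of_hasDerivWithinAt_nonneg (convex_Icc _ _)
        (hqc.add (by fun_prop)).continuousOn
        (fun s _ => ((F.hq s).add ((hasDerivAt_id s).const_mul (200 * dl))).hasDerivWithinAt)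
        fun s _ => ?_
      nlinarith [F.qd_ge h s, mul_le_mul_of_nonneg_left (F.z_div_le h s).1 h.1.le]
    have hm := mono (left_mem_Icc.2 hl) (right_mem_Icc.2 hl) hl
    have h0 := pos 0 le_rfl
    have hz0 : F.z 0 ≤ 2 * exp 0 + 2 := by simpa using (F.z_le h 0).2.2.1
    simp only [exp_zero, mul_one, neg_zero] at h0 hz0
    simp only [mul_zero, add_zero] at hm
    have hh : exp (l / 2) ≤ F.z l :=
      (exp_le_exp.2 (by nlinarith [h.1, h.2])).trans (F.z_le h l).2.2.2
    have e : exp l = exp (l / 2) * exp (l / 2) := by rw [← exp_add]; ring_nf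
    have h1 : exp (l / 2) ≤ 1 := exp_le_one_iff.2 (by linarith)
    have h2 : -l * exp (l / 2) ≤ 2 := by
      have h1 := add_one_le_exp (-(l / 2))
      have h3 : exp (-(l / 2)) * exp (l / 2) = 1 := by rw [← exp_add]; simp
      nlinarith [mul_le_mul_of_nonneg_right h1 (exp_pos (l / 2)).le, exp_pos (l / 2)]
    have hq : F.q l ≤ 100 * dl * F.z 0 + 200 * dl * -l := by linarith
    calc F.q l * exp l ≤ (400 * dl + 200 * dl * -l) * exp l :=
          mul_le_mul_of_nonneg_right (by nlinarith [h.1]) (exp_pos l).le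
      _ = exp (l / 2) * (400 * dl * exp (l / 2) + 200 * dl * (-l * exp (l / 2))) := by
          rw [e]; ring
      _ ≤ F.z l * (400 * dl + 200 * dl * 2) := by
          refine mul_le_mul hh ?_ ?_ (F.z_pos l).le
          · nlinarith [h.1]
          · have := h.1; have : 0 ≤ -l := by linarith
            positivity
      _ = 800 * dl * F.z l := by ring

end Flow

end Vale.Agent.P371.Leg
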