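import Vale.Agent.P371.Leg.Hyp

/-!
# P371: the main elementary inequality, set-up and derivatives in `t`
-/

namespace Vale.Agent.P371.Leg

open Set Real

/-- The coefficient. -/
noncomputable def cc : ℝ := 815 / 1000

/-- Left part. -/
noncomputable def fq (t d th : ℝ) : ℝ :=
  th * sinh t ^ 2 + wt th / 2 * (sinh d * (cosh (d - th) - 1))

/-- The Jensen gain. -/
noncomputable def psi (t p : ℝ) : ℝ := tanh t * (t - p) + log (cosh p) - log (cosh t)

/-- The function to be shown nonnegative. -/
noncomputable def P0 (p th t : ℝ) : ℝ :=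
  2 * cc * fq t (t + p) th + sinh (2 * t) * psi t p + 2 * t - sinh (2 * t)

noncomputable def P1 (p th t : ℝ) : ℝ :=
  2 * cc * (th * sinh (2 * t) + wt th / 2 * (cosh (2 * (t + p) - th) - cosh (t + p))) +
    2 * cosh (2 * t) * psi t p + 2 * tanh t * (t - p) - 4 * sinh t ^ 2

noncomputable def P2 (p th t : ℝ) : ℝ :=
  2 * cc * (2 * th * cosh (2 * t) +
      wt th / 2 * (2 * sinh (2 * (t + p) - th) - sinh (t + p))) +
    4 * sinh (2 * t) * psi t p + 4 * (t - p) + 2 * tanh t - 4 * sinh (2 * t)

noncomputable def P3 (p th t : ℝ) : ℝ :=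
  2 * cc * (4 * th * sinh (2 * t) +
      wt th / 2 * (4 * cosh (2 * (t + p) - th) - cosh (t + p))) +
    8 * cosh (2 * t) * psi t p + 8 * tanh t * (t - p) + 4 + 2 * (1 - tanh t ^ 2) -
      8 * cosh (2 * t)

lemma hasDerivAt_psi (t p : ℝ) :
    HasDerivAt (fun s => psi s p) ((1 - tanh t ^ 2) * (t - p)) t := by
  refine ((((hasDerivAt_tanh' t).mul ((hasDerivAt_id t).sub_const p)).add_const
    (log (cosh p))).sub ((hasDerivAt_cosh t).log (cosh_pos t).ne')).congr_deriv ?_
  rw [tanh_eq_sinh_div_cosh, id_eq]; ring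

lemma tanh_mul_facts (t : ℝ) :
    sinh (2 * t) * (1 - tanh t ^ 2) = 2 * tanh t ∧
      (cosh (2 * t) + 1) * (1 - tanh t ^ 2) = 2 ∧
      tanh t * (cosh (2 * t) + 1) = sinh (2 * t) := by
  have := cosh_sq t
  have hc := (cosh_pos t).ne'
  rw [sinh_two_mul, cosh_two_mul, tanh_eq_sinh_div_cosh]
  refine ⟨?_, ?_, ?_⟩
  · field_simp; linear_combination (sinh t) * this
  · field_simp; linear_combination (cosh t ^ 2 + sinh t ^ 2) * this
  · field_simp; linear_combination (-sinh t) * this

lemma hasDerivAt_two_mul (t : ℝ) :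
    HasDerivAt (fun s => sinh (2 * s)) (2 * cosh (2 * t)) t ∧
    HasDerivAt (fun s => cosh (2 * s)) (2 * sinh (2 * t)) t := by
  constructor
  · exact (((hasDerivAt_id t).const_mul 2).sinh).congr_deriv (by simp; ring)
  · exact (((hasDerivAt_id t).const_mul 2).cosh).congr_deriv (by simp; ring)

lemma hasDerivAt_P0 (p th t : ℝ) : HasDerivAt (P0 p th) (P1 p th t) t := by
  have hd : HasDerivAt (fun s : ℝ => s + p) 1 t := (hasDerivAt_id t).add_const p
  obtain ⟨hS, -⟩ := hasDerivAt_two_mul t
  have hf : HasDerivAt (fun s => fq s (s + p) th)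
      (th * sinh (2 * t) + wt th / 2 * (cosh (2 * (t + p) - th) - cosh (t + p))) t := by
    refine ((((hasDerivAt_sinh t).pow 2).const_mul th).add
      ((hd.sinh.mul (((hd.sub_const th).cosh).sub_const 1)).const_mul (wt th / 2))).congr_deriv ?_
    rw [show 2 * (t + p) - th = (t + p) + (t + p - th) by ring, cosh_add (t + p) (t + p - th), sinh_two_mul]
    simp only [Nat.cast_ofNat, Nat.add_one_sub_one, pow_one]
    ring
  refine ((((hf.const_mul (2 * cc)).add (hS.mul (hasDerivAt_psi t p))).add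
    ((hasDerivAt_id t).const_mul 2)).sub hS).congr_deriv ?_
  obtain ⟨h1, -, -⟩ := tanh_mul_facts t
  have h4 : cosh (2 * t) = 1 + 2 * sinh t ^ 2 := by rw [cosh_two_mul]; linarith [cosh_sq t]
  simp only [P1]
  linear_combination (t - p) * h1 - 2 * h4

lemma hasDerivAt_P1 (p th t : ℝ) : HasDerivAt (P1 p th) (P2 p th t) t := by
  have hd : HasDerivAt (fun s : ℝ => s + p) 1 t := (hasDerivAt_id t).add_const p
  obtain ⟨hS, hC⟩ := hasDerivAt_two_mul t
  obtain ⟨-, h2, -⟩ := tanh_mul_facts t
  refine (((((hS.const_mul th).add ((((hd.const_mul 2).sub_const th).cosh.sub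
    hd.cosh).const_mul (wt th / 2))).const_mul (2 * cc)).add
    ((hC.const_mul 2).mul (hasDerivAt_psi t p))).add
    (((hasDerivAt_tanh' t).const_mul 2).mul ((hasDerivAt_id t).sub_const p)) |>.sub
    (((hasDerivAt_sinh t).pow 2).const_mul 4)).congr_deriv ?_
  simp only [P2, id_eq, Nat.cast_ofNat, Nat.add_one_sub_one, pow_one]
  rw [sinh_two_mul (x := t)]
  linear_combination (2 * (t - p)) * h2

lemma hasDerivAt_P2 (p th t : ℝ) : HasDerivAt (P2 p th) (P3 p th t) t := by
  have hd : HasDerivAt (fun s : ℝ => s + p) 1 t := (hasDerivAt_id t).add_const p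
  obtain ⟨hS, hC⟩ := hasDerivAt_two_mul t
  obtain ⟨h1, -, -⟩ := tanh_mul_facts t
  refine ((((((hC.const_mul (2 * th)).add (((((hd.const_mul 2).sub_const th).sinh.const_mul
    2).sub hd.sinh).const_mul (wt th / 2))).const_mul (2 * cc)).add
    ((hS.const_mul 4).mul (hasDerivAt_psi t p))).add
    (((hasDerivAt_id t).sub_const p).const_mul 4)).add
    ((hasDerivAt_tanh' t).const_mul 2) |>.sub (hS.const_mul 4)).congr_deriv ?_
  simp only [P3]
  linear_combination (4 * (t - p)) * h1

/-- Taylor's formula with a constant lower bound for the third derivative. -/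
lemma P0_lower {p th t m : ℝ} (hpt : p ≤ t) (h : ∀ s ∈ Icc p t, m ≤ P3 p th s) :
    P0 p th p + P1 p th p * (t - p) + P2 p th p / 2 * (t - p) ^ 2 + m / 6 * (t - p) ^ 3 ≤
      P0 p th t := by
  have e2 : ∀ s ∈ Icc p t, P2 p th p + m * (s - p) ≤ P2 p th s := fun s hs => by
    have := monotoneOn_of_hasDerivWithinAt_nonneg (convex_Icc p t)
      (f := fun r => P2 p th r - m * (r - p)) (f' := fun r => P3 p th r - m * 1)
      (fun r _ => ((hasDerivAt_P2 p th r).sub
        (((hasDerivAt_id r).sub_const p).const_mul m)).continuousAt.continuousWithinAt)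
      (fun r _ => ((hasDerivAt_P2 p th r).sub
        (((hasDerivAt_id r).sub_const p).const_mul m)).hasDerivWithinAt)
      (fun r hr => by linarith [h r (interior_subset hr)]) (left_mem_Icc.2 hpt) hs hs.1
    simp only [sub_self, mul_zero, sub_zero] at this
    linarith
  have e1 : ∀ s ∈ Icc p t, P1 p th p + P2 p th p * (s - p) + m / 2 * (s - p) ^ 2 ≤ P1 p th s :=
    fun s hs => by
    have hd : ∀ r, HasDerivAt (fun r => P1 p th r - P2 p th p * (r - p) - m / 2 * (r - p) ^ 2)
        (P2 p th r - P2 p th p - m * (r - p)) r := fun r =>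
      (((hasDerivAt_P1 p th r).sub (((hasDerivAt_id r).sub_const p).const_mul _)).sub
        ((((hasDerivAt_id r).sub_const p).pow 2).const_mul _)).congr_deriv (by simp; ring)
    have := monotoneOn_of_hasDerivWithinAt_nonneg (convex_Icc p t)
      (fun r _ => (hd r).continuousAt.continuousWithinAt) (fun r _ => (hd r).hasDerivWithinAt)
      (fun r hr => by linarith [e2 r (interior_subset hr)]) (left_mem_Icc.2 hpt) hs hs.1
    simp only [sub_self, mul_zero, sub_zero, ne_eq, OfNat.ofNat_ne_zero, not_false_eq_true,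
      zero_pow] at this
    linarith
  have hd : ∀ r, HasDerivAt (fun r => P0 p th r - P1 p th p * (r - p) -
      P2 p th p / 2 * (r - p) ^ 2 - m / 6 * (r - p) ^ 3)
      (P1 p th r - P1 p th p - P2 p th p * (r - p) - m / 2 * (r - p) ^ 2) r := fun r =>
    ((((hasDerivAt_P0 p th r).sub (((hasDerivAt_id r).sub_const p).const_mul _)).sub
      ((((hasDerivAt_id r).sub_const p).pow 2).const_mul _)).sub
      ((((hasDerivAt_id r).sub_const p).pow 3).const_mul _)).congr_deriv (by simp; ring)
  have := monotoneOn_of_hasDerivWithinAt_nonneg (convex_Icc p t)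
    (fun r _ => (hd r).continuousAt.continuousWithinAt) (fun r _ => (hd r).hasDerivWithinAt)
    (fun r hr => by linarith [e1 r (interior_subset hr)]) (left_mem_Icc.2 hpt)
    (right_mem_Icc.2 hpt) hpt
  simp only [sub_self, mul_zero, sub_zero, ne_eq, OfNat.ofNat_ne_zero, not_false_eq_true,
    zero_pow] at this
  linarith

end Vale.Agent.P371.Leg
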