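import Vale.Agent.P371.Leg.Defs

/-!
# P371: the one bound state curve for exponents near 3/2

The curve is `τ ↦ (gc τ, Pc τ)` with `τ² + K P^a = 1`; the profile is explicit in `(τ, gc τ)`.
-/

namespace Vale.Agent.P371.Leg

open Set MeasureTheory Filter Topology Real

/-- Parameters: `0 < dl ≤ 1/100`. -/
def Small (dl : ℝ) : Prop := 0 < dl ∧ dl ≤ 1 / 100

variable {dl : ℝ}

lemma Small.a_pos (h : Small dl) : 0 < aExp dl := by unfold aExp; linarith [h.1]

lemma Small.one_lt_b (h : Small dl) : 1 < bExp dl := by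
  unfold bExp; rw [lt_div_iff₀ (by linarith [h.2])]; linarith [h.1]

lemma Small.b_le (h : Small dl) : bExp dl ≤ 51 / 49 := by
  unfold bExp; rw [div_le_iff₀ (by linarith [h.2])]; linarith [h.2]

lemma Small.k_eq (h : Small dl) : kExp dl = bExp dl + 1 := by
  have : 1 - dl ≠ 0 := by linarith [h.2]
  unfold kExp bExp; field_simp; ring

lemma Small.gp_pos (h : Small dl) : 0 < gExp dl := by unfold gExp; linarith [h.one_lt_b]

/-- The exponent of the substitution. -/
noncomputable def nu (dl : ℝ) : ℝ := dl / aExp dl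

lemma Small.nu_mem (h : Small dl) : 0 < nu dl ∧ nu dl < 1 :=
  ⟨div_pos h.1 h.a_pos, (div_lt_one h.a_pos).2 (by unfold aExp; linarith)⟩

/-- The integrand. -/
noncomputable def jw (dl s : ℝ) : ℝ := (1 - s ^ 2) ^ (-nu dl)

lemma one_sub_sq_pos {t : ℝ} (ht : t ∈ Ioo (-1:ℝ) 1) : 0 < 1 - t ^ 2 := by
  nlinarith [ht.1, ht.2]

lemma Small.jw_integrable (h : Small dl) : IntervalIntegrable (jw dl) volume (-1) 1 := by
  have hn : -1 < -nu dl := by linarith [h.nu_mem.2]
  have i1 : IntervalIntegrable (fun s : ℝ => (1 - s) ^ (-nu dl)) volume (-1) 1 := by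
    have := ((intervalIntegral.intervalIntegrable_rpow' hn (a := 2) (b := 0)).comp_sub_left 1)
    norm_num at this ⊢
    exact this
  have i2 : IntervalIntegrable (fun s : ℝ => (1 + s) ^ (-nu dl)) volume (-1) 1 := by
    have := ((intervalIntegral.intervalIntegrable_rpow' hn (a := 0) (b := 2)).comp_add_left 1)
    norm_num at this ⊢
    exact this
  refine (i1.add i2).mono_fun' ?_ ?_
  · unfold jw; exact (by fun_prop : Measurable fun s : ℝ => (1 - s ^ 2) ^ (-nu dl)).aestronglyMeasurable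
  · rw [uIoc_of_le (by norm_num : (-1:ℝ) ≤ 1), restrict_Ioo_eq_restrict_Ioc.symm]
    filter_upwards [self_mem_ae_restrict measurableSet_Ioo] with s hs
    have h1 : 0 < 1 - s := by linarith [hs.2]
    have h2 : 0 < 1 + s := by linarith [hs.1]
    have hn0 : -nu dl ≤ 0 := by linarith [h.nu_mem.1]
    unfold jw
    rw [norm_of_nonneg (rpow_nonneg (one_sub_sq_pos hs).le _)]
    rcases le_total 0 s with hs0 | hs0
    · calc (1 - s ^ 2) ^ (-nu dl) ≤ (1 - s) ^ (-nu dl) :=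
            rpow_le_rpow_of_nonpos h1 (by nlinarith) hn0
        _ ≤ _ := le_add_of_nonneg_right (rpow_nonneg h2.le _)
    · calc (1 - s ^ 2) ^ (-nu dl) ≤ (1 + s) ^ (-nu dl) :=
            rpow_le_rpow_of_nonpos h2 (by nlinarith) hn0
        _ ≤ _ := le_add_of_nonneg_left (rpow_nonneg h1.le _)

lemma Small.J1_pos (h : Small dl) : 0 < J1 dl := by
  have : ∀ s ∈ Ioo (-1:ℝ) 1, 0 < jw dl s := fun s hs => rpow_pos_of_pos (one_sub_sq_pos hs) _
  exact intervalIntegral.intervalIntegral_pos_of_pos_on h.jw_integrable this (by norm_num)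

lemma Small.Kc_pos (h : Small dl) : 0 < Kc dl := rpow_pos_of_pos (div_pos h.J1_pos h.a_pos) _

/-- `∫_{-1}^t`. -/
noncomputable def Jl (dl t : ℝ) : ℝ := ∫ s in (-1:ℝ)..t, jw dl s

/-- The first coordinate of the curve. -/
noncomputable def gc (dl t : ℝ) : ℝ := 1 - Jl dl t / J1 dl

/-- The second coordinate of the curve. -/
noncomputable def Pc (dl t : ℝ) : ℝ := ((1 - t ^ 2) / Kc dl) ^ (1 / aExp dl)

/-- The speed. -/
noncomputable def wc (dl t : ℝ) : ℝ := Pc dl t / (aExp dl * (1 - t ^ 2))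

lemma gc_one : J1 dl ≠ 0 → gc dl 1 = 0 := fun h => by
  show 1 - J1 dl / J1 dl = 0
  rw [div_self h]; ring

lemma gc_neg_one : gc dl (-1) = 1 := by simp [gc, Jl]

lemma Pc_one (h : Small dl) : Pc dl 1 = 0 := by
  simp [Pc, zero_rpow (inv_ne_zero h.a_pos.ne')]

lemma Pc_neg_one (h : Small dl) : Pc dl (-1) = 0 := by
  simp [Pc, zero_rpow (inv_ne_zero h.a_pos.ne')]

lemma Small.Pc_pos (h : Small dl) {t : ℝ} (ht : t ∈ Ioo (-1:ℝ) 1) : 0 < Pc dl t :=
  rpow_pos_of_pos (div_pos (one_sub_sq_pos ht) h.Kc_pos) _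

lemma Small.wc_pos (h : Small dl) {t : ℝ} (ht : t ∈ Ioo (-1:ℝ) 1) : 0 < wc dl t :=
  div_pos (h.Pc_pos ht) (mul_pos h.a_pos (one_sub_sq_pos ht))

lemma Small.Pc_pow (h : Small dl) {t : ℝ} (ht : t ∈ Ioo (-1:ℝ) 1) :
    Kc dl * Pc dl t ^ aExp dl = 1 - t ^ 2 := by
  rw [Pc, ← rpow_mul (div_pos (one_sub_sq_pos ht) h.Kc_pos).le, one_div,
    inv_mul_cancel₀ h.a_pos.ne', rpow_one, mul_div_cancel₀ _ h.Kc_pos.ne']

lemma Small.wc_eq (h : Small dl) {t : ℝ} (ht : t ∈ Ioo (-1:ℝ) 1) :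
    wc dl t = jw dl t / J1 dl := by
  have hw := one_sub_sq_pos ht
  have ha := h.a_pos
  have e : -nu dl = 1 / aExp dl - 1 := by
    unfold nu; field_simp; unfold aExp; ring
  have hK : Kc dl ^ (1 / aExp dl) = J1 dl / aExp dl := by
    rw [Kc, ← rpow_mul (div_pos h.J1_pos ha).le, mul_one_div_cancel ha.ne', rpow_one]
  rw [wc, Pc, div_rpow hw.le h.Kc_pos.le, hK, jw, e, rpow_sub_one hw.ne']
  have := h.J1_pos
  field_simp

lemma Small.continuousOn_gc (h : Small dl) : ContinuousOn (gc dl) (Icc (-1) 1) := by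
  have := intervalIntegral.continuousOn_primitive_interval' h.jw_integrable
    (left_mem_uIcc (a := (-1:ℝ)) (b := 1))
  rw [uIcc_of_le (by norm_num : (-1:ℝ) ≤ 1)] at this
  exact continuousOn_const.sub (this.div_const _)

lemma Small.continuousOn_Pc (h : Small dl) : ContinuousOn (Pc dl) (Icc (-1) 1) :=
  (by fun_prop : ContinuousOn (fun t : ℝ => (1 - t ^ 2) / Kc dl) (Icc (-1) 1)).rpow_const
    fun _ _ => Or.inr (one_div_pos.2 h.a_pos).le

lemma Small.hasDerivAt_gc (h : Small dl) {t : ℝ} (ht : t ∈ Ioo (-1:ℝ) 1) :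
    HasDerivAt (gc dl) (-wc dl t) t := by
  have hc : ContinuousOn (jw dl) (Ioo (-1:ℝ) 1) :=
    (by fun_prop : ContinuousOn (fun s : ℝ => 1 - s ^ 2) (Ioo (-1) 1)).rpow_const
      fun s hs => Or.inl (one_sub_sq_pos hs).ne'
  have hi : IntervalIntegrable (jw dl) volume (-1) t :=
    h.jw_integrable.mono_set (uIcc_subset_uIcc_left
      (by rw [uIcc_of_le (by norm_num : (-1:ℝ) ≤ 1)]; exact Ioo_subset_Icc_self ht))
  have hd := intervalIntegral.integral_hasDerivAt_right hi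
    (hc.stronglyMeasurableAtFilter isOpen_Ioo t ht) (hc.continuousAt (isOpen_Ioo.mem_nhds ht))
  rw [h.wc_eq ht]
  exact (hd.div_const _).const_sub 1

lemma Small.hasDerivAt_Pc (h : Small dl) {t : ℝ} (ht : t ∈ Ioo (-1:ℝ) 1) :
    HasDerivAt (Pc dl) (-(2 * t * wc dl t)) t := by
  have hw := one_sub_sq_pos ht
  have hq := div_pos hw h.Kc_pos
  have hd := ((((hasDerivAt_id t).pow 2).const_sub 1).div_const (Kc dl)).rpow_const
    (p := 1 / aExp dl) (Or.inl hq.ne')
  refine hd.congr_deriv ?_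
  simp only [id_eq, Pi.pow_apply, Nat.cast_ofNat, Nat.add_one_sub_one, pow_one, mul_one]
  rw [rpow_sub_one hq.ne', wc, Pc]
  have := h.a_pos
  have := h.Kc_pos
  field_simp

/-! ### Elementary inequalities on the curve -/

lemma Small.ineqs (h : Small dl) {t : ℝ} (ht : t ∈ Ioo (-1:ℝ) 1) :
    Pc dl t ≤ 2 * gc dl t ∧ 2 * t * gc dl t ≤ Pc dl t ∧ Pc dl t ≤ 2 * (1 - gc dl t) ∧
      -(2 * t * (1 - gc dl t)) ≤ Pc dl t := by
  have hI : interior (Icc (-1:ℝ) 1) = Ioo (-1) 1 := interior_Icc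
  have h1 : (-1:ℝ) ∈ Icc (-1:ℝ) 1 := by constructor <;> norm_num
  have h2 : (1:ℝ) ∈ Icc (-1:ℝ) 1 := by constructor <;> norm_num
  have ht' := Ioo_subset_Icc_self ht
  have cg := h.continuousOn_gc
  have cP := h.continuousOn_Pc
  have e1 := gc_one h.J1_pos.ne'
  have e2 := Pc_one h
  have e3 := gc_neg_one (dl := dl)
  have e4 := Pc_neg_one h
  have anti : ∀ (f : ℝ → ℝ) (f' : ℝ → ℝ), ContinuousOn f (Icc (-1) 1) →
      (∀ s ∈ Ioo (-1:ℝ) 1, HasDerivAt f (f' s) s) → (∀ s ∈ Ioo (-1:ℝ) 1, f' s ≤ 0) →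
      AntitoneOn f (Icc (-1) 1) := fun f f' hc hd hs =>
    antitoneOn_of_hasDerivWithinAt_nonpos (convex_Icc _ _) hc
      (fun s hx => (hd s (hI ▸ hx)).hasDerivWithinAt) (fun s hx => hs s (hI ▸ hx))
  refine ⟨?_, ?_, ?_, ?_⟩
  · have := anti (fun s => 2 * gc dl s - Pc dl s) _ ((cg.const_smul (2:ℝ)).sub cP)
      (fun s hs => ((h.hasDerivAt_gc hs).const_mul 2).sub (h.hasDerivAt_Pc hs))
      (fun s hs => by nlinarith [h.wc_pos hs, hs.2]) ht' h2 ht.2.le
    simp only [e1, e2] at this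
    linarith
  · have := anti (fun s => Pc dl s - 2 * s * gc dl s) _
      (cP.sub ((continuousOn_const.mul continuousOn_id).mul cg))
      (fun s hs => (h.hasDerivAt_Pc hs).sub
        (((hasDerivAt_id s).const_mul 2).mul (h.hasDerivAt_gc hs)))
      (fun s hs => by
        have : gc dl 1 ≤ gc dl s := anti (gc dl) _ cg (fun r hr => h.hasDerivAt_gc hr)
          (fun r hr => by linarith [h.wc_pos hr]) (Ioo_subset_Icc_self hs) h2 hs.2.le
        simp only [id_eq]; linarith) ht' h2 ht.2.le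
    simp only [e1, e2] at this
    linarith
  · have := anti (fun s => Pc dl s - 2 * (1 - gc dl s)) _
      (cP.sub ((continuousOn_const.sub cg).const_smul (2:ℝ)))
      (fun s hs => (h.hasDerivAt_Pc hs).sub (((h.hasDerivAt_gc hs).const_sub 1).const_mul 2))
      (fun s hs => by nlinarith [h.wc_pos hs, hs.1]) h1 ht' ht.1.le
    simp only [e3, e4] at this
    linarith
  · have := anti (fun s => -Pc dl s - 2 * s * (1 - gc dl s)) _
      (cP.neg.sub ((continuousOn_const.mul continuousOn_id).mul (continuousOn_const.sub cg)))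
      (fun s hs => (h.hasDerivAt_Pc hs).neg.sub
        (((hasDerivAt_id s).const_mul 2).mul ((h.hasDerivAt_gc hs).const_sub 1)))
      (fun s hs => by
        have : gc dl s ≤ gc dl (-1) := anti (gc dl) _ cg (fun r hr => h.hasDerivAt_gc hr)
          (fun r hr => by linarith [h.wc_pos hr]) h1 (Ioo_subset_Icc_self hs) hs.1.le
        simp only [id_eq]; rw [e3] at this; linarith) h1 ht' ht.1.le
    simp only [e3, e4] at this
    linarith

lemma Small.gc_mem (h : Small dl) {t : ℝ} (ht : t ∈ Ioo (-1:ℝ) 1) : gc dl t ∈ Ioo (0:ℝ) 1 := by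
  obtain ⟨h1, _, h3, _⟩ := h.ineqs ht
  have := h.Pc_pos ht
  exact ⟨by linarith, by linarith⟩

/-! ### The profile along the curve -/

/-- `u = P / (4 g^k)`. -/
noncomputable def uc (dl t : ℝ) : ℝ := Pc dl t / (4 * gc dl t * gc dl t ^ bExp dl)

/-- `q = 1 - φ`. -/
noncomputable def qc (dl t : ℝ) : ℝ :=
  1 - 4 / (2 + aExp dl) * (aExp dl * t * (gc dl t / Pc dl t) +
    (2 - aExp dl) * (gc dl t / Pc dl t) ^ 2 * (1 - (gc dl t ^ bExp dl) ^ 2))

/-- The profile energy. -/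
noncomputable def Ec (dl t : ℝ) : ℝ :=
  (2 * (gc dl t / Pc dl t) * (1 - (gc dl t ^ bExp dl) ^ 2) - t) /
    (gExp dl * gc dl t ^ bExp dl)

lemma Small.uc_pos (h : Small dl) {t : ℝ} (ht : t ∈ Ioo (-1:ℝ) 1) : 0 < uc dl t := by
  have := (h.gc_mem ht).1
  exact div_pos (h.Pc_pos ht) (by positivity)

lemma Small.zeta_c (h : Small dl) {t : ℝ} (ht : t ∈ Ioo (-1:ℝ) 1) :
    Kc dl * (4 * uc dl t) ^ dl =
      (1 - t ^ 2) * gc dl t / (Pc dl t * gc dl t ^ bExp dl) := by
  have hg := (h.gc_mem ht).1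
  have hP := h.Pc_pos ht
  have e4 : 4 * uc dl t = Pc dl t / gc dl t ^ kExp dl := by
    rw [h.k_eq, rpow_add hg, rpow_one, uc]; field_simp
  have ek : kExp dl * dl = bExp dl - 1 := by
    have : 1 - dl ≠ 0 := by linarith [h.2]
    unfold kExp bExp; field_simp; ring
  rw [e4, div_rpow hP.le (rpow_nonneg hg.le _), ← rpow_mul hg.le, ek, rpow_sub_one hg.ne',
    ← h.Pc_pow ht, aExp, rpow_add hP, rpow_one]
  field_simp

theorem Small.identity_c (h : Small dl) {t : ℝ} (ht : t ∈ Ioo (-1:ℝ) 1) :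
    Kc dl * (4 * uc dl t) ^ dl = (kExp dl - qc dl t) * Ec dl t +
      qc dl t * (1 - qc dl t) * uc dl t - (Ec dl t ^ 2 - 1) / (4 * uc dl t) := by
  have hg := (h.gc_mem ht).1
  have hP := h.Pc_pos ht
  have hG : 0 < gc dl t ^ bExp dl := rpow_pos_of_pos hg _
  have hd : 1 - dl ≠ 0 := by linarith [h.2]
  have hd' : (3 + dl) ≠ 0 := by linarith [h.1]
  have hgp : (3 + dl) / (1 - dl) = gExp dl := by unfold gExp bExp; field_simp; ring
  rw [h.zeta_c ht]
  simp only [qc, Ec, uc, kExp, ← hgp, aExp, show 2 + (1 + dl) = 3 + dl by ring]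
  generalize gc dl t = g at *
  generalize g ^ bExp dl = G at *
  generalize Pc dl t = P at *
  field_simp
  ring

theorem Small.deriv_c (h : Small dl) {t : ℝ} (ht : t ∈ Ioo (-1:ℝ) 1) :
    ∃ qd : ℝ, HasDerivAt (qc dl) qd t ∧ HasDerivAt (Ec dl) (-(uc dl t * qd)) t := by
  have hg := (h.gc_mem ht).1
  have hP := h.Pc_pos ht
  have dg := h.hasDerivAt_gc ht
  have dP := h.hasDerivAt_Pc ht
  have dG : HasDerivAt (fun s => gc dl s ^ bExp dl)
      (bExp dl * (gc dl t ^ bExp dl / gc dl t) * -wc dl t) t := by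
    have := dg.rpow_const (p := bExp dl) (Or.inl hg.ne')
    refine this.congr_deriv ?_
    rw [rpow_sub_one hg.ne']; ring
  have dx := dg.div dP hP.ne'
  have dO := (dG.pow 2).const_sub 1
  have hgp := h.gp_pos
  have hG : 0 < gc dl t ^ bExp dl := rpow_pos_of_pos hg _
  have dq := ((((hasDerivAt_id t).const_mul (aExp dl)).mul dx).add
    (((dx.pow 2).const_mul (2 - aExp dl)).mul dO)).const_mul (4 / (2 + aExp dl)) |>.const_sub 1
  have dE := ((((dx.const_mul 2).mul dO).sub (hasDerivAt_id t))).div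
    (dG.const_mul (gExp dl)) (by positivity)
  refine ⟨_, dq, dE.congr_deriv ?_⟩
  simp only [id_eq, Pi.pow_apply, Pi.mul_apply, Pi.sub_apply, Pi.div_apply, Nat.cast_ofNat,
    Nat.add_one_sub_one, pow_one, mul_one]
  have hd : 1 - dl ≠ 0 := by linarith [h.2]
  have hd' : (3 + dl) ≠ 0 := by linarith [h.1]
  have hd1 : (1 + dl) ≠ 0 := by linarith [h.1]
  have hw := (one_sub_sq_pos ht).ne'
  have hgp' : gExp dl = (3 + dl) / (1 - dl) := by unfold gExp bExp; field_simp; ring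
  simp only [uc, wc, hgp', aExp, show 2 + (1 + dl) = 3 + dl by ring]
  generalize gc dl t = g at *
  generalize g ^ bExp dl = G at *
  generalize Pc dl t = P at *
  unfold bExp
  field_simp
  ring

lemma Small.den_c (h : Small dl) {t : ℝ} (ht : t ∈ Ioo (-1:ℝ) 1) :
    Ec dl t + 2 * (bExp dl + qc dl t) * uc dl t =
      (kExp dl * Pc dl t - 2 * t * gc dl t) / (2 * gc dl t * gc dl t ^ bExp dl) := by
  have hg := (h.gc_mem ht).1
  have hP := h.Pc_pos ht
  have hG : 0 < gc dl t ^ bExp dl := rpow_pos_of_pos hg _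
  have hd : 1 - dl ≠ 0 := by linarith [h.2]
  have hd' : (3 + dl) ≠ 0 := by linarith [h.1]
  have hgp' : gExp dl = (3 + dl) / (1 - dl) := by unfold gExp bExp; field_simp; ring
  simp only [qc, Ec, uc, hgp', kExp, aExp, show 2 + (1 + dl) = 3 + dl by ring]
  generalize gc dl t = g at *
  generalize g ^ bExp dl = G at *
  generalize Pc dl t = P at *
  unfold bExp
  field_simp
  ring

end Vale.Agent.P371.Leg
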