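import Mathlib

/-!
# P371: exponents near 3/2, the calibration in eigen-coordinates

`dl` is the deformation parameter: `γ - 1/2 = 1 / (1 + dl)`, so `dl = 0` is `γ = 3/2`.
A point is given by the eigenvalues `g i > 0` of `G` and the weights `p i ≥ 0` of the vector
in its eigenbasis; `E` and `Q` are the one bound state profile in the variable `u = A / ε`.
-/

namespace Vale.Agent.P371.Leg

open Finset

/-- `a = 1 / (γ - 1/2)`. -/
def aExp (dl : ℝ) : ℝ := 1 + dl

/-- `β = a / (2 - a)`. -/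
noncomputable def bExp (dl : ℝ) : ℝ := (1 + dl) / (1 - dl)

/-- `k = β + 1`. -/
noncomputable def kExp (dl : ℝ) : ℝ := 2 / (1 - dl)

/-- The exponent `γ / (γ - 1) = 2β + 1` of the dual functional. -/
noncomputable def gExp (dl : ℝ) : ℝ := 2 * bExp dl + 1

/-- The Lieb-Thirring exponent. -/
noncomputable def gam (dl : ℝ) : ℝ := 1 / (1 + dl) + 1 / 2

/-- `∫_{-1}^{1} (1 - s²)^(-dl/a)`. -/
noncomputable def J1 (dl : ℝ) : ℝ := ∫ s in (-1:ℝ)..1, (1 - s ^ 2) ^ (-(dl / aExp dl))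

/-- The one bound state constant of the dual inequality. -/
noncomputable def Kc (dl : ℝ) : ℝ := (J1 dl / aExp dl) ^ aExp dl

/-- The first kernel. -/
noncomputable def Gk (x y : ℝ) : ℝ := 1 / (2 * (x + y))

/-- The second kernel: `(1 - dl d²) Gk` with `d = (x - y) / (x + y)`. -/
noncomputable def Hk (dl x y : ℝ) : ℝ := (1 - dl) * Gk x y + 2 * dl * (x * y) / (x + y) ^ 3

/-- The divided difference of `Gk · c`. -/
noncomputable def DGk (x y c : ℝ) : ℝ := -2 * Gk x c * Gk y c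

/-- The divided difference of `Hk · c`. -/
noncomputable def DHk (dl x y c : ℝ) : ℝ :=
  (1 - dl) * DGk x y c +
    2 * dl * c * (c ^ 3 - x * y * (x + y) - 3 * c * x * y) / ((x + c) ^ 3 * (y + c) ^ 3)

/-- A profile: `E + Q u` is minimised at the own parameter, the domain of `u` is `[0, ∞)`. -/
structure IsProfile (dl : ℝ) (E Q : ℝ → ℝ) : Prop where
  q_mem : ∀ u, 0 ≤ u → Q u ∈ Set.Icc 0 (kExp dl)
  one_le : ∀ u, 0 ≤ u → 1 ≤ E u
  zero : E 0 = 1 ∧ Q 0 = kExp dl
  cont : ContinuousOn E (Set.Ici 0) ∧ ContinuousOn Q (Set.Ici 0)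
  anti : AntitoneOn Q (Set.Ici 0)
  min_le : ∀ u v, 0 ≤ u → 0 ≤ v → E u + Q u * u ≤ E v + Q v * u

variable {N : ℕ}

/-- The data of a point. -/
structure Point (N : ℕ) where
  p : Fin N → ℝ
  g : Fin N → ℝ
  hp : ∀ i, 0 ≤ p i
  hg : ∀ i, 0 < g i

namespace Point

variable (P : Point N) (dl : ℝ) (E Q : ℝ → ℝ)

noncomputable def rho : ℝ := ∑ i, P.p i

noncomputable def eps (i : Fin N) : ℝ := P.g i ^ bExp dl

noncomputable def av (i : Fin N) : ℝ := ∑ c, P.p c * Gk (P.g i) (P.g c)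

noncomputable def Av (i : Fin N) : ℝ := ∑ c, P.p c * Hk dl (P.g i) (P.g c)

noncomputable def uv (i : Fin N) : ℝ := P.Av dl i / P.eps dl i

noncomputable def qv (i : Fin N) : ℝ := Q (P.uv dl i)

noncomputable def Ev (i : Fin N) : ℝ := E (P.uv dl i)

/-- The value of the calibration. -/
noncomputable def val : ℝ :=
  -(∑ i, P.g i ^ gExp dl / gExp dl) +
    ∑ i, P.p i * (P.av i - P.eps dl i * P.Ev dl E i - P.qv dl Q i * P.Av dl i)

/-- The derivative in `p i` at frozen profile parameters. -/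
noncomputable def fv (i : Fin N) : ℝ :=
  -(P.eps dl i * P.Ev dl E i) + 2 * P.av i - P.qv dl Q i * P.Av dl i -
    ∑ c, P.p c * P.qv dl Q c * Hk dl (P.g i) (P.g c)

/-- The divided difference of `fv`; for equal eigenvalues it is the derivative at frozen
parameters (then the two last differences are `0`). -/
noncomputable def dd (i j : Fin N) : ℝ :=
  -(dslope (fun t : ℝ => t ^ bExp dl) (P.g i) (P.g j) * ((P.Ev dl E i + P.Ev dl E j) / 2)) -
      (P.eps dl i + P.eps dl j) / 2 * ((P.Ev dl E i - P.Ev dl E j) / (P.g i - P.g j)) +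
    ∑ c, P.p c * (2 * DGk (P.g i) (P.g j) (P.g c) -
      ((P.qv dl Q i + P.qv dl Q j) / 2 + P.qv dl Q c) * DHk dl (P.g i) (P.g j) (P.g c)) -
    (P.Av dl i + P.Av dl j) / 2 * ((P.qv dl Q i - P.qv dl Q j) / (P.g i - P.g j))

/-- `|Φ_u|²/4 + Φ_G[u u*] + K ρ^(1+a)`. -/
noncomputable def S : ℝ :=
  ∑ i, P.p i * (P.fv dl E Q i ^ 2 - P.eps dl i ^ 2) +
    ∑ i, ∑ j, P.p i * P.p j * P.dd dl E Q i j + Kc dl * P.rho ^ (1 + aExp dl)

end Point

/-- The pointwise inequality behind the calibration. -/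
def Subsolution (dl : ℝ) (E Q : ℝ → ℝ) : Prop :=
  ∀ (N : ℕ) (P : Point N), P.S dl E Q ≤ 0

end Vale.Agent.P371.Leg
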