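import Vale.Agent.P371.Leg.Frozen

/-!
# P371: the derivative of the calibration along the flow
-/

namespace Vale.Agent.P371.Leg

open Finset Filter Polynomial Vale.Agent.P371 Vale.Agent.P371.Gamma
open scoped InnerProductSpace Topology ComplexConjugate

variable {N : ℕ} {dl : ℝ} {E Q : ℝ → ℝ}

/-- The divided difference as a linear map of the polynomial. -/
noncomputable def ddL (x y : ℝ) : ℝ[X] →ₗ[ℝ] ℝ :=
  Polynomial.lsum fun n => LinearMap.mulRight ℝ (∑ k ∈ Finset.range n, x ^ k * y ^ (n - 1 - k))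

lemma ddL_apply (P : ℝ[X]) (x y : ℝ) : ddL x y P = ddPoly P x y := by
  simp [ddL, ddPoly, Polynomial.lsum_apply, Polynomial.sum_def]

section point

variable {G0 : Op N} (F : Eig G0) (D u : Vec N)

/-- The mixed weight of the derivative of the vector. -/
noncomputable def Eig.wt (a : Fin N) : ℝ := (⟪D, F.b a⟫_ℂ * ⟪F.b a, u⟫_ℂ).re

/-- The derivative of a polynomial spectral form, as a linear map of the polynomial. -/
noncomputable def Eig.dq : ℝ[X] →ₗ[ℝ] ℝ :=
  ∑ a, (2 * F.wt D u a) • Polynomial.leval (F.g a) +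
    ∑ a, ∑ c, (F.pw u a * F.pw u c) • ddL (F.g a) (F.g c)

lemma Eig.dq_apply (P : ℝ[X]) : F.dq D u P =
    (∑ a, 2 * F.wt D u a * P.eval (F.g a)) +
      ∑ a, ∑ c, F.pw u a * F.pw u c * ddPoly P (F.g a) (F.g c) := by
  simp [Eig.dq, ddL_apply]

variable (dl E Q)

/-- The polynomial whose spectral form has the derivative of the frozen quadratic kernel. -/
noncomputable def polyKer : ℝ[X] :=
  ∑ n ∈ nodes F, ∑ m ∈ nodes F,
    ((Kf dl (qn dl Q F u n) n m * quad (lag (nodes F) m) u G0) • lag (nodes F) n +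
      (Kf dl (qn dl Q F u n) n m * quad (lag (nodes F) n) u G0) • lag (nodes F) m +
      (dKf dl (qn dl Q F u n) n m * quad (lag (nodes F) m) u G0) • mag (nodes F) n +
      (dKf dl (qn dl Q F u n) m n * quad (lag (nodes F) n) u G0) • mag (nodes F) m)

lemma quad_mag (n : ℝ) : quad (mag (nodes F) n) u G0 = 0 := by
  rw [quad_eq F]
  exact sum_eq_zero fun a _ => by rw [(mag_eval (mem_nodes F a)).1, mul_zero]

lemma sum_quad_lag (f : ℝ → ℝ) :
    ∑ m ∈ nodes F, f m * quad (lag (nodes F) m) u G0 = ∑ c, F.pw u c * f (F.g c) := by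
  simp only [quad_eq F, Finset.mul_sum]
  rw [Finset.sum_comm]
  refine sum_congr rfl fun c _ => ?_
  simp [(lag_eval (mem_nodes F c)), mem_nodes F c, mul_comm]

lemma polyKer_eval {k : ℝ} (hk : k ∈ nodes F) :
    (polyKer dl Q F u).eval k =
        ∑ c, F.pw u c * (Kf dl (qn dl Q F u k) k (F.g c) + Kf dl (qn dl Q F u (F.g c)) (F.g c) k) ∧
      (polyKer dl Q F u).derivative.eval k =
        ∑ c, F.pw u c *
          (dKf dl (qn dl Q F u k) k (F.g c) + dKf dl (qn dl Q F u (F.g c)) k (F.g c)) := by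
  constructor
  · simp [polyKer, eval_finsetSum, (lag_eval hk), (mag_eval hk), sum_add_distrib, hk]
    rw [sum_quad_lag F u (fun m => Kf dl (qn dl Q F u k) k m),
      sum_quad_lag F u (fun n => Kf dl (qn dl Q F u n) n k)]
    simp [mul_add, sum_add_distrib]
  · simp [polyKer, eval_finsetSum, (lag_eval hk), (mag_eval hk), sum_add_distrib, hk]
    rw [sum_quad_lag F u (fun m => dKf dl (qn dl Q F u k) k m),
      sum_quad_lag F u (fun n => dKf dl (qn dl Q F u n) k n)]
    simp [mul_add, sum_add_distrib]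

/-- The linearisation of the frozen form. -/
noncomputable def polyTot : ℝ[X] := polyLin dl E F u + polyKer dl Q F u

variable (hF : F.Pos)

lemma polyTot_eval (a : Fin N) :
    (polyTot dl E Q F u).eval (F.g a) = (F.point hF u).fv dl E Q a := by
  rw [polyTot, eval_add, polyLin, (herm_eval _ _ (mem_nodes F a)).1,
    (polyKer_eval dl Q F u (mem_nodes F a)).1]
  simp only [Kf, qn, par, Eig.mom, Point.fv, Point.eps, Point.Ev, Point.uv, Point.Av, Point.av,
    Point.qv, Eig.point]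
  simp only [Gk_comm (F.g _) (F.g a), Hk_comm dl (F.g _) (F.g a), mul_add, mul_sub,
    sum_add_distrib, sum_sub_distrib]
  simp only [Gk_comm (F.g a), Hk_comm dl (F.g a), mul_left_comm _ (Q _), ← Finset.mul_sum,
    mul_assoc]
  ring

lemma ddPoly_polyTot (i j : Fin N) :
    ddPoly (polyTot dl E Q F u) (F.g i) (F.g j) = (F.point hF u).dd dl E Q i j := by
  set P := F.point hF u with hPdef
  have hpg : ∀ c, P.g c = F.g c := fun _ => rfl
  rcases eq_or_ne (F.g i) (F.g j) with h | h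
  · have e1 : P.Av dl i = P.Av dl j := by simp only [Point.Av, hpg, h]
    have e2 : P.uv dl i = P.uv dl j := by simp only [Point.uv, Point.eps, e1, hpg, h]
    have e3 : P.qv dl Q i = P.qv dl Q j := by simp only [Point.qv, e2]
    have e4 : P.Ev dl E i = P.Ev dl E j := by simp only [Point.Ev, e2]
    have hd : dslope (fun t : ℝ => t ^ bExp dl) (F.g i) (F.g i) =
        bExp dl * F.g i ^ (bExp dl - 1) := by
      rw [dslope_same]
      exact (Real.hasDerivAt_rpow_const (Or.inl (hF i).ne')).deriv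
    rw [Point.dd, ← e1, ← e3, ← e4, hpg, hpg, ← h, hd, ddPoly_self]
    simp only [sub_self, zero_div, div_zero, mul_zero, sub_zero]
    rw [polyTot, derivative_add, eval_add, polyLin,
      (herm_eval _ _ (mem_nodes F i)).2, (polyKer_eval dl Q F u (mem_nodes F i)).2]
    congr 1
    · simp only [Point.Ev, Point.uv, Point.eps, Point.Av, hPdef, Eig.point, par, Eig.mom]
      ring
    · refine sum_congr rfl fun c _ => ?_
      simp only [dKf, qn, par, Eig.mom, Point.qv, Point.uv, Point.eps, Point.Av, hPdef, Eig.point]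
      ring
  · have hne : F.g i - F.g j ≠ 0 := sub_ne_zero.2 h
    have key := ddPoly_mul (polyTot dl E Q F u) (F.g i) (F.g j)
    rw [polyTot_eval dl E Q F u hF, polyTot_eval dl E Q F u hF] at key
    refine mul_right_cancel₀ hne (key.trans ?_)
    have hA : ∀ f : Fin N → ℝ, ∑ c, P.p c * f c * (Hk dl (F.g i) (F.g c) - Hk dl (F.g j) (F.g c)) =
        (∑ c, P.p c * f c * DHk dl (F.g i) (F.g j) (F.g c)) * (F.g i - F.g j) := fun f => by
      rw [Finset.sum_mul]
      exact sum_congr rfl fun c _ => by rw [Hk_sub dl (hF i) (hF j) (hF c)]; ring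
    have hG : P.av i - P.av j =
        (∑ c, P.p c * DGk (F.g i) (F.g j) (F.g c)) * (F.g i - F.g j) := by
      simp only [Point.av, hpg]
      rw [← sum_sub_distrib, Finset.sum_mul]
      exact sum_congr rfl fun c _ => by rw [← mul_sub, Gk_sub (hF i) (hF j) (hF c)]; ring
    have hAv : P.Av dl i - P.Av dl j =
        (∑ c, P.p c * DHk dl (F.g i) (F.g j) (F.g c)) * (F.g i - F.g j) := by
      have := hA fun _ => 1
      simp only [mul_one] at this
      simp only [Point.Av, hpg, ← sum_sub_distrib, ← mul_sub]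
      exact this
    have hQ : ∑ c, P.p c * P.qv dl Q c * Hk dl (F.g i) (F.g c) -
        ∑ c, P.p c * P.qv dl Q c * Hk dl (F.g j) (F.g c) =
        (∑ c, P.p c * P.qv dl Q c * DHk dl (F.g i) (F.g j) (F.g c)) * (F.g i - F.g j) := by
      have := hA (P.qv dl Q)
      simpa only [mul_sub, sum_sub_distrib] using this
    have hs : dslope (fun t : ℝ => t ^ bExp dl) (F.g i) (F.g j) * (F.g i - F.g j) =
        F.g i ^ bExp dl - F.g j ^ bExp dl := by
      rw [dslope_of_ne _ h.symm, slope_def_field]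
      field_simp [sub_ne_zero.2 h.symm]
      ring
    rw [← hPdef, Point.dd, Point.fv, Point.fv]
    simp only [Point.eps, hpg]
    have expand : ∑ c, P.p c * (2 * DGk (F.g i) (F.g j) (F.g c) -
        ((P.qv dl Q i + P.qv dl Q j) / 2 + P.qv dl Q c) * DHk dl (F.g i) (F.g j) (F.g c)) =
        2 * (∑ c, P.p c * DGk (F.g i) (F.g j) (F.g c)) -
          (P.qv dl Q i + P.qv dl Q j) / 2 * (∑ c, P.p c * DHk dl (F.g i) (F.g j) (F.g c)) -
          ∑ c, P.p c * P.qv dl Q c * DHk dl (F.g i) (F.g j) (F.g c) := by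
      simp only [Finset.mul_sum, ← sum_sub_distrib]
      exact sum_congr rfl fun c _ => by ring
    rw [expand]
    field_simp
    linear_combination (4 : ℝ) * hG - (P.qv dl Q i + P.qv dl Q j) * hAv - 2 * hQ +
      (P.Ev dl E i + P.Ev dl E j) * hs

end point

/-- The derivative of the frozen form at its base point. -/
lemma hasDerivAt_frozen {U : ℝ → Vec N} {G : ℝ → Op N} {D : Vec N} {x : ℝ} (F : Eig (G x))
    (hF : F.Pos) (hU : HasDerivAt U D x) (hG : HasDerivAt G (rk (U x)) x) :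
    HasDerivAt (fun y => frozen dl E Q F (U x) (U y) (G y))
      ((∑ a, 2 * F.wt D (U x) a * (F.point hF (U x)).fv dl E Q a) +
        (∑ i, ∑ j, F.pw (U x) i * F.pw (U x) j * (F.point hF (U x)).dd dl E Q i j) -
        ∑ a, F.pw (U x) a * F.g a ^ (gExp dl - 1)) x := by
  set u := U x with hu
  have hq : ∀ P : ℝ[X], HasDerivAt (fun y => quad P (U y) (G y)) (F.dq D u P) x := fun P => by
    refine (hasDerivAt_quad F hU hG P).congr_deriv ?_
    rw [Eig.dq_apply]
    congr 1
    · exact sum_congr rfl fun a _ => by rw [Eig.wt]; ring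
    · refine sum_congr rfl fun a _ => sum_congr rfl fun c _ => ?_
      rw [mul_comm, ← hu, ← inner_conj_symm u (F.b a), ← inner_conj_symm u (F.b c),
        Complex.conj_mul', Complex.conj_mul', ← Complex.ofReal_pow, ← Complex.ofReal_pow,
        ← Complex.ofReal_mul, Complex.ofReal_re]
      rfl
  have ht : HasDerivAt (fun y => trP F.b (polyTr dl F) (G y))
      (∑ a, F.pw u a * F.g a ^ (gExp dl - 1)) x := by
    refine (HasDerivAt.fun_sum fun e _ => hasDerivAt_quad F (hasDerivAt_const x (F.b e)) hG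
      (polyTr dl F)).congr_deriv (sum_congr rfl fun e _ => ?_)
    simp only [OrthonormalBasis.inner_eq_ite, inner_zero_left, zero_mul, Complex.zero_re,
      mul_zero, sum_const_zero, zero_add]
    simp only [ite_mul, mul_ite, one_mul, mul_one, zero_mul, mul_zero, apply_ite Complex.re,
      Complex.zero_re, Finset.sum_ite_eq, Finset.sum_ite_eq', mem_univ, if_true]
    rw [ddPoly_self, polyTr, (herm_eval _ _ (mem_nodes F e)).2, ← inner_conj_symm u (F.b e),
      Complex.mul_conj', ← Complex.ofReal_pow, Complex.ofReal_re, mul_comm]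
    rfl
  have hk : HasDerivAt (fun y => ∑ n ∈ nodes F, ∑ m ∈ nodes F,
      (Kf dl (qn dl Q F u n) n m *
          (quad (lag (nodes F) n) (U y) (G y) * quad (lag (nodes F) m) (U y) (G y)) +
        dKf dl (qn dl Q F u n) n m *
          (quad (mag (nodes F) n) (U y) (G y) * quad (lag (nodes F) m) (U y) (G y)) +
        dKf dl (qn dl Q F u n) m n *
          (quad (lag (nodes F) n) (U y) (G y) * quad (mag (nodes F) m) (U y) (G y))))
      (F.dq D u (polyKer dl Q F u)) x := by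
    refine (HasDerivAt.fun_sum fun n _ => HasDerivAt.fun_sum fun m _ =>
      ((((hq (lag _ n)).mul (hq (lag _ m))).const_mul _).add
        (((hq (mag _ n)).mul (hq (lag _ m))).const_mul _)).add
        (((hq (lag _ n)).mul (hq (mag _ m))).const_mul _)).congr_deriv ?_
    simp only [← hu, polyKer, map_sum, map_add, map_smul, smul_eq_mul, quad_mag F u, zero_mul,
      mul_zero, add_zero, zero_add]
    exact sum_congr rfl fun n _ => sum_congr rfl fun m _ => by ring
  refine ((ht.neg.add (hq (polyLin dl E F u))).add hk).congr_deriv ?_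
  rw [add_assoc, ← map_add]
  change _ + F.dq D u (polyTot dl E Q F u) = _
  rw [Eig.dq_apply]
  simp only [polyTot_eval dl E Q F u hF, ddPoly_polyTot dl E Q F u hF]
  ring

/-- The derivative inequality. -/
theorem deriv_Phi_le (hdl : 0 < dl) (hdl1 : dl < 1) (hP : IsProfile dl E Q)
    (hS : Subsolution dl E Q) {δ T R : ℝ} (hδ : 0 < δ) (U : ℝ → Vec N) (D : Vec N)
    (G : ℝ → Op N) (x : ℝ) (hU : HasDerivAt U D x) (hG : HasDerivAt G (rk (U x)) x)
    (hbox : ∀ y, G y ∈ box δ T ∧ ‖U y‖ ≤ R) {d : ℝ}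
    (hd : HasDerivAt (fun y => Phi dl E Q (U y) (G y)) d x) :
    d ≤ ‖D‖ ^ 2 - Kc dl * (‖U x‖ ^ 2) ^ (1 + aExp dl) := by
  obtain ⟨F, hFI⟩ := exists_eig (hbox x).1
  have hF : F.Pos := fun a => lt_of_lt_of_le hδ (hFI a).1
  set u := U x with hu
  have hψ := hasDerivAt_frozen (dl := dl) (E := E) (Q := Q) F hF hU hG
  have hzero := eq_zero_of_lower (hd.sub hψ) (by
    rw [Pi.sub_apply, Phi_eq hdl hdl1 hP F hF, frozen_base dl E Q F (U x) hF, sub_self]) (by
    intro η hη
    obtain ⟨C, hC⟩ := hG.isBigO_sub.bound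
    set M : ℝ := (max C 0 + 1) * ((N : ℝ) + R ^ 2 + 2 * (R ^ 2) ^ 2 + 1) with hMdef
    have hM : 0 < M := by positivity
    obtain ⟨r, hr, hle⟩ := frozen_le hdl hdl1 hP F hF u (div_pos hη hM)
    filter_upwards [hC, (Metric.tendsto_nhds.1 hG.continuousAt.tendsto) r hr] with y h1 h2
    rw [dist_eq_norm] at h2
    obtain ⟨F', hFI'⟩ := exists_eig (hbox y).1
    have hF' : F'.Pos := fun a => lt_of_lt_of_le hδ (hFI' a).1
    have h3 := hle (G y) F' hF' (U y) h2
    rw [← Phi_eq hdl hdl1 hP F' hF'] at h3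
    rw [Real.norm_eq_abs] at h1
    have h4 : ‖G y - G x‖ ≤ (max C 0 + 1) * |y - x| := h1.trans
      (mul_le_mul_of_nonneg_right (by linarith [le_max_left C 0]) (abs_nonneg _))
    have hv : ‖U y‖ ^ 2 ≤ R ^ 2 := pow_le_pow_left₀ (norm_nonneg _) (hbox y).2 2
    have h5 : (N : ℝ) + ‖U y‖ ^ 2 + 2 * (‖U y‖ ^ 2) ^ 2 ≤
        (N : ℝ) + R ^ 2 + 2 * (R ^ 2) ^ 2 + 1 := by
      linarith [pow_le_pow_left₀ (sq_nonneg ‖U y‖) hv 2]
    have h6 : η / M * ‖G y - G x‖ * ((N : ℝ) + ‖U y‖ ^ 2 + 2 * (‖U y‖ ^ 2) ^ 2) ≤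
        η * |y - x| :=
      calc η / M * ‖G y - G x‖ * ((N : ℝ) + ‖U y‖ ^ 2 + 2 * (‖U y‖ ^ 2) ^ 2)
          ≤ η / M * ((max C 0 + 1) * |y - x|) * ((N : ℝ) + R ^ 2 + 2 * (R ^ 2) ^ 2 + 1) :=
            mul_le_mul (mul_le_mul_of_nonneg_left h4 (div_pos hη hM).le) h5 (by positivity)
              (by positivity)
        _ = η * |y - x| := by rw [hMdef]; field_simp
    simp only [Pi.sub_apply]
    linarith)
  rw [sub_eq_zero] at hzero
  rw [hzero, ← hu]
  set P := F.point hF u with hPdef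
  have hSP := hS N P
  have hg2 : ∀ a, F.g a ^ (gExp dl - 1) = P.eps dl a ^ 2 := fun a => by
    rw [Point.eps, show P.g a = F.g a from rfl, ← Real.rpow_natCast, ← Real.rpow_mul (hF a).le]
    congr 1
    rw [gExp]
    push_cast
    ring
  have hw : ∑ a, 2 * F.wt D u a * P.fv dl E Q a ≤
      ‖D‖ ^ 2 + ∑ a, P.p a * P.fv dl E Q a ^ 2 := by
    rw [← F.sum_pw D, ← sum_add_distrib]
    refine sum_le_sum fun a _ => ?_
    have h1 : |F.wt D u a| ≤ ‖⟪F.b a, D⟫_ℂ‖ * ‖⟪F.b a, u⟫_ℂ‖ := by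
      refine (Complex.abs_re_le_norm _).trans_eq ?_
      rw [norm_mul, norm_inner_symm]
    have h2 : 2 * F.wt D u a * P.fv dl E Q a ≤
        2 * (‖⟪F.b a, D⟫_ℂ‖ * ‖⟪F.b a, u⟫_ℂ‖) * |P.fv dl E Q a| := by
      refine (le_abs_self _).trans ?_
      rw [abs_mul, abs_mul, abs_two]
      exact mul_le_mul_of_nonneg_right (mul_le_mul_of_nonneg_left h1 two_pos.le) (abs_nonneg _)
    have h3 := two_mul_le_add_sq ‖⟪F.b a, D⟫_ℂ‖ (‖⟪F.b a, u⟫_ℂ‖ * |P.fv dl E Q a|)
    rw [mul_pow, sq_abs] at h3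
    change _ ≤ ‖⟪F.b a, D⟫_ℂ‖ ^ 2 + ‖⟪F.b a, u⟫_ℂ‖ ^ 2 * _
    linarith
  have hrho : P.rho = ‖u‖ ^ 2 := F.sum_pw u
  rw [Point.S, hrho] at hSP
  simp only [mul_sub, sum_sub_distrib] at hSP
  simp only [hg2]
  change _ + (∑ i, ∑ j, P.p i * P.p j * P.dd dl E Q i j) - ∑ a, P.p a * P.eps dl a ^ 2 ≤ _
  linarith

end Vale.Agent.P371.Leg
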