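import Vale.Agent.P371.Leg.Curve

/-!
# P371: the profile as a function of `l = log u`
-/

namespace Vale.Agent.P371.Leg

open Set Filter Topology Real

variable {dl : ℝ}

lemma Small.qc_le_aux (h : Small dl) {t : ℝ} (ht : t ∈ Ioc (-1:ℝ) (-(1 / 2))) :
    -(40 + 40 * Kc dl * Pc dl t ^ dl) ≤ qc dl t := by
  have ht' : t ∈ Ioo (-1:ℝ) 1 := ⟨ht.1, by linarith [ht.2]⟩
  obtain ⟨hg, hg1⟩ := h.gc_mem ht'
  obtain ⟨_, _, _, i4⟩ := h.ineqs ht'
  have hP := h.Pc_pos ht'
  have hb := h.one_lt_b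
  have hO : 1 - (gc dl t ^ bExp dl) ^ 2 ≤ 2 * bExp dl * (1 - gc dl t) := by
    have := one_add_mul_self_le_rpow_one_add (s := gc dl t - 1) (by linarith)
      (p := 2 * bExp dl) (by linarith)
    rw [show 1 + (gc dl t - 1) = gc dl t by ring, mul_comm 2 (bExp dl), rpow_mul hg.le,
      rpow_two] at this
    linarith
  have hab : (2 - aExp dl) * bExp dl = aExp dl := by
    have : 1 - dl ≠ 0 := by linarith [h.2]
    unfold bExp aExp; field_simp; ring
  set x := gc dl t / Pc dl t with hx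
  have hx0 : 0 < x := div_pos hg hP
  have hK := h.Pc_pow ht'
  have hpow : Kc dl * Pc dl t ^ aExp dl = Kc dl * Pc dl t ^ dl * Pc dl t := by
    rw [aExp, rpow_add hP, rpow_one]; ring
  rw [hpow] at hK
  -- the bracket
  have e1 : (2 - aExp dl) * x ^ 2 * (1 - (gc dl t ^ bExp dl) ^ 2) ≤
      x * (aExp dl * gc dl t / -t) := by
    have h2a : 0 ≤ 2 - aExp dl := by unfold aExp; linarith [h.2]
    calc (2 - aExp dl) * x ^ 2 * (1 - (gc dl t ^ bExp dl) ^ 2)
        ≤ (2 - aExp dl) * x ^ 2 * (2 * bExp dl * (1 - gc dl t)) :=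
          mul_le_mul_of_nonneg_left hO (by positivity)
      _ = x * (aExp dl * gc dl t) * (2 * (1 - gc dl t) / Pc dl t) := by
          rw [hx]; linear_combination (gc dl t / Pc dl t) ^ 2 * 2 * (1 - gc dl t) * hab
      _ ≤ x * (aExp dl * gc dl t) * (1 / -t) := by
          refine mul_le_mul_of_nonneg_left ?_ (by have := h.a_pos; positivity)
          rw [div_le_div_iff₀ hP (by linarith [ht.2])]
          linarith
      _ = _ := by ring
  have ha : aExp dl ≤ 2 := by unfold aExp; linarith [h.2]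
  have e2 : aExp dl * t * x + (2 - aExp dl) * x ^ 2 * (1 - (gc dl t ^ bExp dl) ^ 2) ≤
      4 * Kc dl * Pc dl t ^ dl := by
    calc _ ≤ aExp dl * t * x + x * (aExp dl * gc dl t / -t) := by linarith
      _ = aExp dl * x * ((gc dl t - t ^ 2) / -t) := by
          have : t ≠ 0 := by linarith [ht.2]
          field_simp; ring
      _ ≤ aExp dl * x * ((1 - t ^ 2) / (1 / 2)) := by
          refine mul_le_mul_of_nonneg_left ?_ (by have := h.a_pos; positivity)
          exact div_le_div₀ (by nlinarith [ht.1, ht.2]) (by linarith) (by norm_num)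
            (by linarith [ht.2])
      _ = 2 * aExp dl * gc dl t * (Kc dl * Pc dl t ^ dl) := by
          rw [← hK, hx]; field_simp
      _ ≤ _ := by
          have hz : 0 ≤ Kc dl * Pc dl t ^ dl := by have := h.Kc_pos; positivity
          calc 2 * aExp dl * gc dl t * (Kc dl * Pc dl t ^ dl)
              ≤ 2 * 2 * 1 * (Kc dl * Pc dl t ^ dl) := by
                have := h.a_pos; gcongr
            _ = _ := by ring
  have h4 : 4 / (2 + aExp dl) ≤ 2 := by
    rw [div_le_iff₀ (by linarith [h.a_pos])]; linarith [h.a_pos]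
  have hz : 0 ≤ Kc dl * Pc dl t ^ dl := by have := h.Kc_pos; positivity
  unfold qc
  rw [← hx]
  have := mul_le_mul_of_nonneg_left e2 (show 0 ≤ 4 / (2 + aExp dl) by
    have := h.a_pos; positivity)
  nlinarith [mul_le_mul_of_nonneg_right h4 hz]

lemma Small.qc_top (h : Small dl) : Tendsto (qc dl) (𝓝[Ioo (-1:ℝ) 1] 1) (𝓝 0) := by
  set F := 𝓝[Ioo (-1:ℝ) 1] (1:ℝ)
  have ht : Tendsto (fun t : ℝ => t) F (𝓝 1) := tendsto_nhdsWithin_of_tendsto_nhds tendsto_id
  have hx : Tendsto (fun t => gc dl t / Pc dl t) F (𝓝 (1 / 2)) := by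
    have hlim : Tendsto (fun t : ℝ => 1 / (2 * t)) F (𝓝 (1 / 2)) := by
      have := (tendsto_const_nhds (x := (1:ℝ))).div (ht.const_mul 2) (by norm_num)
      rw [mul_one] at this
      exact this
    refine tendsto_of_tendsto_of_tendsto_of_le_of_le' tendsto_const_nhds hlim ?_ ?_
    · filter_upwards [self_mem_nhdsWithin] with t htI
      obtain ⟨i1, -, -, -⟩ := h.ineqs htI
      rw [le_div_iff₀ (h.Pc_pos htI)]; linarith
    · filter_upwards [self_mem_nhdsWithin,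
        mem_nhdsWithin_of_mem_nhds (Ioi_mem_nhds (show (0:ℝ) < 1 by norm_num))] with t htI ht0
      obtain ⟨-, i2, -, -⟩ := h.ineqs htI
      rw [div_le_div_iff₀ (h.Pc_pos htI) (by linarith [mem_Ioi.1 ht0])]; linarith
  have hG : Tendsto (fun t => gc dl t ^ bExp dl) F (𝓝 0) := by
    have := (((h.continuousOn_gc 1 (by simp)).mono Ioo_subset_Icc_self).rpow_const
      (p := bExp dl) (Or.inr (by linarith [h.one_lt_b]))).tendsto
    rwa [gc_one h.J1_pos.ne', zero_rpow (by linarith [h.one_lt_b])] at this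
  have := ((((ht.const_mul (aExp dl)).mul hx).add
    (((hx.pow 2).const_mul (2 - aExp dl)).mul ((hG.pow 2).const_sub 1))).const_mul
      (4 / (2 + aExp dl))).const_sub 1
  have e : 1 - 4 / (2 + aExp dl) * (aExp dl * 1 * (1 / 2) +
      (2 - aExp dl) * (1 / 2) ^ 2 * (1 - 0 ^ 2)) = 0 := by
    have : 2 + aExp dl ≠ 0 := by linarith [h.a_pos]
    field_simp; ring
  rwa [e] at this

lemma Small.Ec_bot (h : Small dl) : Tendsto (Ec dl) (𝓝[Ioo (-1:ℝ) 1] (-1)) (𝓝 1) := by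
  set F := 𝓝[Ioo (-1:ℝ) 1] (-1:ℝ)
  have ht : Tendsto (fun t : ℝ => t) F (𝓝 (-1)) := tendsto_nhdsWithin_of_tendsto_nhds tendsto_id
  have hg : Tendsto (gc dl) F (𝓝 1) := by
    have := ((h.continuousOn_gc (-1) (by simp)).mono Ioo_subset_Icc_self).tendsto
    rwa [gc_neg_one] at this
  have hx : Tendsto (fun t => (1 - gc dl t) / Pc dl t) F (𝓝 (1 / 2)) := by
    have hlim : Tendsto (fun t : ℝ => 1 / (2 * -t)) F (𝓝 (1 / 2)) := by
      have := (tendsto_const_nhds (x := (1:ℝ))).div (ht.neg.const_mul 2) (by norm_num)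
      rw [neg_neg, mul_one] at this
      exact this
    refine tendsto_of_tendsto_of_tendsto_of_le_of_le' tendsto_const_nhds hlim ?_ ?_
    · filter_upwards [self_mem_nhdsWithin] with t htI
      obtain ⟨-, -, i3, -⟩ := h.ineqs htI
      rw [le_div_iff₀ (h.Pc_pos htI)]; linarith
    · filter_upwards [self_mem_nhdsWithin,
        mem_nhdsWithin_of_mem_nhds (Iio_mem_nhds (show (-1:ℝ) < 0 by norm_num))] with t htI ht0
      obtain ⟨-, -, -, i4⟩ := h.ineqs htI
      rw [div_le_div_iff₀ (h.Pc_pos htI) (by linarith [mem_Iio.1 ht0])]; linarith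
  -- the slope of `x ↦ x ^ (2 b)` at `1`
  have hs : Tendsto (fun t => slope (fun x : ℝ => x ^ (2 * bExp dl)) 1 (gc dl t)) F
      (𝓝 (2 * bExp dl)) := by
    have hd := (hasDerivAt_id (1:ℝ)).rpow_const (p := 2 * bExp dl) (Or.inl one_ne_zero)
    simp only [id_eq, one_rpow, mul_one, one_mul] at hd
    refine hd.tendsto_slope.comp (tendsto_nhdsWithin_iff.2 ⟨hg, ?_⟩)
    filter_upwards [self_mem_nhdsWithin] with t htI
    exact (h.gc_mem htI).2.ne
  have hnum := ((((hg.const_mul 2).mul hs).mul hx).sub ht).div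
    (((hg.rpow_const (p := bExp dl) (Or.inl one_ne_zero))).const_mul (gExp dl))
    (by simp [h.gp_pos.ne'])
  have e : (2 * 1 * (2 * bExp dl) * (1 / 2) - -1) / (gExp dl * 1 ^ bExp dl) = 1 := by
    have := h.gp_pos
    rw [one_rpow]; field_simp; unfold gExp; ring
  rw [e] at hnum
  refine hnum.congr' ?_
  filter_upwards [self_mem_nhdsWithin] with t htI
  obtain ⟨hg0, hg1⟩ := h.gc_mem htI
  have hP := h.Pc_pos htI
  have hne : gc dl t - 1 ≠ 0 := by linarith
  simp only [Ec, slope_def_field, one_rpow, mul_comm 2 (bExp dl), rpow_mul hg0.le, rpow_two,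
    Pi.div_apply]
  field_simp
  ring

lemma Small.Ec_top (h : Small dl) : ∀ᶠ t in 𝓝[Ioo (-1:ℝ) 1] 1, 0 ≤ Ec dl t := by
  have hP0 : Tendsto (fun t => Pc dl t ^ (2 - aExp dl)) (𝓝[Ioo (-1:ℝ) 1] 1) (𝓝 0) := by
    have h2a : 0 < 2 - aExp dl := by unfold aExp; linarith [h.2]
    have := (((h.continuousOn_Pc 1 (by simp)).mono Ioo_subset_Icc_self).rpow_const
      (p := 2 - aExp dl) (Or.inr h2a.le)).tendsto
    rwa [Pc_one h, zero_rpow h2a.ne'] at this
  filter_upwards [self_mem_nhdsWithin, hP0.eventually_lt_const (half_pos h.Kc_pos),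
    mem_nhdsWithin_of_mem_nhds (Ioi_mem_nhds (show (1/2:ℝ) < 1 by norm_num))] with t htI hP2 ht0
  rw [mem_Ioi] at ht0
  obtain ⟨hg, hg1⟩ := h.gc_mem htI
  obtain ⟨i1, i2, -, -⟩ := h.ineqs htI
  have hP := h.Pc_pos htI
  set G := gc dl t ^ bExp dl
  have hG : 0 < G := rpow_pos_of_pos hg _
  have hG1 : G ≤ gc dl t := by
    simpa using rpow_le_rpow_of_exponent_ge hg hg1.le h.one_lt_b.le
  have hgP : gc dl t ≤ Pc dl t := by nlinarith
  have key : Pc dl t ^ 2 ≤ 1 - t := by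
    have e : Pc dl t ^ 2 = Pc dl t ^ (2 - aExp dl) * Pc dl t ^ aExp dl := by
      rw [← rpow_add hP, ← rpow_two]; congr 1; ring
    rw [e]
    have hPa := rpow_pos_of_pos hP (aExp dl)
    nlinarith [h.Pc_pow htI, mul_le_mul_of_nonneg_right hP2.le hPa.le, htI.2]
  have hO : t ≤ 1 - G ^ 2 := by nlinarith
  have hx : 1 / 2 ≤ gc dl t / Pc dl t := by rw [le_div_iff₀ hP]; linarith
  refine div_nonneg ?_ (by have := h.gp_pos; positivity)
  nlinarith [mul_le_mul hx hO (by linarith) (by positivity)]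

/-- An abstract profile in the variable `l = log u`. -/
structure Flow (dl : ℝ) where
  q : ℝ → ℝ
  E : ℝ → ℝ
  qd : ℝ → ℝ
  hq : ∀ l, HasDerivAt q (qd l) l
  hE : ∀ l, HasDerivAt E (-(exp l * qd l)) l
  ident : ∀ l, Kc dl * (4 * exp l) ^ dl = (kExp dl - q l) * E l +
    q l * (1 - q l) * exp l - (E l ^ 2 - 1) / (4 * exp l)
  den_pos : ∀ l, 0 < E l + 2 * (bExp dl + q l) * exp l
  sum_pos : ∀ l, 0 < E l + (kExp dl - q l) * exp l
  q_top : Tendsto q atTop (𝓝 0)
  E_top : ∀ᶠ l in atTop, 0 ≤ E l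
  E_bot : Tendsto E atBot (𝓝 1)
  q_bot : ∃ C, ∀ᶠ l in atBot, C ≤ q l

lemma Small.tendsto_uc_one (h : Small dl) :
    ∀ B : ℝ, ∃ t ∈ Ioo (-1:ℝ) 1, B ≤ uc dl t := by
  intro B
  have hc : ContinuousWithinAt (fun t => gc dl t ^ bExp dl) (Ioo (-1:ℝ) 1) 1 :=
    ((h.continuousOn_gc 1 (by simp)).mono Ioo_subset_Icc_self).rpow_const
      (Or.inr (by linarith [h.one_lt_b]))
  have h0 : Tendsto (fun t => gc dl t ^ bExp dl) (𝓝[Ioo (-1:ℝ) 1] 1) (𝓝 0) := by
    have := hc.tendsto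
    rwa [gc_one h.J1_pos.ne', zero_rpow (by linarith [h.one_lt_b])] at this
  have : (𝓝[Ioo (-1:ℝ) 1] 1).NeBot := by
    rw [← mem_closure_iff_nhdsWithin_neBot, closure_Ioo (by norm_num)]; simp
  have h1 : ∀ᶠ t in 𝓝[Ioo (-1:ℝ) 1] 1, gc dl t ^ bExp dl < 1 / (4 * (|B| + 1)) :=
    h0.eventually_lt_const (by positivity)
  have h2 : ∀ᶠ t : ℝ in 𝓝[Ioo (-1:ℝ) 1] 1, 1 / 2 < t :=
    mem_nhdsWithin_of_mem_nhds (Ioi_mem_nhds (by norm_num))
  obtain ⟨t, ⟨ht1, ht2⟩, ht⟩ := ((h1.and h2).and self_mem_nhdsWithin).exists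
  refine ⟨t, ht, (le_abs_self B).trans ?_⟩
  obtain ⟨hg, -⟩ := h.gc_mem ht
  obtain ⟨_, i2, -, -⟩ := h.ineqs ht
  have hG : 0 < gc dl t ^ bExp dl := rpow_pos_of_pos hg _
  rw [lt_div_iff₀ (by positivity)] at ht1
  rw [uc, le_div_iff₀ (by positivity)]
  nlinarith [mul_nonneg hg.le (sub_nonneg.2 ht1.le), mul_pos hg (sub_pos.2 ht2)]

lemma Small.tendsto_uc_neg_one (h : Small dl) {B : ℝ} (hB : 0 < B) :
    ∃ t ∈ Ioo (-1:ℝ) 1, uc dl t ≤ B := by
  have hc : ContinuousWithinAt (uc dl) (Icc (-1:ℝ) 0) (-1) := by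
    have hm : (-1:ℝ) ∈ Icc (-1:ℝ) 1 := by simp
    have hs : Icc (-1:ℝ) 0 ⊆ Icc (-1) 1 := Icc_subset_Icc le_rfl zero_le_one
    have hg := (h.continuousOn_gc (-1) hm).mono hs
    exact ((h.continuousOn_Pc (-1) hm).mono hs).div
      ((hg.const_smul (4:ℝ)).mul (hg.rpow_const (Or.inr (by linarith [h.one_lt_b]))))
      (by simp [gc_neg_one])
  have h0 : Tendsto (uc dl) (𝓝[Ioo (-1:ℝ) 0] (-1)) (𝓝 0) := by
    have := (hc.mono Ioo_subset_Icc_self).tendsto
    rwa [show uc dl (-1) = 0 by simp [uc, Pc_neg_one h]] at this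
  have : (𝓝[Ioo (-1:ℝ) 0] (-1)).NeBot := by
    rw [← mem_closure_iff_nhdsWithin_neBot, closure_Ioo (by norm_num)]; simp
  obtain ⟨t, h1, h2⟩ := ((h0.eventually_le_const hB).and self_mem_nhdsWithin).exists
  exact ⟨t, ⟨h2.1, h2.2.trans one_pos⟩, h1⟩

theorem Small.hasDerivAt_log_uc (h : Small dl) {t : ℝ} (ht : t ∈ Ioo (-1:ℝ) 1) :
    HasDerivAt (fun s => log (uc dl s))
      (wc dl t * (kExp dl / gc dl t - 2 * t / Pc dl t)) t ∧
      0 < wc dl t * (kExp dl / gc dl t - 2 * t / Pc dl t) := by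
  obtain ⟨hg, -⟩ := h.gc_mem ht
  have hP := h.Pc_pos ht
  have hG : 0 < gc dl t ^ bExp dl := rpow_pos_of_pos hg _
  have dg := h.hasDerivAt_gc ht
  have dG := dg.rpow_const (p := bExp dl) (Or.inl hg.ne')
  refine ⟨(((h.hasDerivAt_Pc ht).div ((dg.const_mul 4).mul dG) (mul_pos (mul_pos four_pos hg) hG).ne').log
    (h.uc_pos ht).ne').congr_deriv ?_, mul_pos (h.wc_pos ht) ?_⟩
  · simp only [Pi.mul_apply, Pi.div_apply]
    rw [rpow_sub_one hg.ne', h.k_eq]
    field_simp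
    ring
  · obtain ⟨_, i2, _, _⟩ := h.ineqs ht
    have hk : 2 < kExp dl := by rw [h.k_eq]; linarith [h.one_lt_b]
    rw [sub_pos, div_lt_div_iff₀ hP hg]
    nlinarith

theorem Small.sum_c (h : Small dl) {t : ℝ} (ht : t ∈ Ioo (-1:ℝ) 1) :
    0 < Ec dl t + (kExp dl - qc dl t) * uc dl t := by
  obtain ⟨hg, hg1⟩ := h.gc_mem ht
  obtain ⟨i1, i2, i3, i4⟩ := h.ineqs ht
  have hP := h.Pc_pos ht
  have hb := h.one_lt_b
  have hb' := h.b_le
  have hd : 1 - dl ≠ 0 := by linarith [h.2]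
  have hd' : (3 + dl) ≠ 0 := by linarith [h.1]
  have hG : 0 < gc dl t ^ bExp dl := rpow_pos_of_pos hg _
  have hG1 : gc dl t ^ bExp dl ≤ gc dl t := by
    simpa using rpow_le_rpow_of_exponent_ge hg hg1.le hb.le
  have hgp : 0 < gExp dl := h.gp_pos
  have e : Ec dl t + (kExp dl - qc dl t) * uc dl t =
      (3 * (gc dl t * (1 - (gc dl t ^ bExp dl) ^ 2) / Pc dl t) + (bExp dl - 1) * t +
        gExp dl * bExp dl * (Pc dl t / (4 * gc dl t))) / (gExp dl * gc dl t ^ bExp dl) := by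
    have hgp' : gExp dl = (3 + dl) / (1 - dl) := by unfold gExp bExp; field_simp; ring
    simp only [qc, Ec, uc, hgp', kExp, aExp, show 2 + (1 + dl) = 3 + dl by ring]
    generalize gc dl t = g at *
    generalize g ^ bExp dl = G at *
    generalize Pc dl t = P at *
    unfold bExp
    field_simp
    ring
  rw [e]
  refine div_pos ?_ (by positivity)
  set G := gc dl t ^ bExp dl
  have hO : 1 - gc dl t ≤ 1 - G ^ 2 := by nlinarith
  have A : 0 ≤ gc dl t * (1 - G ^ 2) / Pc dl t := by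
    apply div_nonneg (mul_nonneg hg.le (by linarith)) hP.le
  have B : 0 < gExp dl * bExp dl * (Pc dl t / (4 * gc dl t)) := by positivity
  rcases le_total 0 t with ht0 | ht0
  · nlinarith
  rcases le_total (1 / 2) (gc dl t) with hh | hh
  · have : 1 / 4 ≤ gc dl t * (1 - G ^ 2) / Pc dl t := by
      rw [le_div_iff₀ hP]
      nlinarith [mul_le_mul hh hO (by linarith) hg.le]
    nlinarith [ht.1]
  · have : -t / 2 ≤ Pc dl t / (4 * gc dl t) := by
      rw [div_le_div_iff₀ (by norm_num) (by positivity)]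
      nlinarith [mul_le_mul_of_nonneg_left (show gc dl t ≤ 1 - gc dl t by linarith)
        (show 0 ≤ -t by linarith)]
    have : 3 * (-t / 2) ≤ gExp dl * bExp dl * (Pc dl t / (4 * gc dl t)) := by
      have h3 : 3 ≤ gExp dl * bExp dl := by unfold gExp; nlinarith
      exact mul_le_mul h3 this (by linarith) (by positivity)
    nlinarith

theorem exists_flow (h : Small dl) : Nonempty (Flow dl) := by
  let f : Ioo (-1:ℝ) 1 → ℝ := fun t => log (uc dl t)
  have hcont : ContinuousOn (fun t => log (uc dl t)) (Ioo (-1:ℝ) 1) := fun t ht =>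
    (h.hasDerivAt_log_uc ht).1.continuousAt.continuousWithinAt
  have hmono : StrictMonoOn (fun t => log (uc dl t)) (Ioo (-1:ℝ) 1) :=
    strictMonoOn_of_deriv_pos (convex_Ioo _ _) hcont fun t ht => by
      rw [interior_Ioo] at ht
      rw [(h.hasDerivAt_log_uc ht).1.deriv]; exact (h.hasDerivAt_log_uc ht).2
  have fmono : StrictMono f := fun x y hxy => hmono x.2 y.2 hxy
  have fsurj : Function.Surjective f := by
    intro l
    obtain ⟨t1, h1, u1⟩ := h.tendsto_uc_neg_one (exp_pos l)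
    obtain ⟨t2, h2, u2⟩ := h.tendsto_uc_one (exp l)
    have l1 : log (uc dl t1) ≤ l := (log_le_iff_le_exp (h.uc_pos h1)).2 u1
    have l2 : l ≤ log (uc dl t2) := (le_log_iff_exp_le (h.uc_pos h2)).2 u2
    obtain ⟨t, ht, e⟩ := intermediate_value_uIcc (hcont.mono ((ordConnected_Ioo (a := (-1:ℝ)) (b := 1)).uIcc_subset h1 h2))
      (mem_uIcc.2 (Or.inl ⟨l1, l2⟩))
    exact ⟨⟨t, (ordConnected_Ioo (a := (-1:ℝ)) (b := 1)).uIcc_subset h1 h2 ht⟩, e⟩
  let e := fmono.orderIsoOfSurjective f fsurj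
  let T : ℝ → ℝ := fun l => (e.symm l : ℝ)
  have hT : ∀ l, T l ∈ Ioo (-1:ℝ) 1 := fun l => (e.symm l).2
  have hTl : ∀ l, log (uc dl (T l)) = l := fun l => e.apply_symm_apply l
  have hTu : ∀ l, uc dl (T l) = exp l := fun l => by
    conv_rhs => rw [← hTl l, exp_log (h.uc_pos (hT l))]
  have hTc : Continuous T := continuous_subtype_val.comp e.symm.continuous
  have hTd : ∀ l, HasDerivAt T
      (wc dl (T l) * (kExp dl / gc dl (T l) - 2 * T l / Pc dl (T l)))⁻¹ l := fun l =>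
    HasDerivAt.of_local_left_inverse hTc.continuousAt (h.hasDerivAt_log_uc (hT l)).1
      (h.hasDerivAt_log_uc (hT l)).2.ne' (Eventually.of_forall hTl)
  have hTmono : StrictMono T := fun x y hxy => e.symm.strictMono hxy
  have bot : Tendsto T atBot (𝓝[Ioo (-1:ℝ) 1] (-1)) := by
    refine tendsto_nhdsWithin_iff.2 ⟨?_, Eventually.of_forall hT⟩
    refine tendsto_atBot_isGLB hTmono.monotone ⟨?_, fun x hx => ?_⟩
    · rintro _ ⟨l, rfl⟩; exact (hT l).1.le
    · by_contra hc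
      push Not at hc
      have hm : ((-1) + min x 1) / 2 ∈ Ioo (-1:ℝ) 1 := by
        constructor <;> linarith [lt_min hc (by norm_num : (-1:ℝ) < 1), min_le_right x 1]
      have := hx ⟨f ⟨_, hm⟩, rfl⟩
      simp only [T, e, StrictMono.orderIsoOfSurjective] at this
      erw [OrderIso.symm_apply_apply] at this
      simp only at this
      linarith [min_le_left x 1, lt_min hc (by norm_num : (-1:ℝ) < 1)]
  have top : Tendsto T atTop (𝓝[Ioo (-1:ℝ) 1] 1) := by
    refine tendsto_nhdsWithin_iff.2 ⟨?_, Eventually.of_forall hT⟩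
    refine tendsto_atTop_isLUB hTmono.monotone ⟨?_, fun x hx => ?_⟩
    · rintro _ ⟨l, rfl⟩; exact (hT l).2.le
    · by_contra hc
      push Not at hc
      have hm : (1 + max x (-1)) / 2 ∈ Ioo (-1:ℝ) 1 := by
        constructor <;> linarith [max_lt hc (by norm_num : (-1:ℝ) < 1), le_max_right x (-1)]
      have := hx ⟨f ⟨_, hm⟩, rfl⟩
      simp only [T, e, StrictMono.orderIsoOfSurjective] at this
      erw [OrderIso.symm_apply_apply] at this
      simp only at this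
      linarith [le_max_left x (-1), max_lt hc (by norm_num : (-1:ℝ) < 1)]
  choose qd hqd hEd using fun l => h.deriv_c (hT l)
  set D : ℝ → ℝ := fun l => (wc dl (T l) * (kExp dl / gc dl (T l) - 2 * T l / Pc dl (T l)))⁻¹
  have hden : ∀ l, 0 < Ec dl (T l) + 2 * (bExp dl + qc dl (T l)) * exp l := fun l => by
    rw [← hTu l, h.den_c (hT l)]
    obtain ⟨hg, -⟩ := h.gc_mem (hT l)
    obtain ⟨_, i2, _, _⟩ := h.ineqs (hT l)
    have hk : 2 < kExp dl := by rw [h.k_eq]; linarith [h.one_lt_b]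
    have := h.Pc_pos (hT l)
    exact div_pos (by nlinarith) (by positivity)
  obtain ⟨ql, El, Et⟩ :
      (Tendsto (qc dl) (𝓝[Ioo (-1:ℝ) 1] 1) (𝓝 0)) ∧
      (Tendsto (Ec dl) (𝓝[Ioo (-1:ℝ) 1] (-1)) (𝓝 1)) ∧
      (∀ᶠ t in 𝓝[Ioo (-1:ℝ) 1] 1, 0 ≤ Ec dl t) := by
    exact ⟨h.qc_top, h.Ec_bot, h.Ec_top⟩
  refine ⟨{
    q := fun l => qc dl (T l), E := fun l => Ec dl (T l), qd := fun l => qd l * D l
    hq := fun l => (hqd l).comp l (hTd l)
    hE := fun l => ((hEd l).comp l (hTd l)).congr_deriv (by rw [hTu]; ring)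
    ident := fun l => by rw [← hTu l]; exact h.identity_c (hT l)
    den_pos := hden
    sum_pos := fun l => by rw [← hTu l]; exact h.sum_c (hT l)
    q_top := ql.comp top
    E_top := top.eventually Et
    E_bot := El.comp bot
    q_bot := ⟨-(40 + 40 * Kc dl), ?_⟩ }⟩
  have hB : ∀ᶠ t in 𝓝[Ioo (-1:ℝ) 1] (-1), t < -(1 / 2) :=
    mem_nhdsWithin_of_mem_nhds (Iio_mem_nhds (by norm_num))
  have hP : ∀ᶠ t in 𝓝[Ioo (-1:ℝ) 1] (-1), Pc dl t < 1 := by
    have := ((h.continuousOn_Pc (-1) (by simp)).mono Ioo_subset_Icc_self).tendsto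
    rw [Pc_neg_one h] at this
    exact this.eventually_lt_const one_pos
  filter_upwards [bot.eventually hB, bot.eventually hP] with l h1 h2
  have := h.qc_le_aux ⟨(hT l).1, h1.le⟩
  have : Pc dl (T l) ^ dl ≤ 1 := rpow_le_one (h.Pc_pos (hT l)).le h2.le h.1.le
  nlinarith [h.Kc_pos]

end Vale.Agent.P371.Leg
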