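import Mathlib

/-!
# P371: interpolation of values and derivatives at finitely many nodes
-/

namespace Vale.Agent.P371.Leg

open Polynomial Finset

lemma exists_hermite (S : Finset ℝ) (n : ℝ) (a d : ℝ) :
    ∃ P : ℝ[X], (∀ m ∈ S, m ≠ n → P.eval m = 0 ∧ P.derivative.eval m = 0) ∧
      P.eval n = a ∧ P.derivative.eval n = d := by
  set B : ℝ[X] := ∏ m ∈ S.erase n, (X - C m) ^ 2 with hB
  have hBn : B.eval n ≠ 0 := by
    rw [hB, eval_prod, Finset.prod_ne_zero_iff]
    intro m hm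
    simp [sub_eq_zero, (Finset.mem_erase.1 hm).1.symm]
  set c0 := a / B.eval n
  set c1 := (d - B.derivative.eval n * c0) / B.eval n
  refine ⟨B * (C c0 + C c1 * (X - C n)), fun m hm hmn => ?_, ?_, ?_⟩
  · obtain ⟨R, hR⟩ : (X - C m) ^ 2 ∣ B := Finset.dvd_prod_of_mem _ (Finset.mem_erase.2 ⟨hmn, hm⟩)
    rw [hR]
    simp [derivative_pow]
  · simp [c0, mul_div_cancel₀ _ hBn]
  · simp [c1, mul_div_cancel₀ _ hBn]

/-- The value basis at `n`. -/
noncomputable def lag (S : Finset ℝ) (n : ℝ) : ℝ[X] := (exists_hermite S n 1 0).choose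

/-- The derivative basis at `n`. -/
noncomputable def mag (S : Finset ℝ) (n : ℝ) : ℝ[X] := (exists_hermite S n 0 1).choose

variable {S : Finset ℝ} {n m : ℝ}

lemma lag_eval (hm : m ∈ S) :
    (lag S n).eval m = (if n = m then 1 else 0) ∧ (lag S n).derivative.eval m = 0 := by
  obtain ⟨h1, h2, h3⟩ := (exists_hermite S n 1 0).choose_spec
  rcases eq_or_ne n m with rfl | h
  · exact ⟨by rw [if_pos rfl]; exact h2, h3⟩
  · exact ⟨by rw [if_neg h]; exact (h1 m hm h.symm).1, (h1 m hm h.symm).2⟩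

lemma mag_eval (hm : m ∈ S) :
    (mag S n).eval m = 0 ∧ (mag S n).derivative.eval m = if n = m then 1 else 0 := by
  obtain ⟨h1, h2, h3⟩ := (exists_hermite S n 0 1).choose_spec
  rcases eq_or_ne n m with rfl | h
  · exact ⟨h2, by rw [if_pos rfl]; exact h3⟩
  · exact ⟨(h1 m hm h.symm).1, by rw [if_neg h]; exact (h1 m hm h.symm).2⟩

/-- The interpolation of values `f` and derivatives `f'`. -/
noncomputable def herm (S : Finset ℝ) (f f' : ℝ → ℝ) : ℝ[X] :=
  ∑ n ∈ S, (C (f n) * lag S n + C (f' n) * mag S n)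

lemma herm_eval (f f' : ℝ → ℝ) (hm : m ∈ S) :
    (herm S f f').eval m = f m ∧ (herm S f f').derivative.eval m = f' m := by
  simp [herm, eval_finsetSum, derivative_sum, (lag_eval hm), (mag_eval hm), hm]

end Vale.Agent.P371.Leg
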