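import Vale.Agent.P371.Leg.Value
import Vale.Agent.P371.Leg.Hermite

/-!
# P371: a smooth minorant of the calibration at a point, with frozen parameters
-/

namespace Vale.Agent.P371.Leg

open Finset Filter Polynomial Vale.Agent.P371 Vale.Agent.P371.Gamma
open scoped InnerProductSpace Topology

variable {N : ℕ} {dl : ℝ} {E Q : ℝ → ℝ}

lemma eq_zero_of_lower {g : ℝ → ℝ} {d x : ℝ} (hd : HasDerivAt g d x) (h0 : g x = 0)
    (h : ∀ η > 0, ∀ᶠ y in 𝓝 x, -(η * |y - x|) ≤ g y) : d = 0 := by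
  have key : ∀ η > 0, |d| ≤ η := by
    intro η hη
    have hlin := hd.isLittleO.def (show (0:ℝ) < η / 2 by linarith)
    have hev := (h (η / 2) (by linarith)).and hlin
    obtain ⟨r, hr, hball⟩ := Metric.eventually_nhds_iff.1 hev
    have hr2 : 0 < r / 2 := by linarith
    have p1 := hball (y := x + r / 2) (by rw [Real.dist_eq, add_sub_cancel_left, abs_of_pos hr2]; linarith)
    have p2 := hball (y := x - r / 2) (by rw [Real.dist_eq, sub_sub_cancel_left, abs_neg, abs_of_pos hr2]; linarith)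
    simp only [Real.norm_eq_abs, smul_eq_mul, add_sub_cancel_left, sub_sub_cancel_left, abs_neg,
      abs_of_pos hr2, h0, sub_zero] at p1 p2
    rw [abs_le] at p1 p2
    rw [abs_le]
    constructor <;> nlinarith [p1.1, p1.2.1, p1.2.2, p2.1, p2.2.1, p2.2.2]
  exact abs_nonpos_iff.1 (le_of_forall_pos_le_add fun η hη => by linarith [key η hη])

lemma fderiv_eq_zero_of_partials {D : ℝ × ℝ → ℝ} {a b : ℝ} (hD : DifferentiableAt ℝ D (a, b))
    (h1 : HasDerivAt (fun s => D (s, b)) 0 a) (h2 : HasDerivAt (fun s => D (a, s)) 0 b) :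
    HasFDerivAt D (0 : ℝ × ℝ →L[ℝ] ℝ) (a, b) := by
  have h := hD.hasFDerivAt
  set Lf := fderiv ℝ D (a, b)
  have e1 : Lf (1, 0) = 0 :=
    (h.comp_hasDerivAt a ((hasDerivAt_id a).prodMk (hasDerivAt_const a b))).unique h1
  have e2 : Lf (0, 1) = 0 :=
    (h.comp_hasDerivAt b ((hasDerivAt_const b a).prodMk (hasDerivAt_id b))).unique h2
  have : Lf = 0 := ContinuousLinearMap.ext fun z => by
    rw [show z = z.1 • ((1:ℝ), (0:ℝ)) + z.2 • ((0:ℝ), (1:ℝ)) by ext <;> simp, map_add, map_smul,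
      map_smul, e1, e2]
    simp
  rwa [this] at h

/-- The trace of a polynomial of the operator, in a fixed orthonormal basis. -/
noncomputable def trP (b : OrthonormalBasis (Fin N) ℂ (Vec N)) (P : ℝ[X]) (G : Op N) : ℝ :=
  ∑ a, quad P (b a) G

lemma trP_eq (b : OrthonormalBasis (Fin N) ℂ (Vec N)) (P : ℝ[X]) {G : Op N} (F : Eig G) :
    trP b P G = ∑ i, P.eval (F.g i) := by
  simp only [trP, quad_eq F]
  rw [Finset.sum_comm]
  refine sum_congr rfl fun i _ => ?_
  rw [← Finset.sum_mul, show ∑ a, F.pw (b a) i = 1 by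
    simp only [Eig.pw]
    rw [b.sum_sq_norm_inner_left, F.b.norm_eq_one, one_pow], one_mul]

section frozen

variable (dl E Q) {G0 : Op N} (F : Eig G0) (u : Vec N)

/-- The distinct eigenvalues. -/
noncomputable def nodes : Finset ℝ := univ.image F.g

lemma mem_nodes (a : Fin N) : F.g a ∈ nodes F := mem_image_of_mem _ (mem_univ a)

lemma nodes_pos (hF : F.Pos) {n : ℝ} (hn : n ∈ nodes F) : 0 < n := by
  obtain ⟨a, -, rfl⟩ := mem_image.1 hn
  exact hF a

/-- The parameter at a node. -/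
noncomputable def par (n : ℝ) : ℝ := F.mom (Hk dl) u n / n ^ bExp dl

/-- The interpolation of the trace term. -/
noncomputable def polyTr : ℝ[X] :=
  herm (nodes F) (fun n => n ^ gExp dl / gExp dl) fun n => n ^ (gExp dl - 1)

/-- The interpolation of the linear term. -/
noncomputable def polyLin : ℝ[X] :=
  herm (nodes F) (fun n => -(n ^ bExp dl * E (par dl F u n)))
    fun n => -(bExp dl * n ^ (bExp dl - 1) * E (par dl F u n))

/-- The derivative of a frozen kernel at a pair of nodes. -/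
noncomputable def dKf (dl q n m : ℝ) : ℝ := DGk n n m - q * DHk dl n n m

/-- The frozen coefficient. -/
noncomputable def qn (n : ℝ) : ℝ := Q (par dl F u n)

/-- The interpolation of the frozen quadratic kernel. -/
noncomputable def ker2 (x y : ℝ) : ℝ :=
  ∑ n ∈ nodes F, ∑ m ∈ nodes F,
    (Kf dl (qn dl Q F u n) n m * ((lag (nodes F) n).eval x * (lag (nodes F) m).eval y) +
      dKf dl (qn dl Q F u n) n m * ((mag (nodes F) n).eval x * (lag (nodes F) m).eval y) +
      dKf dl (qn dl Q F u n) m n * ((lag (nodes F) n).eval x * (mag (nodes F) m).eval y))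

/-- The smooth minorant. -/
noncomputable def frozen (v : Vec N) (G : Op N) : ℝ :=
  -trP F.b (polyTr dl F) G + quad (polyLin dl E F u) v G +
    ∑ n ∈ nodes F, ∑ m ∈ nodes F,
      (Kf dl (qn dl Q F u n) n m * (quad (lag (nodes F) n) v G * quad (lag (nodes F) m) v G) +
        dKf dl (qn dl Q F u n) n m * (quad (mag (nodes F) n) v G * quad (lag (nodes F) m) v G) +
        dKf dl (qn dl Q F u n) m n * (quad (lag (nodes F) n) v G * quad (mag (nodes F) m) v G))

lemma frozen_eq {G : Op N} (F' : Eig G) (v : Vec N) :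
    frozen dl E Q F u v G = -(∑ i, (polyTr dl F).eval (F'.g i)) +
      ∑ i, F'.pw v i * ((polyLin dl E F u).eval (F'.g i) +
        ∑ c, F'.pw v c * ker2 dl Q F u (F'.g i) (F'.g c)) := by
  rw [frozen, trP_eq F.b _ F']
  simp only [quad_eq F', mul_add, sum_add_distrib, ← add_assoc]
  rw [add_assoc, add_assoc]
  congr 1
  simp only [ker2, Finset.mul_sum, Finset.sum_mul, mul_add, sum_add_distrib]
  rw [← add_assoc]
  congr 1
  congr 1
  all_goals
    rw [eq_comm, Finset.sum_congr rfl fun i _ => Finset.sum_comm, Finset.sum_comm]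
    refine sum_congr rfl fun n _ => ?_
    rw [Finset.sum_congr rfl fun i _ => Finset.sum_comm, Finset.sum_comm]
    refine sum_congr rfl fun m _ => ?_
    rw [Finset.sum_comm]
    exact sum_congr rfl fun i _ => sum_congr rfl fun c _ => by ring

lemma ker2_node {n m : ℝ} (hn : n ∈ nodes F) (hm : m ∈ nodes F) :
    ker2 dl Q F u n m = Kf dl (qn dl Q F u n) n m := by
  simp [ker2, (lag_eval hn), (lag_eval hm), (mag_eval hn), (mag_eval hm), hn, hm]

lemma frozen_base (hF : F.Pos) :
    frozen dl E Q F u u G0 = (F.point hF u).val dl E Q := by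
  rw [frozen_eq dl E Q F u F u, val_point]
  congr 1
  · exact congrArg Neg.neg (sum_congr rfl fun i _ => (herm_eval _ _ (mem_nodes F i)).1)
  · refine sum_congr rfl fun i _ => congrArg (F.pw u i * ·) ?_
    simp only [ker2_node dl Q F u (mem_nodes F _) (mem_nodes F _), polyLin,
      (herm_eval _ _ (mem_nodes F i)).1, Eig.phi, Eig.mom, persp, Kf, qn, par, mul_sub,
      sum_sub_distrib, Finset.mul_sum]
    simp only [mul_left_comm]
    ring

end frozen

/-- Near the point the minorant is below the calibration up to `o(|ΔG|)`. -/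
lemma frozen_le (hdl : 0 < dl) (hdl1 : dl < 1) (hP : IsProfile dl E Q) {G0 : Op N} (F : Eig G0)
    (hF : F.Pos) (u : Vec N) {η : ℝ} (hη : 0 < η) :
    ∃ r > 0, ∀ (G : Op N) (F' : Eig G) (hF' : F'.Pos) (v : Vec N), ‖G - G0‖ < r →
      frozen dl E Q F u v G ≤ (F'.point hF' v).val dl E Q +
        η * ‖G - G0‖ * ((N : ℝ) + ‖v‖ ^ 2 + 2 * (‖v‖ ^ 2) ^ 2) := by
  have hg0 : 0 < gExp dl := by
    have : 0 ≤ bExp dl := div_nonneg (by linarith) (by linarith)
    rw [gExp]; linarith
  set S := nodes F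
  have one : ∀ n ∈ S, ∀ᶠ t in 𝓝 n,
      |t ^ gExp dl / gExp dl - (polyTr dl F).eval t| ≤ η * |t - n| ∧
      |-(t ^ bExp dl * E (par dl F u n)) - (polyLin dl E F u).eval t| ≤ η * |t - n| := by
    intro n hn
    have hn0 := nodes_pos F hF hn
    have d1 : HasDerivAt (fun t => t ^ gExp dl / gExp dl - (polyTr dl F).eval t) 0 n := by
      refine (((Real.hasDerivAt_rpow_const (Or.inl hn0.ne')).div_const _).sub
        (Polynomial.hasDerivAt _ n)).congr_deriv ?_
      rw [polyTr, (herm_eval _ _ hn).2]; field_simp; ring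
    have d2 : HasDerivAt (fun t => -(t ^ bExp dl * E (par dl F u n)) -
        (polyLin dl E F u).eval t) 0 n := by
      refine ((((Real.hasDerivAt_rpow_const (Or.inl hn0.ne')).mul_const _).neg).sub
        (Polynomial.hasDerivAt _ n)).congr_deriv ?_
      rw [polyLin, (herm_eval _ _ hn).2]; ring
    have z1 : n ^ gExp dl / gExp dl - (polyTr dl F).eval n = 0 := by
      rw [polyTr, (herm_eval _ _ hn).1, sub_self]
    have z2 : -(n ^ bExp dl * E (par dl F u n)) - (polyLin dl E F u).eval n = 0 := by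
      rw [polyLin, (herm_eval _ _ hn).1, sub_self]
    filter_upwards [d1.isLittleO.def hη, d2.isLittleO.def hη] with t h1 h2
    simp only [smul_zero, sub_zero, z1, z2, Real.norm_eq_abs] at h1 h2
    exact ⟨h1, h2⟩
  have two : ∀ n ∈ S, ∀ m ∈ S, ∀ᶠ z in 𝓝 (n, m),
      |Kf dl (qn dl Q F u n) z.1 z.2 - ker2 dl Q F u z.1 z.2| ≤ η * ‖z - (n, m)‖ := by
    intro n hn m hm
    have hn0 := nodes_pos F hF hn
    have hm0 := nodes_pos F hF hm
    have hd : DifferentiableAt ℝ
        (fun z : ℝ × ℝ => Kf dl (qn dl Q F u n) z.1 z.2 - ker2 dl Q F u z.1 z.2) (n, m) := by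
      refine (differentiableAt_Kf dl _ hn0 hm0).sub ?_
      unfold ker2
      fun_prop
    have h1 : HasDerivAt (fun s => Kf dl (qn dl Q F u n) s m - ker2 dl Q F u s m) 0 n := by
      have hk : HasDerivAt (fun s => ker2 dl Q F u s m) (dKf dl (qn dl Q F u n) n m) n := by
        refine (HasDerivAt.fun_sum fun n' _ => HasDerivAt.fun_sum fun m' _ =>
          ((((Polynomial.hasDerivAt (lag S n') n).mul_const _).const_mul _).add
          (((Polynomial.hasDerivAt (mag S n') n).mul_const _).const_mul _)).add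
          (((Polynomial.hasDerivAt (lag S n') n).mul_const _).const_mul _)).congr_deriv ?_
        simp [S, (lag_eval hn), (lag_eval hm), (mag_eval hn), (mag_eval hm), hn, hm]
      exact ((hasDerivAt_Kf_left dl _ hn0 hm0).sub hk).congr_deriv (by rw [dKf, sub_self])
    have h2 : HasDerivAt (fun s => Kf dl (qn dl Q F u n) n s - ker2 dl Q F u n s) 0 m := by
      have hk : HasDerivAt (fun s => ker2 dl Q F u n s) (dKf dl (qn dl Q F u n) m n) m := by
        refine (HasDerivAt.fun_sum fun n' _ => HasDerivAt.fun_sum fun m' _ =>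
          ((((Polynomial.hasDerivAt (lag S m') m).const_mul _).const_mul _).add
          (((Polynomial.hasDerivAt (lag S m') m).const_mul _).const_mul _)).add
          (((Polynomial.hasDerivAt (mag S m') m).const_mul _).const_mul _)).congr_deriv ?_
        simp [S, (lag_eval hn), (lag_eval hm), (mag_eval hn), (mag_eval hm), hn, hm]
      exact ((hasDerivAt_Kf_right dl _ hm0 hn0).sub hk).congr_deriv (by rw [dKf, sub_self])
    have z0 : Kf dl (qn dl Q F u n) n m - ker2 dl Q F u n m = 0 := by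
      rw [ker2_node dl Q F u hn hm, sub_self]
    filter_upwards [(fderiv_eq_zero_of_partials hd h1 h2).isLittleO.def hη] with z hz
    simp only [z0, sub_zero, _root_.zero_apply, Real.norm_eq_abs] at hz
    exact hz
  -- a common radius
  have rad : ∃ r > 0, (∀ n ∈ S, ∀ t, |t - n| < r →
      |t ^ gExp dl / gExp dl - (polyTr dl F).eval t| ≤ η * |t - n| ∧
      |-(t ^ bExp dl * E (par dl F u n)) - (polyLin dl E F u).eval t| ≤ η * |t - n|) ∧
      ∀ n ∈ S, ∀ m ∈ S, ∀ x y : ℝ, |x - n| < r → |y - m| < r →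
        |Kf dl (qn dl Q F u n) x y - ker2 dl Q F u x y| ≤ η * (|x - n| + |y - m|) := by
    have e1 : ∀ᶠ r in 𝓝[>] (0:ℝ), ∀ n ∈ S, ∀ t, |t - n| < r →
        |t ^ gExp dl / gExp dl - (polyTr dl F).eval t| ≤ η * |t - n| ∧
        |-(t ^ bExp dl * E (par dl F u n)) - (polyLin dl E F u).eval t| ≤ η * |t - n| := by
      refine (eventually_all_finset S).2 fun n hn => ?_
      obtain ⟨ρ, hρ, hb⟩ := Metric.eventually_nhds_iff.1 (one n hn)
      filter_upwards [Ioo_mem_nhdsGT hρ] with r hr t ht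
      exact hb (by rw [Real.dist_eq]; linarith [hr.2])
    have e2 : ∀ᶠ r in 𝓝[>] (0:ℝ), ∀ n ∈ S, ∀ m ∈ S, ∀ x y : ℝ, |x - n| < r → |y - m| < r →
        |Kf dl (qn dl Q F u n) x y - ker2 dl Q F u x y| ≤ η * (|x - n| + |y - m|) := by
      refine (eventually_all_finset S).2 fun n hn => (eventually_all_finset S).2 fun m hm => ?_
      obtain ⟨ρ, hρ, hb⟩ := Metric.eventually_nhds_iff.1 (two n hn m hm)
      filter_upwards [Ioo_mem_nhdsGT hρ] with r hr x y hx hy
      refine (hb (y := (x, y)) ?_).trans (mul_le_mul_of_nonneg_left ?_ hη.le)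
      · rw [Prod.dist_eq, Real.dist_eq, Real.dist_eq]; exact max_lt (by linarith [hr.2]) (by linarith [hr.2])
      · rw [Prod.norm_def, Prod.fst_sub, Prod.snd_sub, Real.norm_eq_abs, Real.norm_eq_abs]
        exact max_le (le_add_of_nonneg_right (abs_nonneg _)) (le_add_of_nonneg_left (abs_nonneg _))
    obtain ⟨r, ⟨h1, h2⟩, hr⟩ := ((e1.and e2).and self_mem_nhdsWithin).exists
    exact ⟨r, hr, h1, h2⟩
  obtain ⟨r, hr, r1, r2⟩ := rad
  refine ⟨r, hr, fun G F' hF' v hG => ?_⟩
  set Δ := ‖G - G0‖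
  have hnear : ∀ j, ∃ n ∈ S, |F'.g j - n| ≤ Δ := fun j => by
    obtain ⟨i, hi⟩ := F.exists_near F' j
    exact ⟨F.g i, mem_nodes F i, by rw [abs_sub_comm]; rwa [norm_sub_rev] at hi⟩
  choose ν hνS hν using hnear
  have hνr : ∀ j, |F'.g j - ν j| < r := fun j => (hν j).trans_lt hG
  have hA : ∀ i, 0 ≤ F'.mom (Hk dl) v (F'.g i) := fun i => sum_nonneg fun c _ =>
    mul_nonneg (F'.pw_nonneg v c) (Hk_nonneg hdl.le hdl1.le (hF' i) (hF' c))
  have hpar : ∀ i, 0 ≤ par dl F u (ν i) := fun i => div_nonneg (sum_nonneg fun c _ =>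
    mul_nonneg (F.pw_nonneg u c) (Hk_nonneg hdl.le hdl1.le (nodes_pos F hF (hνS i)) (hF c)))
    (Real.rpow_nonneg (nodes_pos F hF (hνS i)).le _)
  have hlow : ∀ i, -(F'.g i ^ bExp dl * E (par dl F u (ν i))) +
      ∑ c, F'.pw v c * Kf dl (qn dl Q F u (ν i)) (F'.g i) (F'.g c) ≤ F'.phi dl E Q v (F'.g i) := by
    intro i
    have h := persp_le hP (Real.rpow_pos_of_pos (hF' i) (bExp dl)) (hA i) (hpar i)
    simp only [Eig.phi, Eig.mom, Kf, qn, mul_sub, sum_sub_distrib] at h ⊢
    simp only [mul_left_comm _ (Q (par dl F u (ν i))), ← Finset.mul_sum] at h ⊢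
    linarith
  have hs : ∀ i, (polyLin dl E F u).eval (F'.g i) + ∑ c, F'.pw v c * ker2 dl Q F u (F'.g i) (F'.g c)
      ≤ F'.phi dl E Q v (F'.g i) + η * Δ * (1 + 2 * ‖v‖ ^ 2) := by
    intro i
    have a1 := (abs_le.1 (r1 _ (hνS i) _ (hνr i)).2).1
    have a2 : ∑ c, F'.pw v c * ker2 dl Q F u (F'.g i) (F'.g c) ≤
        ∑ c, F'.pw v c * (Kf dl (qn dl Q F u (ν i)) (F'.g i) (F'.g c) + η * (Δ + Δ)) := by
      refine sum_le_sum fun c _ => mul_le_mul_of_nonneg_left ?_ (F'.pw_nonneg v c)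
      have := (abs_le.1 (r2 _ (hνS i) _ (hνS c) _ _ (hνr i) (hνr c))).1
      have := mul_le_mul_of_nonneg_left (add_le_add (hν i) (hν c)) hη.le
      linarith
    simp only [mul_add, sum_add_distrib, ← Finset.sum_mul, F'.sum_pw] at a2
    have := mul_le_mul_of_nonneg_left (hν i) hη.le
    linarith [hlow i]
  rw [frozen_eq dl E Q F u F' v, val_point]
  have t1 : ∑ i, F'.g i ^ gExp dl / gExp dl ≤
      ∑ i, (polyTr dl F).eval (F'.g i) + η * Δ * N := by
    have : ∀ i, F'.g i ^ gExp dl / gExp dl ≤ (polyTr dl F).eval (F'.g i) + η * Δ := fun i => by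
      linarith [(abs_le.1 (r1 _ (hνS i) _ (hνr i)).1).2, mul_le_mul_of_nonneg_left (hν i) hη.le]
    refine (sum_le_sum fun i _ => this i).trans_eq ?_
    simp [sum_add_distrib, Finset.sum_const, mul_comm]
  have t2 : ∑ i, F'.pw v i * ((polyLin dl E F u).eval (F'.g i) +
      ∑ c, F'.pw v c * ker2 dl Q F u (F'.g i) (F'.g c)) ≤
      ∑ i, F'.pw v i * F'.phi dl E Q v (F'.g i) + ‖v‖ ^ 2 * (η * Δ * (1 + 2 * ‖v‖ ^ 2)) := by
    refine (sum_le_sum fun i _ => mul_le_mul_of_nonneg_left (hs i) (F'.pw_nonneg v i)).trans_eq ?_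
    rw [← F'.sum_pw v, Finset.sum_mul]
    simp only [mul_add, sum_add_distrib, Finset.sum_mul, Finset.mul_sum]
  linarith

end Vale.Agent.P371.Leg
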