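import Mathlib

/-!
# P371: elementary bounds on hyperbolic functions
-/

namespace Vale.Agent.P371.Leg

open Set Real

/-- Compare two functions on `[0, X]` through their derivatives. -/
lemma le_of_deriv_le {f f' g g' : ℝ → ℝ} {x : ℝ} (hx : 0 ≤ x)
    (hf : ∀ y ∈ Icc 0 x, HasDerivAt f (f' y) y) (hg : ∀ y ∈ Icc 0 x, HasDerivAt g (g' y) y)
    (h0 : f 0 ≤ g 0) (h : ∀ y ∈ Ioo 0 x, f' y ≤ g' y) : f x ≤ g x := by
  have mon : MonotoneOn (fun y => g y - f y) (Icc 0 x) :=
    monotoneOn_of_hasDerivWithinAt_nonneg (convex_Icc _ _)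
      (fun y hy => ((hg y hy).sub (hf y hy)).continuousAt.continuousWithinAt)
      (fun y hy => by
        rw [interior_Icc] at hy
        exact ((hg y (Ioo_subset_Icc_self hy)).sub (hf y (Ioo_subset_Icc_self hy))).hasDerivWithinAt)
      fun y hy => by rw [interior_Icc] at hy; linarith [h y hy]
  have := mon (left_mem_Icc.2 hx) (right_mem_Icc.2 hx) hx
  simp only at this
  linarith

lemma hasDerivAt_poly3 (a b c d y : ℝ) :
    HasDerivAt (fun z : ℝ => a + b * z + c * z ^ 2 + d * z ^ 3)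
      (b + 2 * c * y + 3 * d * y ^ 2) y := by
  refine ((((hasDerivAt_id y).const_mul b).const_add a).add
    (((hasDerivAt_id y).pow 2).const_mul c) |>.add
    (((hasDerivAt_id y).pow 3).const_mul d)).congr_deriv ?_
  simp only [id_eq, Nat.cast_ofNat, Nat.add_one_sub_one, pow_one, mul_one]
  ring

lemma sinh_le_mul {x : ℝ} (h0 : 0 ≤ x) (h1 : x ≤ 6 / 5) : sinh x ≤ 4 / 3 * x := by
  have h2 : exp (6 / 5 : ℝ) ≤ 334 / 100 := by
    have e : exp (6 / 5 : ℝ) = exp (3 / 5 : ℝ) * exp (3 / 5 : ℝ) := by rw [← exp_add]; norm_num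
    have hb := Real.exp_bound' (x := (3 / 5 : ℝ)) (by norm_num) (by norm_num) (n := 6) (by norm_num)
    norm_num [Finset.sum_range_succ, Nat.factorial] at hb
    rw [e]
    nlinarith [exp_pos (3 / 5 : ℝ)]
  have h3 : cosh (6 / 5 : ℝ) ≤ 183 / 100 := by
    have e : exp (6 / 5 : ℝ) * exp (-(6 / 5) : ℝ) = 1 := by rw [← exp_add]; simp
    rw [cosh_eq]
    have hpos := exp_pos (6 / 5 : ℝ)
    have hlow : 1 + 6 / 5 + (6 / 5) ^ 2 / 2 + (6/5)^3/6 ≤ exp (6 / 5 : ℝ) := by
      have := Real.sum_le_exp_of_nonneg (x := (6/5 : ℝ)) (by norm_num) 4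
      norm_num [Finset.sum_range_succ, Nat.factorial] at this ⊢
      linarith
    nlinarith
  -- convexity: `sinh' = cosh` is increasing
  rcases h0.eq_or_lt with e | hx
  · subst e; simp
  have hsl : ∀ y ∈ Icc (0:ℝ) x, cosh y ≤ cosh x := fun y hy => by
    rw [cosh_le_cosh, abs_of_nonneg hy.1, abs_of_pos hx]; exact hy.2
  -- the chord of the convex function `sinh` on `[0, 6/5]`
  have hmono : MonotoneOn (fun y => sinh y / y) (Ioc (0:ℝ) (6/5)) := by
    refine monotoneOn_of_hasDerivWithinAt_nonneg (convex_Ioc _ _)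
      (fun y hy => ((hasDerivAt_sinh y).div (hasDerivAt_id y) hy.1.ne').continuousAt.continuousWithinAt)
      (fun y hy => by
        rw [interior_Ioc] at hy
        exact ((hasDerivAt_sinh y).div (hasDerivAt_id y) hy.1.ne').hasDerivWithinAt) fun y hy => ?_
    rw [interior_Ioc] at hy
    refine div_nonneg ?_ (sq_nonneg _)
    have := le_of_deriv_le (f := sinh) (f' := cosh) (g := fun z => z * cosh z)
      (g' := fun z => cosh z + z * sinh z) hy.1.le (fun z _ => hasDerivAt_sinh z)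
      (fun z _ => ((hasDerivAt_id z).mul (hasDerivAt_cosh z)).congr_deriv (by simp))
      (by simp) fun z hz => by nlinarith [sinh_nonneg_iff.2 hz.1.le, hz.1]
    simp only [id_eq, mul_one]
    linarith
  have := hmono ⟨hx, h1⟩ (⟨by norm_num, le_rfl⟩ : (6/5:ℝ) ∈ Ioc (0:ℝ) (6/5)) h1
  simp only at this
  rw [div_le_iff₀ hx] at this
  have hs : sinh (6 / 5 : ℝ) ≤ 8 / 5 := by
    have e : exp (6 / 5 : ℝ) * exp (-(6 / 5) : ℝ) = 1 := by rw [← exp_add]; simp
    rw [sinh_eq]
    nlinarith [exp_pos (6 / 5 : ℝ), exp_pos (-(6 / 5) : ℝ)]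
  nlinarith [mul_le_mul_of_nonneg_right (show sinh (6/5 : ℝ) / (6/5) ≤ 4 / 3 by
    rw [div_le_iff₀ (by norm_num)]; linarith) hx.le]

/-- Upper Taylor bounds on `[0, 6/5]`. -/
lemma taylor_upper {x : ℝ} (h0 : 0 ≤ x) (h1 : x ≤ 6 / 5) :
    cosh x ≤ 1 + x ^ 2 / 2 + x ^ 4 / 18 ∧ sinh x ≤ x + x ^ 3 / 6 + x ^ 5 / 90 := by
  have c1 : ∀ y ∈ Icc (0:ℝ) x, cosh y ≤ 1 + 2 / 3 * y ^ 2 := fun y hy =>
    le_of_deriv_le hy.1 (fun z _ => hasDerivAt_cosh z)
      (fun z _ => ((((hasDerivAt_id z).pow 2).const_mul (2/3)).const_add 1).congr_deriv rfl)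
      (by simp) fun z hz => by
        simp only [id_eq, Nat.cast_ofNat, Nat.add_one_sub_one, pow_one, mul_one]
        linarith [sinh_le_mul hz.1.le (hz.2.le.trans (hy.2.trans h1))]
  have s1 : ∀ y ∈ Icc (0:ℝ) x, sinh y ≤ y + 2 / 9 * y ^ 3 := fun y hy =>
    le_of_deriv_le hy.1 (fun z _ => hasDerivAt_sinh z)
      (fun z _ => ((hasDerivAt_id z).add (((hasDerivAt_id z).pow 3).const_mul (2/9))).congr_deriv rfl)
      (by simp) fun z hz => by
        simp only [id_eq, Nat.cast_ofNat, Nat.add_one_sub_one, mul_one]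
        linarith [c1 z ⟨hz.1.le, hz.2.le.trans hy.2⟩]
  have c2 : ∀ y ∈ Icc (0:ℝ) x, cosh y ≤ 1 + y ^ 2 / 2 + y ^ 4 / 18 := fun y hy =>
    le_of_deriv_le hy.1 (fun z _ => hasDerivAt_cosh z)
      (fun z _ => (((((hasDerivAt_id z).pow 2).div_const 2).const_add 1).add
        (((hasDerivAt_id z).pow 4).div_const 18)).congr_deriv rfl)
      (by simp) fun z hz => by
        simp only [id_eq, Nat.cast_ofNat, Nat.add_one_sub_one, pow_one, mul_one]
        linarith [s1 z ⟨hz.1.le, hz.2.le.trans hy.2⟩]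
  refine ⟨c2 x (right_mem_Icc.2 h0), le_of_deriv_le h0 (fun z _ => hasDerivAt_sinh z)
      (fun z _ => (((hasDerivAt_id z).add (((hasDerivAt_id z).pow 3).div_const 6)).add
        (((hasDerivAt_id z).pow 5).div_const 90)).congr_deriv rfl)
      (by simp) fun z hz => ?_⟩
  simp only [id_eq, Nat.cast_ofNat, Nat.add_one_sub_one, mul_one]
  linarith [c2 z (Ioo_subset_Icc_self hz)]

lemma cosh_ge_quad (x : ℝ) : 1 + x ^ 2 / 2 ≤ cosh x := by
  wlog h0 : 0 ≤ x generalizing x
  · have := this (-x) (by linarith)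
    rw [cosh_neg] at this
    linarith [show (-x) ^ 2 = x ^ 2 by ring]
  exact le_of_deriv_le h0 (fun z _ => (((hasDerivAt_id z).pow 2).div_const 2).const_add 1)
    (fun z _ => hasDerivAt_cosh z) (by simp) fun z hz => by
      simp only [id_eq, Nat.cast_ofNat, Nat.add_one_sub_one, pow_one, mul_one]
      linarith [self_le_sinh_iff.2 hz.1.le]

lemma hasDerivAt_tanh' (x : ℝ) : HasDerivAt tanh (1 - tanh x ^ 2) x := by
  have h := (hasDerivAt_sinh x).div (hasDerivAt_cosh x) (cosh_pos x).ne'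
  have e : (tanh : ℝ → ℝ) = fun y => sinh y / cosh y := funext tanh_eq_sinh_div_cosh
  rw [e]
  refine h.congr_deriv ?_
  have := (cosh_pos x).ne'
  field_simp

lemma tanh_bounds {x : ℝ} (h0 : 0 ≤ x) :
    0 ≤ tanh x ∧ tanh x ≤ x ∧ x - x ^ 3 / 3 ≤ tanh x ∧ tanh x < 1 := by
  have hp : ∀ y, 0 ≤ y → 0 ≤ tanh y := fun y hy => by
    rw [tanh_eq_sinh_div_cosh]; exact div_nonneg (sinh_nonneg_iff.2 hy) (cosh_pos y).le
  have up : ∀ y, 0 ≤ y → tanh y ≤ y := fun y hy =>
    le_of_deriv_le hy (fun z _ => hasDerivAt_tanh' z) (fun z _ => hasDerivAt_id z)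
      (by simp) fun z _ => by nlinarith [sq_nonneg (tanh z)]
  refine ⟨hp x h0, up x h0, le_of_deriv_le h0
    (fun z _ => ((hasDerivAt_id z).sub (((hasDerivAt_id z).pow 3).div_const 3)))
    (fun z _ => hasDerivAt_tanh' z) (by simp) fun z hz => ?_, tanh_lt_one x⟩
  simp only [id_eq, Nat.cast_ofNat, Nat.add_one_sub_one, mul_one]
  nlinarith [hp z hz.1.le, up z hz.1.le]

/-- `θ / sinh θ`. -/
noncomputable def wt (th : ℝ) : ℝ := th / sinh th

lemma wt_mem {th : ℝ} (h : 0 < th) : 0 < wt th ∧ wt th ≤ 1 :=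
  ⟨div_pos h (sinh_pos_iff.2 h), (div_le_one (sinh_pos_iff.2 h)).2 (self_le_sinh_iff.2 h.le)⟩

lemma wt_ge {th X : ℝ} (h : 0 < th) (hX : th ≤ X) : X ≤ wt th * sinh X := by
  have hs := sinh_pos_iff.2 h
  rw [wt, div_mul_eq_mul_div, le_div_iff₀ hs]
  have mon : MonotoneOn (fun y => th * sinh y - y * sinh th) (Icc th X) := by
    refine monotoneOn_of_hasDerivWithinAt_nonneg (convex_Icc _ _) (by fun_prop)
      (fun y _ => (((hasDerivAt_sinh y).const_mul th).sub
        ((hasDerivAt_id y).mul_const (sinh th))).hasDerivWithinAt) fun y hy => ?_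
    rw [interior_Icc] at hy
    simp only [one_mul, sub_nonneg]
    have h1 : sinh th ≤ th * cosh th := by
      have := le_of_deriv_le (f := sinh) (f' := cosh) (g := fun z => z * cosh z)
        (g' := fun z => cosh z + z * sinh z) h.le (fun z _ => hasDerivAt_sinh z)
        (fun z _ => ((hasDerivAt_id z).mul (hasDerivAt_cosh z)).congr_deriv (by simp))
        (by simp) fun z hz => by nlinarith [sinh_nonneg_iff.2 hz.1.le, hz.1]
      simpa using this
    have h2 : cosh th ≤ cosh y := by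
      rw [cosh_le_cosh, abs_of_pos h, abs_of_pos (h.trans hy.1)]; exact hy.1.le
    nlinarith
  have := mon (left_mem_Icc.2 hX) (right_mem_Icc.2 hX) hX
  simp only at this
  linarith

/-- `θ coth θ`. -/
noncomputable def tc (th : ℝ) : ℝ := th * cosh th / sinh th

lemma wt_cosh {th : ℝ} (h : 0 < th) (a : ℝ) :
    wt th * cosh (a - th) = tc th * cosh a - th * sinh a ∧
      wt th * sinh (a - th) = tc th * sinh a - th * cosh a := by
  have := (sinh_pos_iff.2 h).ne'
  constructor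
  · rw [cosh_sub, wt, tc]; field_simp
  · rw [sinh_sub, wt, tc]; field_simp

lemma tc_sq {th : ℝ} (h : 0 < th) : 1 + 2 / 3 * th ^ 2 ≤ tc th ^ 2 := by
  have hs := sinh_pos_iff.2 h
  rw [tc, div_pow, le_div_iff₀ (pow_pos hs 2)]
  have key : ∀ X, 0 ≤ X → 0 ≤ 6 * X ^ 2 - (cosh X - 1) * (12 - X ^ 2) := by
    intro X hX
    have d3 : ∀ y, 0 ≤ y → 0 ≤ 6 * y * cosh y - (6 - y ^ 2) * sinh y := fun y hy => by
      have h1 : sinh y ≤ y * cosh y := by
        have := le_of_deriv_le (f := sinh) (f' := cosh) (g := fun z => z * cosh z)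
          (g' := fun z => cosh z + z * sinh z) hy (fun z _ => hasDerivAt_sinh z)
          (fun z _ => ((hasDerivAt_id z).mul (hasDerivAt_cosh z)).congr_deriv (by simp))
          (by simp) fun z hz => by nlinarith [sinh_nonneg_iff.2 hz.1.le, hz.1]
        simpa using this
      nlinarith [mul_nonneg (sq_nonneg y) (sinh_nonneg_iff.2 hy)]
    have d2 : ∀ y, 0 ≤ y → 0 ≤ 10 - (10 - y ^ 2) * cosh y + 4 * y * sinh y := fun y hy => by
      refine le_of_deriv_le (f := fun _ => (0:ℝ)) (f' := fun _ => 0)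
        (g := fun z => 10 - (10 - z ^ 2) * cosh z + 4 * z * sinh z) hy
        (fun z _ => hasDerivAt_const z 0)
        (fun z _ => ((((((hasDerivAt_id z).pow 2).const_sub 10).mul
          (hasDerivAt_cosh z)).const_sub 10).add
          (((hasDerivAt_id z).const_mul 4).mul (hasDerivAt_sinh z)))) (by simp) fun z hz => ?_
      simp only [id_eq, Nat.cast_ofNat, Nat.add_one_sub_one, pow_one, mul_one, Pi.pow_apply]
      linarith [d3 z hz.1.le]
    have d1 : ∀ y, 0 ≤ y → 0 ≤ 12 * y - sinh y * (12 - y ^ 2) + 2 * y * (cosh y - 1) := fun y hy => by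
      refine le_of_deriv_le (f := fun _ => (0:ℝ)) (f' := fun _ => 0)
        (g := fun z => 12 * z - sinh z * (12 - z ^ 2) + 2 * z * (cosh z - 1)) hy
        (fun z _ => hasDerivAt_const z 0)
        (fun z _ => (((((hasDerivAt_id z).const_mul 12)).sub ((hasDerivAt_sinh z).mul
          (((hasDerivAt_id z).pow 2).const_sub 12))).add
          (((hasDerivAt_id z).const_mul 2).mul ((hasDerivAt_cosh z).sub_const 1)))) (by simp)
        fun z hz => ?_
      simp only [id_eq, Nat.cast_ofNat, Nat.add_one_sub_one, pow_one, mul_one, Pi.pow_apply]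
      linarith [d2 z hz.1.le]
    refine le_of_deriv_le (f := fun _ => (0:ℝ)) (f' := fun _ => 0)
      (g := fun z => 6 * z ^ 2 - (cosh z - 1) * (12 - z ^ 2)) hX (fun z _ => hasDerivAt_const z 0)
      (fun z _ => (((hasDerivAt_id z).pow 2).const_mul 6).sub
        (((hasDerivAt_cosh z).sub_const 1).mul (((hasDerivAt_id z).pow 2).const_sub 12)))
      (by simp) fun z hz => ?_
    simp only [id_eq, Nat.cast_ofNat, Nat.add_one_sub_one, pow_one, mul_one]
    linarith [d1 z hz.1.le]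
  have := key (2 * th) (by linarith)
  rw [cosh_two_mul] at this
  nlinarith [cosh_sq th]

lemma tc_ge_one {th : ℝ} (h : 0 < th) : 1 ≤ tc th := by
  have h1 := tc_sq h
  have : 0 ≤ tc th := by
    have := sinh_pos_iff.2 h; unfold tc; positivity
  nlinarith [sq_nonneg th]

/-- The loss bound for the linear term. -/
lemma loss_le {th G a : ℝ} (h : 0 < th) (hG : 0 < G) (hr : a ≤ 502 / 1000 * G) :
    th * a - G * (tc th - 1) ≤ 84 / 100 * a ^ 2 / G := by
  set r := a / G with hrdef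
  have hr1 : r ≤ 502 / 1000 := by rw [hrdef, div_le_iff₀ hG]; linarith
  have key : th * r - (tc th - 1) ≤ 84 / 100 * r ^ 2 := by
    have h1 := tc_ge_one h
    rcases le_or_gt r 0 with h0 | h0
    · nlinarith [mul_nonpos_of_nonneg_of_nonpos h.le h0, sq_nonneg r]
    · by_contra hc
      push Not at hc
      have h2 : 1 - 84 / 100 * r ^ 2 + th * r ≥ 0 := by nlinarith
      have h3 : tc th < 1 - 84 / 100 * r ^ 2 + th * r := by linarith
      have h4 := tc_sq h
      have h5 : 1 + 2 / 3 * th ^ 2 < (1 - 84 / 100 * r ^ 2 + th * r) ^ 2 :=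
        h4.trans_lt (pow_lt_pow_left₀ h3 (by linarith) two_ne_zero)
      have hpos : 0 < 2 / 3 - r ^ 2 := by nlinarith
      nlinarith [sq_nonneg (th * (2 / 3 - r ^ 2) - (1 - 84 / 100 * r ^ 2) * r),
        sq_nonneg r, mul_pos h0 h0, pow_nonneg h0.le 4, mul_le_mul hr1 hr1 h0.le (by norm_num)]
  have := mul_le_mul_of_nonneg_left key hG.le
  have e1 : G * r = a := by rw [hrdef]; field_simp
  have e2 : G * (84 / 100 * r ^ 2) = 84 / 100 * a ^ 2 / G := by rw [hrdef]; field_simp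
  rw [e2] at this
  nlinarith

end Vale.Agent.P371.Leg
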