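import Vale.Agent.P371.Leg.Defs

/-!
# P371: the two kernels and the perspective of the profile
-/

namespace Vale.Agent.P371.Leg

open Real Filter
open scoped Topology

variable {dl : ℝ} {E Q : ℝ → ℝ}

lemma Hk_comm (dl x y : ℝ) : Hk dl x y = Hk dl y x := by rw [Hk, Hk, Gk, Gk]; ring

lemma Gk_comm (x y : ℝ) : Gk x y = Gk y x := by rw [Gk, Gk]; ring

lemma Hk_nonneg (h0 : 0 ≤ dl) (h1 : dl ≤ 1) {x y : ℝ} (hx : 0 < x) (hy : 0 < y) :
    0 ≤ Hk dl x y := by
  have : 0 ≤ 1 - dl := sub_nonneg.2 h1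
  rw [Hk, Gk]; positivity

lemma Gk_sub {x y c : ℝ} (hx : 0 < x) (hy : 0 < y) (hc : 0 < c) :
    Gk x c - Gk y c = DGk x y c * (x - y) := by
  rw [DGk, Gk, Gk]; field_simp; ring

lemma Hk_sub (dl : ℝ) {x y c : ℝ} (hx : 0 < x) (hy : 0 < y) (hc : 0 < c) :
    Hk dl x c - Hk dl y c = DHk dl x y c * (x - y) := by
  rw [DHk, DGk, Hk, Hk, Gk, Gk]
  field_simp
  ring

lemma hasDerivAt_Gk {x c : ℝ} (hx : 0 < x) (hc : 0 < c) :
    HasDerivAt (fun t => Gk t c) (DGk x x c) x := by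
  have h : HasDerivAt (fun t => 1 / (2 * (t + c))) (-(2 : ℝ) / (2 * (x + c)) ^ 2) x := by
    simpa [one_div] using (((hasDerivAt_id x).add_const c).const_mul (2 : ℝ)).fun_inv
      (by positivity : (2 : ℝ) * (x + c) ≠ 0)
  refine h.congr_deriv ?_
  rw [DGk, Gk]; field_simp

lemma hasDerivAt_Hk (dl : ℝ) {x c : ℝ} (hx : 0 < x) (hc : 0 < c) :
    HasDerivAt (fun t => Hk dl t c) (DHk dl x x c) x := by
  have h2 : HasDerivAt (fun t : ℝ => 2 * dl * (t * c) / (t + c) ^ 3)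
      ((2 * dl * c * (x + c) ^ 3 - 2 * dl * (x * c) * (3 * (x + c) ^ 2)) / ((x + c) ^ 3) ^ 2) x := by
    refine (((hasDerivAt_mul_const c).const_mul (2 * dl)).div
      (((hasDerivAt_id x).add_const c).pow 3) (by simp only [id, Pi.pow_apply]; positivity)).congr_deriv ?_
    simp
  refine (((hasDerivAt_Gk hx hc).const_mul (1 - dl)).add h2).congr_deriv ?_
  rw [DHk]
  field_simp
  ring

/-- A kernel frozen at the parameter `q`. -/
noncomputable def Kf (dl q x y : ℝ) : ℝ := Gk x y - q * Hk dl x y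

lemma hasDerivAt_Kf_left (dl q : ℝ) {x c : ℝ} (hx : 0 < x) (hc : 0 < c) :
    HasDerivAt (fun t => Kf dl q t c) (DGk x x c - q * DHk dl x x c) x :=
  (hasDerivAt_Gk hx hc).sub ((hasDerivAt_Hk dl hx hc).const_mul q)

lemma hasDerivAt_Kf_right (dl q : ℝ) {x c : ℝ} (hx : 0 < x) (hc : 0 < c) :
    HasDerivAt (fun t => Kf dl q c t) (DGk x x c - q * DHk dl x x c) x := by
  refine (hasDerivAt_Kf_left dl q hx hc).congr_of_eventuallyEq (Eventually.of_forall fun t => ?_)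
  simp only [Kf, Gk_comm c t, Hk_comm dl c t]

lemma differentiableAt_Kf (dl q : ℝ) {x y : ℝ} (hx : 0 < x) (hy : 0 < y) :
    DifferentiableAt ℝ (fun z : ℝ × ℝ => Kf dl q z.1 z.2) (x, y) := by
  have : x + y ≠ 0 := by positivity
  unfold Kf Hk Gk
  fun_prop (disch := simp_all)

lemma exists_kernel_bounds (dl : ℝ) {δ T : ℝ} (hδ : 0 < δ) :
    ∃ L M : ℝ, 0 ≤ L ∧ 0 ≤ M ∧
      ∀ x ∈ Set.Icc δ T, ∀ y ∈ Set.Icc δ T, ∀ x' ∈ Set.Icc δ T, ∀ y' ∈ Set.Icc δ T,
        |Gk x y| ≤ M ∧ |Hk dl x y| ≤ M ∧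
          |Gk x y - Gk x' y'| ≤ L * (|x - x'| + |y - y'|) ∧
          |Hk dl x y - Hk dl x' y'| ≤ L * (|x - x'| + |y - y'|) := by
  set s := Set.Icc δ T ×ˢ Set.Icc δ T with hs
  have hc : IsCompact s := isCompact_Icc.prod isCompact_Icc
  have hpos : ∀ z ∈ s, z.1 + z.2 ≠ 0 := fun z hz =>
    (add_pos (lt_of_lt_of_le hδ hz.1.1) (lt_of_lt_of_le hδ hz.2.1)).ne'
  have hG : ContDiffOn ℝ 1 (fun z : ℝ × ℝ => Gk z.1 z.2) s := fun z hz => by
    have := hpos z hz
    unfold Gk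
    exact (contDiffAt_const.div (contDiffAt_const.mul (contDiffAt_fst.add contDiffAt_snd))
      (by simpa using this)).contDiffWithinAt
  have hH : ContDiffOn ℝ 1 (fun z : ℝ × ℝ => Hk dl z.1 z.2) s := fun z hz => by
    have := hpos z hz
    unfold Hk Gk
    exact ContDiffAt.contDiffWithinAt (by fun_prop (disch := simp_all))
  have hconv := (convex_Icc (𝕜 := ℝ) δ T).prod (convex_Icc (𝕜 := ℝ) δ T)
  obtain ⟨L1, hL1⟩ := hG.exists_lipschitzOnWith (by decide) hconv hc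
  obtain ⟨L2, hL2⟩ := hH.exists_lipschitzOnWith (by decide) hconv hc
  obtain ⟨M1, hM1⟩ := hc.exists_bound_of_continuousOn hG.continuousOn
  obtain ⟨M2, hM2⟩ := hc.exists_bound_of_continuousOn hH.continuousOn
  refine ⟨(L1 : ℝ) + L2, max 0 (max M1 M2), by positivity, le_max_left _ _,
    fun x hx y hy x' hx' y' hy' => ⟨?_, ?_, ?_, ?_⟩⟩
  · exact (hM1 (x, y) ⟨hx, hy⟩).trans ((le_max_left _ _).trans (le_max_right _ _))
  · exact (hM2 (x, y) ⟨hx, hy⟩).trans ((le_max_right _ _).trans (le_max_right _ _))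
  all_goals
    have hd : dist (x, y) (x', y') ≤ |x - x'| + |y - y'| := by
      rw [Prod.dist_eq, Real.dist_eq, Real.dist_eq]
      exact max_le (le_add_of_nonneg_right (abs_nonneg _)) (le_add_of_nonneg_left (abs_nonneg _))
  · refine (hL1.dist_le_mul (x, y) ⟨hx, hy⟩ (x', y') ⟨hx', hy'⟩).trans ?_
    refine (mul_le_mul_of_nonneg_left hd L1.2).trans (mul_le_mul_of_nonneg_right ?_ (by positivity))
    exact le_add_of_nonneg_right L2.2
  · refine (hL2.dist_le_mul (x, y) ⟨hx, hy⟩ (x', y') ⟨hx', hy'⟩).trans ?_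
    refine (mul_le_mul_of_nonneg_left hd L2.2).trans (mul_le_mul_of_nonneg_right ?_ (by positivity))
    exact le_add_of_nonneg_left L1.2

/-- The value of the profile in homogeneous variables. -/
noncomputable def persp (E Q : ℝ → ℝ) (e A : ℝ) : ℝ := e * E (A / e) + Q (A / e) * A

lemma persp_le (hP : IsProfile dl E Q) {e A v : ℝ} (he : 0 < e) (hA : 0 ≤ A) (hv : 0 ≤ v) :
    persp E Q e A ≤ e * E v + Q v * A := by
  have h := mul_le_mul_of_nonneg_left (hP.min_le (A / e) v (div_nonneg hA he.le) hv) he.le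
  have h1 : e * (Q (A / e) * (A / e)) = Q (A / e) * A := by field_simp
  have h2 : e * (Q v * (A / e)) = Q v * A := by field_simp
  rw [persp]
  linarith

lemma profile_E_le (hP : IsProfile dl E Q) {v : ℝ} (hv : 0 ≤ v) : E v ≤ 1 + kExp dl * v := by
  have h := hP.min_le v 0 hv le_rfl
  rw [hP.zero.1, hP.zero.2] at h
  linarith [mul_nonneg (hP.q_mem v hv).1 hv]

lemma abs_persp_sub_le (hP : IsProfile dl E Q) {e e' A A' e0 Amax : ℝ} (he0 : 0 < e0)
    (he : e0 ≤ e) (he' : e0 ≤ e') (hA : 0 ≤ A) (hA' : 0 ≤ A') (hAm : A ≤ Amax) (hAm' : A' ≤ Amax) :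
    |persp E Q e A - persp E Q e' A'| ≤
      (1 + kExp dl * (Amax / e0)) * |e - e'| + kExp dl * |A - A'| := by
  have hk : 0 ≤ kExp dl := (hP.q_mem 0 le_rfl).1.trans (hP.q_mem 0 le_rfl).2
  suffices H : ∀ e e' A A' : ℝ, e0 ≤ e → e0 ≤ e' → 0 ≤ A → 0 ≤ A' → A' ≤ Amax →
      persp E Q e A - persp E Q e' A' ≤
        (1 + kExp dl * (Amax / e0)) * |e - e'| + kExp dl * |A - A'| by
    rw [abs_le]
    refine ⟨?_, H e e' A A' he he' hA hA' hAm'⟩
    have := H e' e A' A he' he hA' hA hAm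
    rw [abs_sub_comm e' e, abs_sub_comm A' A] at this
    linarith
  intro e e' A A' he he' hA hA' hAm'
  set v := A' / e'
  have hep : 0 < e' := lt_of_lt_of_le he0 he'
  have hv : 0 ≤ v := div_nonneg hA' hep.le
  have hEv : E v ≤ 1 + kExp dl * (Amax / e0) := (profile_E_le hP hv).trans
    (by
      gcongr
      exact div_le_div₀ (hA'.trans hAm') hAm' he0 he')
  have h1 := persp_le hP (lt_of_lt_of_le he0 he) hA hv
  have hq := hP.q_mem v hv
  have hE0 : 0 ≤ E v := zero_le_one.trans (hP.one_le v hv)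
  have a1 : (e - e') * E v ≤ (1 + kExp dl * (Amax / e0)) * |e - e'| := by
    refine (mul_le_mul_of_nonneg_right (le_abs_self _) hE0).trans ?_
    rw [mul_comm]
    exact mul_le_mul_of_nonneg_right hEv (abs_nonneg _)
  have a2 : Q v * (A - A') ≤ kExp dl * |A - A'| :=
    (mul_le_mul_of_nonneg_left (le_abs_self _) hq.1).trans
      (mul_le_mul_of_nonneg_right hq.2 (abs_nonneg _))
  have e2 : persp E Q e' A' = e' * E v + Q v * A' := rfl
  nlinarith

end Vale.Agent.P371.Leg
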