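import Mathlib

/-!
# P371: a minimum principle for bounded solutions of a hyperbolic first order system
-/

namespace Vale.Agent.P371.Leg

open Set Filter Topology Real

/-- The forward half of `neg_le_of_system`. -/
lemma system_forward {v w e1 wd : ℝ → ℝ} {ε η m t0 : ℝ}
    (hv : ∀ t, HasDerivAt v (w t + e1 t) t) (hw : ∀ t, HasDerivAt w (wd t) t)
    (he : ∀ t, |e1 t| ≤ ε) (hd : ∀ t, v t ≤ 0 → wd t ≤ v t + |w t| + ε)
    (hm : ∀ t, m ≤ v t) (ht0 : v t0 < m + η) (hw0 : w t0 ≤ 0) :
    -(15 * ε + 18 * η) ≤ m := by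
  by_contra hc
  push Not at hc
  have hε : 0 ≤ ε := (abs_nonneg _).trans (he t0)
  have hη : 0 < η := by linarith [hm t0]
  have hvc : Continuous v := continuous_iff_continuousAt.2 fun t => (hv t).continuousAt
  have hwc : Continuous w := continuous_iff_continuousAt.2 fun t => (hw t).continuousAt
  set A := -m / 2 - 3 * (ε + η) with hA
  have hApos : 0 < A := by linarith
  -- on an interval without exit
  have step : ∀ s, t0 ≤ s → (∀ t ∈ Ioo t0 s, v t < m / 2 ∧ w t < ε + η) →
      ∀ t ∈ Icc t0 s, w t ≤ -A + A * exp (-(t - t0)) := by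
    intro s hs hno t ht
    have anti : AntitoneOn (fun r => exp (r - t0) * (w r + A)) (Icc t0 s) := by
      refine antitoneOn_of_hasDerivWithinAt_nonpos (convex_Icc _ _)
        ((Real.continuous_exp.comp (continuous_id.sub continuous_const)).mul
          (hwc.add continuous_const)).continuousOn
        (fun r _ => ((((hasDerivAt_id r).sub_const t0).exp).mul
          ((hw r).add_const A)).hasDerivWithinAt) fun r hr => ?_
      rw [interior_Icc] at hr
      obtain ⟨h1, h2⟩ := hno r hr
      have hwd := hd r (by linarith)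
      have habs : |w r| ≤ -w r + 2 * (ε + η) := by
        rcases abs_cases (w r) with ⟨e, _⟩ | ⟨e, _⟩ <;> linarith
      simp only [id_eq, mul_one]
      rw [← mul_add]
      exact mul_nonpos_of_nonneg_of_nonpos (exp_pos _).le (by linarith)
    have h := anti (left_mem_Icc.2 hs) ht ht.1
    simp only [sub_self, exp_zero, one_mul] at h
    have e : exp (-(t - t0)) * exp (t - t0) = 1 := by rw [← exp_add]; simp
    have h' := mul_le_mul_of_nonneg_left h (exp_pos (-(t - t0))).le
    rw [← mul_assoc, e, one_mul, mul_add] at h'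
    nlinarith [exp_pos (-(t - t0))]
  have wneg : ∀ s, t0 ≤ s → (∀ t ∈ Ioo t0 s, v t < m / 2 ∧ w t < ε + η) →
      ∀ t ∈ Icc t0 s, w t ≤ 0 := fun s hs hno t ht => by
    nlinarith [step s hs hno t ht, exp_le_one_iff.2 (show -(t - t0) ≤ 0 by linarith [ht.1]),
      exp_pos (-(t - t0))]
  have vbd : ∀ s, t0 ≤ s → (∀ t ∈ Ioo t0 s, v t < m / 2 ∧ w t < ε + η) →
      ∀ t ∈ Icc t0 s, v t ≤ v t0 + ε * (t - t0) := fun s hs hno t ht => by
    have anti : AntitoneOn (fun r => v r - ε * r) (Icc t0 s) := by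
      refine antitoneOn_of_hasDerivWithinAt_nonpos (convex_Icc _ _)
        (hvc.sub (continuous_const.mul continuous_id)).continuousOn
        (fun r _ => ((hv r).sub ((hasDerivAt_id r).const_mul ε)).hasDerivWithinAt) fun r hr => ?_
      rw [interior_Icc] at hr
      simp only [mul_one]
      linarith [wneg s hs hno r (Ioo_subset_Icc_self hr), (abs_le.1 (he r)).2]
    have := anti (left_mem_Icc.2 hs) ht ht.1
    linarith
  -- no exit before `t0 + 1`
  have hno : ∀ t ∈ Ioo t0 (t0 + 1), v t < m / 2 ∧ w t < ε + η := by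
    intro t ht
    by_contra hh
    set S := {r ∈ Icc t0 (t0 + 1) | m / 2 ≤ v r ∨ ε + η ≤ w r} with hS
    have hne : S.Nonempty := ⟨t, Ioo_subset_Icc_self ht, by
      rcases lt_or_ge (v t) (m / 2) with h1 | h1
      · exact Or.inr (not_lt.1 fun h2 => hh ⟨h1, h2⟩)
      · exact Or.inl h1⟩
    have hcl : IsClosed S := isClosed_Icc.inter
      ((isClosed_le continuous_const hvc).union (isClosed_le continuous_const hwc))
    obtain ⟨s, hs⟩ := (isCompact_Icc.of_isClosed_subset hcl fun r hr => hr.1).exists_isLeast hne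
    have hbefore : ∀ r ∈ Ioo t0 s, v r < m / 2 ∧ w r < ε + η := fun r hr => by
      by_contra h2
      refine absurd (hs.2 ⟨⟨hr.1.le, hr.2.le.trans hs.1.1.2⟩, ?_⟩) (not_le.2 hr.2)
      rcases lt_or_ge (v r) (m / 2) with h1 | h1
      · exact Or.inr (not_lt.1 fun h3 => h2 ⟨h1, h3⟩)
      · exact Or.inl h1
    have h1 := wneg s hs.1.1.1 hbefore s (right_mem_Icc.2 hs.1.1.1)
    have h2 := vbd s hs.1.1.1 hbefore s (right_mem_Icc.2 hs.1.1.1)
    have h4 : s - t0 ≤ 1 := by linarith [hs.1.1.2]
    rcases hs.1.2 with h3 | h3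
    · nlinarith
    · linarith
  have hT : t0 ≤ t0 + 1 := by linarith
  have anti : AntitoneOn (fun r => v r - ε * r + A / 4 * (r - t0) ^ 2) (Icc t0 (t0 + 1)) := by
    refine antitoneOn_of_hasDerivWithinAt_nonpos (convex_Icc _ _)
      ((hvc.sub (continuous_const.mul continuous_id)).add (by fun_prop)).continuousOn
      (fun r _ => (((hv r).sub ((hasDerivAt_id r).const_mul ε)).add
        ((((hasDerivAt_id r).sub_const t0).pow 2).const_mul (A / 4))).hasDerivWithinAt) fun r hr => ?_
    rw [interior_Icc] at hr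
    have h1 := step _ hT hno r (Ioo_subset_Icc_self hr)
    have hx0 : 0 ≤ r - t0 := by linarith [hr.1]
    have hx1 : r - t0 ≤ 1 := by linarith [hr.2]
    have h2 : exp (-(r - t0)) ≤ 1 - (r - t0) / 2 := by
      have h3 := add_one_le_exp (r - t0)
      have e : exp (-(r - t0)) * exp (r - t0) = 1 := by rw [← exp_add]; simp
      nlinarith [exp_pos (-(r - t0))]
    simp only [id_eq, Nat.cast_ofNat, Nat.add_one_sub_one, pow_one, mul_one]
    nlinarith [(abs_le.1 (he r)).2]
  have hfin := anti (left_mem_Icc.2 hT) (right_mem_Icc.2 hT) hT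
  simp only [sub_self, add_sub_cancel_left] at hfin
  norm_num at hfin
  linarith [hm (t0 + 1)]

/-- If `v` is bounded below, `v' = w + e1` with `|e1| ≤ ε` and `w' ≤ v + |w| + ε` wherever
`v ≤ 0`, then `-(15 ε) ≤ v`. -/
theorem neg_le_of_system {v w e1 wd : ℝ → ℝ} {ε C : ℝ}
    (hv : ∀ t, HasDerivAt v (w t + e1 t) t) (hw : ∀ t, HasDerivAt w (wd t) t)
    (he : ∀ t, |e1 t| ≤ ε) (hd : ∀ t, v t ≤ 0 → wd t ≤ v t + |w t| + ε)
    (hC : ∀ t, C ≤ v t) (t : ℝ) : -(15 * ε) ≤ v t := by
  have hb : BddBelow (range v) := ⟨C, by rintro _ ⟨s, rfl⟩; exact hC s⟩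
  set m := sInf (range v)
  have hm : ∀ s, m ≤ v s := fun s => csInf_le hb ⟨s, rfl⟩
  refine le_trans ?_ (hm t)
  refine le_of_forall_pos_le_add fun η hη => ?_
  obtain ⟨_, ⟨t0, rfl⟩, ht0⟩ := exists_lt_of_csInf_lt (range_nonempty v)
    (show m < m + η / 18 by linarith)
  rcases le_or_gt (w t0) 0 with h | h
  · linarith [system_forward hv hw he hd hm ht0 h]
  · have hneg : ∀ s, HasDerivAt (fun r : ℝ => -r) (-1 : ℝ) s := fun s => (hasDerivAt_id s).neg
    have := system_forward (v := fun r => v (-r)) (w := fun r => -w (-r))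
      (e1 := fun r => -e1 (-r)) (wd := fun r => wd (-r)) (ε := ε) (η := η / 18) (m := m)
      (t0 := -t0)
      (fun r => ((hv (-r)).comp r (hneg r)).congr_deriv (by ring))
      (fun r => ((hw (-r)).comp r (hneg r)).neg.congr_deriv (by ring))
      (fun r => by rw [abs_neg]; exact he _)
      (fun r hr => by rw [abs_neg]; exact hd _ hr) (fun r => hm _) (by simpa using ht0)
      (by simp; linarith)
    linarith

end Vale.Agent.P371.Leg
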