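import Vale.Agent.P371.Leg.PairCore
import Vale.Agent.P371.Leg.Big

/-!
# P371: the inequality for one pair, and the pointwise inequality
-/

namespace Vale.Agent.P371.Leg

open Real Set

variable {dl : ℝ} {E Q : ℝ → ℝ}

lemma P0_nonneg {p th t : ℝ} (hp : 0 ≤ p) (hpt : p ≤ t) (hth : 0 < th) (hth' : th ≤ t + p) :
    0 ≤ P0 p th t := by
  rcases le_total p (11 / 20) with h | h
  · exact P0_small hp h hpt hth
  · exact P0_big h hpt hth hth'

lemma profile_facts (h : Small dl) (hG : IsGood dl E Q) {u : ℝ} (hu : 0 < u) :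
    Q u * u ≤ 3200 * dl * (1 + u) ∧ (1 ≤ u → Q u ≤ 6400 * dl) ∧ Q u ≤ 21 / 10 ∧ 0 ≤ Q u := by
  obtain ⟨q0, q1⟩ := hG.prof.q_mem u hu.le
  have h1 : Q u * u ≤ 3200 * dl * (1 + u) :=
    (hG.qu_le u hu).trans (by
      have := mul_le_mul_of_nonneg_left (zeta_le h.1.le (h.2.trans (by norm_num)) hu)
        (show 0 ≤ 800 * dl by linarith [h.1])
      linarith)
  refine ⟨h1, fun h2 => ?_, by linarith [h.k_mem.2.1, h.2], q0⟩
  refine le_of_mul_le_mul_right (a := u) ?_ hu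
  linarith [mul_le_mul_of_nonneg_left h2 h.1.le]

/-- The last term of the pair form. -/
lemma last_le (h : Small dl) (hG : IsGood dl E Q) {t ep T d u Xa Ya : ℝ} (ht : 0 < t) (hu : 0 < u)
    (hep : dl * (2 + ep) = ep) (hT : exp (ep * t) = T) (hd : d ≤ 2 * t) (hd0 : 0 ≤ d)
    (hXa : (1 - dl) * Xa ≤ exp t * T * u)
    (hYa : (1 - dl) * Ya ≤ T * exp (-t) * (u * exp (2 * d))) :
    4 * dl * (dl * tanh t ^ 2) * sinh t * (Q u * Xa + Q (T ^ 2 * (u * exp (2 * d))) * Ya) ≤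
      T * (3300 * dl ^ 2 * (4 * u) ^ dl * (sinh (2 * t) * tanh t ^ 2)) := by
  have h1 := h.1
  have hep0 : 0 ≤ ep := by
    have : ep * (1 - dl) = 2 * dl := by linarith
    nlinarith [h.2]
  have hT0 : 0 < T := hT ▸ exp_pos _
  obtain ⟨uy, huy⟩ : ∃ uy, T ^ 2 * (u * exp (2 * d)) = uy := ⟨_, rfl⟩
  rw [huy]
  have huy0 : 0 < uy := by rw [← huy]; positivity
  have hz : 0 ≤ (4 * u) ^ dl := rpow_nonneg (by linarith) _
  have eY : T * exp (-t) * (u * exp (2 * d)) = exp (-t) / T * uy := by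
    rw [← huy]; field_simp
  have hzy : (4 * uy) ^ dl ≤ (4 * u) ^ dl * exp (2 * ep * t) := by
    have e : 4 * uy = 4 * u * exp (2 * ep * t + 2 * d) := by
      rw [← huy, ← hT, ← exp_nat_mul, exp_add]; push_cast; ring_nf
    rw [e, mul_rpow (by linarith) (exp_pos _).le, ← exp_mul]
    refine mul_le_mul_of_nonneg_left (exp_le_exp.2 ?_) hz
    have : dl * (2 * ep * t + 4 * t) = 2 * ep * t := by linear_combination (2 * t) * hep
    nlinarith [mul_le_mul_of_nonneg_left hd h1.le]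
  have qa : (1 - dl) * (Q u * Xa) ≤ exp t * T * (800 * dl * (4 * u) ^ dl) := by
    have a1 := mul_le_mul_of_nonneg_left hXa (profile_facts h hG hu).2.2.2
    have a2 := mul_le_mul_of_nonneg_left (hG.qu_le u hu) (show 0 ≤ exp t * T by positivity)
    linarith
  have qb : (1 - dl) * (Q uy * Ya) ≤ exp (-t) * T * (800 * dl * (4 * u) ^ dl) := by
    rw [eY] at hYa
    have a1 := mul_le_mul_of_nonneg_left hYa (profile_facts h hG huy0).2.2.2
    have a2 := mul_le_mul_of_nonneg_left ((hG.qu_le uy huy0).trans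
      (mul_le_mul_of_nonneg_left hzy (by positivity))) (show 0 ≤ exp (-t) / T by positivity)
    have e : exp (-t) / T * (800 * dl * ((4 * u) ^ dl * exp (2 * ep * t))) =
        exp (-t) * T * (800 * dl * (4 * u) ^ dl) := by
      rw [show exp (2 * ep * t) = T ^ 2 by rw [← hT, ← exp_nat_mul]; push_cast; ring_nf]
      field_simp
    linarith
  have hsum : Q u * Xa + Q uy * Ya ≤ 1650 * cosh t * T * dl * (4 * u) ^ dl := by
    have e : exp t + exp (-t) = 2 * cosh t := by rw [cosh_eq]; ring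
    have e2 : exp t * T * (800 * dl * (4 * u) ^ dl) + exp (-t) * T * (800 * dl * (4 * u) ^ dl) =
        1600 * cosh t * T * dl * (4 * u) ^ dl := by linear_combination (T * (800 * dl * (4 * u) ^ dl)) * e
    have hpos : 0 ≤ cosh t * T * dl * (4 * u) ^ dl := by positivity
    refine le_of_mul_le_mul_left (a := 1 - dl) ?_ (by linarith [h.2])
    have := mul_le_mul_of_nonneg_right h.2 hpos
    linarith
  have h0 : 0 ≤ 4 * dl * (dl * tanh t ^ 2) * sinh t := by
    have := sinh_nonneg_iff.2 ht.le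
    positivity
  refine (mul_le_mul_of_nonneg_left hsum h0).trans ?_
  rw [sinh_two_mul]
  have hpos : 0 ≤ dl ^ 2 * tanh t ^ 2 * sinh t * cosh t * T * (4 * u) ^ dl := by
    have := sinh_nonneg_iff.2 ht.le
    positivity
  have := mul_le_mul_of_nonneg_right (h.2.trans (by norm_num : (1:ℝ) / 100 ≤ 1)) hpos
  linarith

/-- The main case: the error terms are small. -/
lemma main_case (hdl : 0 < dl) (hdl1 : dl ≤ 1 / 10 ^ 100) {t d u z D err : ℝ} (ht : 0 < t)
    (hd : t ≤ d) (hd1 : d ≤ 2 * t) (hu : 0 < u) (hz : 0 ≤ z)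
    (hD : 4 * dl * c0 * z * angle u d ≤ D)
    (herr : err ≤ 1 / 10 ^ 4 * D0 t u (u * exp (2 * d))) :
    -2 * D * (D0 t u (u * exp (2 * d)) / 2 - err) +
      8 * dl * z * (sinh (2 * t) * (1 - psi t (d - t)) - 2 * t) +
      8400 * dl ^ 2 * z * (sinh (2 * t) * tanh t ^ 2) ≤ 0 := by
  obtain ⟨a0, a1, a2⟩ := angle_facts (t := t) hu (show 0 < d by linarith)
  have hP := P0_nonneg (p := d - t) (th := angle u d) (t := t) (by linarith) (by linarith) a0
    (by linarith)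
  have hf := fq_ge (p := d - t) (th := angle u d) (by linarith) ht a0
  rw [P0] at hP
  rw [add_sub_cancel] at hP hf
  have hD0 : 0 ≤ D0 t u (u * exp (2 * d)) := by rw [D0]; positivity
  have hc : (0:ℝ) < c0 := by norm_num [c0]
  have hD' : 0 ≤ D := le_trans (by positivity) hD
  obtain ⟨W, hW⟩ : ∃ W, D0 t u (u * exp (2 * d)) = W := ⟨_, rfl⟩
  obtain ⟨f, hfe⟩ : ∃ f, fq t d (angle u d) = f := ⟨_, rfl⟩
  obtain ⟨B, hB⟩ : ∃ B, sinh (2 * t) * tanh t ^ 2 = B := ⟨_, rfl⟩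
  rw [hW] at herr hD0 a2 ⊢
  rw [hfe] at hP hf a2
  rw [hB] at hf ⊢
  have b1 := mul_le_mul_of_nonneg_left herr (show 0 ≤ 2 * D by linarith)
  have b2 := mul_le_mul_of_nonneg_right hD (mul_nonneg (show (0:ℝ) ≤ 9998 / 10000 by norm_num) hD0)
  have b3 : 4 * dl * c0 * z * angle u d * (9998 / 10000 * W) =
      16 * (9998 / 10000) * (dl * c0 * z * f) := by
    linear_combination (-(2 * dl * c0 * z * (9998 / 10000))) * a2
  have b4 := mul_le_mul_of_nonneg_left hP (show 0 ≤ 8 * dl * z by positivity)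
  have hf0 : 0 ≤ f := by
    rw [← hfe, fq]
    have := mul_nonneg (mul_nonneg (wt_mem a0).1.le (sinh_nonneg_iff.2 (show 0 ≤ d by linarith)))
      (sub_nonneg.2 (one_le_cosh (d - angle u d)))
    have := mul_nonneg a0.le (sq_nonneg (sinh t))
    linarith
  have b5 := mul_le_mul_of_nonneg_left hf (show 0 ≤ 8400 * dl ^ 2 * z * 70 by positivity)
  have b6 := mul_le_mul_of_nonneg_left
    (hdl1.trans (show (1:ℝ) / 10 ^ 100 ≤ 1 / 10 ^ 10 by norm_num))
    (show 0 ≤ 8400 * dl * z * f * 70 by positivity)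
  have b7 : 0 ≤ dl * z * f := by positivity
  unfold c0 cc at *
  linarith

/-- The case of a very unequal pair. -/
lemma unequal_case (hdl : 0 < dl) (hdl1 : dl ≤ 1 / 10 ^ 100) {t d u z D err : ℝ} (ht : 1 ≤ t)
    (hd : t ≤ d) (hd1 : d ≤ 2 * t) (hz : 0 ≤ z) (hz1 : z ≤ 8) (hD : 1 / 10 ^ 6 ≤ D)
    (herr : sinh t ^ 2 / 4 ≤ D0 t u (u * exp (2 * d)) / 2 - err) :
    -2 * D * (D0 t u (u * exp (2 * d)) / 2 - err) +
      8 * dl * z * (sinh (2 * t) * (1 - psi t (d - t)) - 2 * t) +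
      8400 * dl ^ 2 * z * (sinh (2 * t) * tanh t ^ 2) ≤ 0 := by
  have hS : 1 ≤ sinh t := ht.trans (self_le_sinh_iff.2 (by linarith))
  have hS0 : 1 ≤ sinh t ^ 2 := one_le_pow₀ hS
  have hC : cosh t ≤ 2 * sinh t := by
    nlinarith [cosh_sq t, cosh_pos t]
  have hS2 : sinh (2 * t) ≤ 4 * sinh t ^ 2 := by
    rw [sinh_two_mul]
    linarith [mul_le_mul_of_nonneg_left hC (show 0 ≤ 2 * sinh t by linarith)]
  have hS2' : 0 ≤ sinh (2 * t) := sinh_nonneg_iff.2 (by linarith)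
  obtain ⟨q0, -⟩ := psi_facts (p := d - t) (t := t) (by linarith) (by linarith)
  have h1 : sinh (2 * t) * (1 - psi t (d - t)) - 2 * t ≤ 4 * sinh t ^ 2 := by
    linarith [mul_nonneg hS2' q0]
  have h2 : sinh (2 * t) * tanh t ^ 2 ≤ 4 * sinh t ^ 2 :=
    (mul_le_of_le_one_right hS2' (tanh_sq_lt_one t).le).trans hS2
  have b1 := mul_le_mul_of_nonneg_left h1 (show 0 ≤ 8 * dl * z by positivity)
  have b2 := mul_le_mul_of_nonneg_left h2 (show 0 ≤ 8400 * dl ^ 2 * z by positivity)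
  have b3 := mul_le_mul hD herr (by positivity) (le_trans (by norm_num) hD)
  have hd12 : dl ≤ 1 / 10 ^ 16 := hdl1.trans (by norm_num)
  have b4 : 8 * dl * z + 8400 * dl ^ 2 * z ≤ 1 / 10 ^ 9 := by
    have := mul_le_mul hd12 hz1 hz (by norm_num)
    have := mul_le_mul_of_nonneg_left this (show 0 ≤ dl by linarith)
    linarith
  have b5 := mul_le_mul_of_nonneg_right b4 (show 0 ≤ 4 * sinh t ^ 2 by positivity)
  linarith

lemma slack_le (h : 0 < dl) : slack dl ≤ 2 * 10 ^ 10 * dl := by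
  unfold slack Flow.kap Flow.eps; linarith

/-- The error terms, in both regimes. -/
lemma pair_error (hdl : 0 < dl) (hdl1 : dl ≤ 1 / 10 ^ 100) (hG : IsGood dl E Q) {t d u : ℝ}
    (ht : 0 < t) (hd : t ≤ d) (hd1 : d ≤ 2 * t) (hu : 0 < u) :
    let ep := bExp dl - 1
    let v := u * exp (2 * d)
    let uy := exp (2 * ep * t) * v
    ∃ s, E uy - E u ≤ (Q u - Q uy) * s ∧
      (errT t u v (dl * tanh t ^ 2) (ep * (exp (-t) * sinh t))
          (exp (-t) * sinh t * (Q u - Q uy)) (17 * dl + 3 / 2 * Q uy + Q u / 2)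
          (exp (2 * ep * t)) s ≤ 1 / 10 ^ 4 * D0 t u v ∨
        (1 / 10 ^ 6 ≤ Q u - Q uy ∧ u < 1 ∧ 1 ≤ t ∧ sinh t ^ 2 / 4 ≤ D0 t u v / 2 -
          errT t u v (dl * tanh t ^ 2) (ep * (exp (-t) * sinh t))
            (exp (-t) * sinh t * (Q u - Q uy)) (17 * dl + 3 / 2 * Q uy + Q u / 2)
            (exp (2 * ep * t)) s)) := by
  intro ep v uy
  have hT : Tiny dl := ⟨hdl, hdl1.trans (by norm_num)⟩
  have hs := hT.small
  have hep : 0 ≤ ep ∧ ep ≤ 3 * dl := ⟨by simp only [ep]; linarith [hs.one_lt_b], hs.k_mem.2.2⟩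
  have hL : uy / u = exp (2 * ep * t + 2 * d) := by
    simp only [uy, v]; rw [exp_add]; field_simp
  have hL0 : 0 ≤ 2 * ep * t + 2 * d := by nlinarith [hep.1]
  have huy : u ≤ uy := by
    have := one_le_exp hL0
    rw [← hL, le_div_iff₀ hu, one_mul] at this
    exact this
  have huy0 : 0 < uy := hu.trans_le huy
  have hrp : (uy / u) ^ slack dl = exp (slack dl * (2 * ep * t + 2 * d)) := by
    rw [hL, ← exp_mul, mul_comm]
  obtain ⟨q1, -, q3, -⟩ := profile_facts hs hG hu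
  obtain ⟨-, q2, -, q4⟩ := profile_facts hs hG huy0
  have hqq : Q uy ≤ Q u := hG.prof.anti (mem_Ici.2 hu.le) (mem_Ici.2 huy0.le) huy
  have he : dl * tanh t ^ 2 ≤ dl := mul_le_of_le_one_right hdl.le (tanh_sq_lt_one t).le
  have hSp := sinh_pos_iff.2 ht
  have heS0 : 0 ≤ exp (-t) * sinh t := by positivity
  have heS : exp (-t) * sinh t ≤ 1 / 2 ∧ exp (-t) * sinh t ≤ t := by
    have e : exp (-t) * sinh t = (1 - exp (-(2 * t))) / 2 := by
      rw [sinh_eq, mul_div_assoc', mul_sub, ← exp_add, ← exp_add]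
      simp only [neg_add_cancel, exp_zero]; ring_nf
    rw [e]
    constructor
    · linarith [exp_pos (-(2 * t))]
    · linarith [add_one_le_exp (-(2 * t))]
  obtain ⟨sl0, sl1⟩ := hT.slack_mem
  rcases le_or_gt t 14 with hc | hc
  · refine ⟨_, hG.sec_add u uy hu huy, Or.inl ?_⟩
    rw [hrp]
    refine err_small hdl hdl1 ht hc hd hd1 hu hep.1 hep.2 he (mul_nonneg hep.1 heS0)
      (mul_le_mul_of_nonneg_left heS.2 hep.1) (mul_nonneg heS0 (sub_nonneg.2 hqq)) ?_ hqq q4 q1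
      sl0 (slack_le hdl)
    have h1 : Q u - Q uy ≤ 1000 * dl * t := by
      refine (hG.dq_le u uy hu huy).trans ?_
      rw [hL, log_exp]
      have : ep * t ≤ 1 / 2 * t := mul_le_mul_of_nonneg_right (by linarith [hs.2]) ht.le
      have : 2 * ep * t + 2 * d ≤ 5 * t := by linarith
      linarith [mul_le_mul_of_nonneg_left this (show 0 ≤ 200 * dl by linarith)]
    calc _ ≤ t * (1000 * dl * t) := mul_le_mul heS.2 h1 (sub_nonneg.2 hqq) ht.le
      _ = _ := by ring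
  · refine ⟨_, hG.sec_mul u uy hu huy, ?_⟩
    rw [hrp]
    rcases err_large hdl hdl1 hc.le hd hd1 hu hep.1 hep.2 he (mul_nonneg hep.1 heS0)
      ((mul_le_mul hep.2 (show exp (-t) * sinh t ≤ 1 by linarith [heS.1]) heS0 (by linarith)).trans_eq
        (mul_one _))
      (mul_nonneg heS0 (sub_nonneg.2 hqq))
      ((mul_le_mul heS.1 (show Q u - Q uy ≤ 21 / 10 by linarith) (sub_nonneg.2 hqq)
        (by norm_num)).trans (by norm_num))
      q3 hqq q4 q1 sl0 sl1 q2 with h | ⟨h1, h2, h3⟩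
    · exact Or.inl h
    · exact Or.inr ⟨h1, h2, by linarith, h3⟩

/-- One pair in normalised variables. -/
lemma pair_core (hdl : 0 < dl) (hdl1 : dl ≤ 1 / 10 ^ 100) (hG : IsGood dl E Q)
    {t d u ep T Xa Ya J : ℝ} (ht : 0 < t) (hd : t ≤ d) (hd1 : d ≤ 2 * t) (hu : 0 < u)
    (hep : bExp dl - 1 = ep) (hT : exp (ep * t) = T)
    (hXa : (1 - dl) * Xa ≤ exp t * T * u)
    (hYa : (1 - dl) * Ya ≤ T * exp (-t) * (u * exp (2 * d)))
    (hde : (Xa - exp t * T * u) - (Ya - T * exp (-t) * (u * exp (2 * d))) ≤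
      15 * dl * (T * (exp (-t) * (u * exp (2 * d)) - exp t * u)))
    (hJ : J ≤ T * (4 * u) ^ dl * (4 * sinh (2 * t)) *
      (2 * dl * (tanh t ^ 2 - psi t (d - t)) + 21 * dl ^ 2 * tanh t ^ 2)) :
    J + restN dl t (dl * tanh t ^ 2) (exp t * T) (exp (-t) / T) (E u)
        (E (T ^ 2 * (u * exp (2 * d)))) (Q u) (Q (T ^ 2 * (u * exp (2 * d))))
        (exp t * T * u) (T * exp (-t) * (u * exp (2 * d))) Xa Ya ≤ 0 := by
  have hTiny : Tiny dl := ⟨hdl, hdl1.trans (by norm_num)⟩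
  have h := hTiny.small
  obtain ⟨hep0, -, hepq, -⟩ := coef_facts h ht
  rw [hep] at hep0 hepq
  have hr : exp (2 * ep * t) = T ^ 2 := by
    rw [← hT, ← exp_nat_mul]; push_cast; ring_nf
  obtain ⟨s, hs, hcase⟩ := pair_error hdl hdl1 hG ht hd hd1 hu
  rw [hep, hr] at hs hcase
  have hz : 0 ≤ (4 * u) ^ dl := rpow_nonneg (by linarith) _
  have hv : u ≤ u * exp (2 * d) := le_mul_of_one_le_right hu.le (one_le_exp (by linarith))
  have hT0 : 0 < T := hT ▸ exp_pos _
  have hT1 : 1 ≤ T := hT ▸ one_le_exp (mul_nonneg hep0.le ht.le)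
  have huy' : u * exp (2 * d) ≤ T ^ 2 * (u * exp (2 * d)) :=
    le_mul_of_one_le_left (hu.le.trans hv) (one_le_pow₀ hT1)
  obtain ⟨uy, huy⟩ : ∃ uy, T ^ 2 * (u * exp (2 * d)) = uy := ⟨_, rfl⟩
  have hu_uy : u ≤ uy := huy ▸ hv.trans huy'
  have hP : 0 ≤ exp (-t) * (u * exp (2 * d)) - exp t * u := by
    rw [mul_left_comm, mul_comm (exp t), ← exp_add, ← mul_sub]
    exact mul_nonneg hu.le (sub_nonneg.2 (exp_le_exp.2 (by linarith)))
  have hqq : Q uy ≤ Q u :=
    hG.prof.anti (mem_Ici.2 hu.le) (mem_Ici.2 (hu.le.trans hu_uy)) hu_uy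
  have hlast := last_le h hG ht hu hepq hT hd1 (by linarith) hXa hYa
  rw [huy] at hlast hs hcase ⊢
  have hE1 := hG.prof.one_le u hu.le
  have hrest := rest_le h ht hep hT hqq (profile_facts h hG (hu.trans_le hu_uy)).2.2.2 hE1
    (hG.E_mono u uy hu hu_uy) hs hu.le (hu.le.trans hv) hP hde
  have hlead := lead_le h ht hz (hG.E_ge u hu) (by linarith)
    (hdl1.trans (by norm_num))
  rw [hep, hT] at hlead
  have hD : 4 * dl * c0 * (4 * u) ^ dl * angle u d ≤ Q u - Q uy := by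
    refine le_trans ?_ (hG.dq_ge u uy hu hu_uy)
    have hv0 : 0 < u * exp (2 * d) := by positivity
    have e : 2 * angle u d = log (exp (2 * d) * (1 + 2 * u) / (1 + 2 * (u * exp (2 * d)))) := by
      rw [angle]; ring
    have key : 2 * angle u d ≤ log (uy * (1 + 2 * u) / (u * (1 + 2 * uy))) := by
      rw [e]
      refine log_le_log (by positivity) ?_
      have : 0 < uy := hu.trans_le hu_uy
      rw [div_le_div_iff₀ (by positivity) (by positivity)]
      rw [huy] at huy'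
      have := mul_le_mul_of_nonneg_right huy' (show 0 ≤ 1 + 2 * u by linarith)
      linarith
    have := mul_le_mul_of_nonneg_left key (show 0 ≤ 2 * dl * c0 * (4 * u) ^ dl by
      have : (0:ℝ) ≤ c0 := by norm_num [c0]
      positivity)
    linarith
  have hS2 : sinh (2 * t) * tanh t ^ 2 + 2 * tanh t = sinh (2 * t) := by
    linarith [(tanh_mul_facts t).1]
  have hfin : -2 * (Q u - Q uy) * (D0 t u (u * exp (2 * d)) / 2 -
      errT t u (u * exp (2 * d)) (dl * tanh t ^ 2) (ep * (exp (-t) * sinh t))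
        (exp (-t) * sinh t * (Q u - Q uy)) (17 * dl + 3 / 2 * Q uy + Q u / 2) (T ^ 2) s) +
      8 * dl * (4 * u) ^ dl * (sinh (2 * t) * (1 - psi t (d - t)) - 2 * t) +
      8400 * dl ^ 2 * (4 * u) ^ dl * (sinh (2 * t) * tanh t ^ 2) ≤ 0 := by
    rcases hcase with hc | ⟨c1, c2, c3, c4⟩
    · exact main_case hdl hdl1 ht hd hd1 hu hz hD hc
    · exact unequal_case hdl hdl1 c3 hd hd1 hz
        ((zeta_le hdl.le (h.2.trans (by norm_num)) hu).trans (by linarith)) c1 c4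
  have hfinT := mul_nonpos_of_nonneg_of_nonpos hT0.le hfin
  have hB : 0 ≤ T * (dl ^ 2 * (4 * u) ^ dl * (sinh (2 * t) * tanh t ^ 2)) := by
    have := sinh_nonneg_iff.2 (show 0 ≤ 2 * t by linarith)
    positivity
  have key : 16 * dl * (4 * u) ^ dl * (tanh t - t) +
      8 * dl * (4 * u) ^ dl * (sinh (2 * t) * (tanh t ^ 2 - psi t (d - t))) =
      8 * dl * (4 * u) ^ dl * (sinh (2 * t) * (1 - psi t (d - t)) - 2 * t) := by
    linear_combination (8 * dl * (4 * u) ^ dl) * hS2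
  have key2 := congrArg (fun x => T * x) key
  linarith

/-- The inequality for an ordered pair. -/
theorem pair_neg (hdl : 0 < dl) (hdl1 : dl ≤ 1 / 10 ^ 100) (hG : IsGood dl E Q)
    {x y Ax Ay ax ay : ℝ} (hy : 0 < y) (hxy : y < x) (hAx : 0 < Ax) (hA : Ax ≤ Ay)
    (hgA : y * Ay ≤ x * Ax) (hax : (1 - dl) * ax ≤ Ax) (hay : (1 - dl) * ay ≤ Ay)
    (hde : (ax - Ax) - (ay - Ay) ≤ 15 * dl * (Ay - Ax)) :
    pairForm dl x y Ax Ay ax ay (E (Ax / x ^ bExp dl)) (E (Ay / y ^ bExp dl))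
      (Q (Ax / x ^ bExp dl)) (Q (Ay / y ^ bExp dl)) ≤ 0 := by
  have h : Small dl := ⟨hdl, hdl1.trans (by norm_num)⟩
  have hx : 0 < x := hy.trans hxy
  have hAy : 0 < Ay := hAx.trans_le hA
  obtain ⟨lx, rfl⟩ : ∃ lx, exp lx = x := ⟨log x, exp_log hx⟩
  obtain ⟨ly, rfl⟩ : ∃ ly, exp ly = y := ⟨log y, exp_log hy⟩
  obtain ⟨la, rfl⟩ : ∃ la, exp la = Ax := ⟨log Ax, exp_log hAx⟩
  obtain ⟨lb, rfl⟩ : ∃ lb, exp lb = Ay := ⟨log Ay, exp_log hAy⟩
  rw [exp_le_exp] at hA
  rw [← exp_add, ← exp_add, exp_le_exp] at hgA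
  have hlt : ly < lx := exp_lt_exp.1 hxy
  obtain ⟨b, hb⟩ : ∃ b, bExp dl = b := ⟨_, rfl⟩
  obtain ⟨t, htd⟩ : ∃ t, (lx - ly) / 2 = t := ⟨_, rfl⟩
  obtain ⟨lm, hlm⟩ : ∃ lm, (lx + ly) / 2 = lm := ⟨_, rfl⟩
  obtain ⟨d, hdd⟩ : ∃ d, (lb - la) / 2 + t = d := ⟨_, rfl⟩
  obtain ⟨lu, hlu⟩ : ∃ lu, la - b * lx = lu := ⟨_, rfl⟩
  have ht : 0 < t := by linarith
  have ex : exp lx = exp lm * exp t := by rw [← exp_add]; congr 1; linarith
  have ey : exp ly = exp lm * exp (-t) := by rw [← exp_add]; congr 1; linarith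
  have rx : exp lx ^ b = exp (b * lm) * (exp t * exp ((b - 1) * t)) := by
    rw [← exp_mul, ← exp_add, ← exp_add]; congr 1
    rw [← hlm, ← htd]; ring
  have ry : exp ly ^ b = exp (b * lm) * (exp (-t) / exp ((b - 1) * t)) := by
    rw [← exp_mul, ← exp_sub, ← exp_add]; congr 1
    rw [← hlm, ← htd]; ring
  have eu : exp la / exp lx ^ b = exp lu := by
    rw [← exp_mul, ← exp_sub, ← hlu]; ring_nf
  have euy : exp lb / exp ly ^ b = exp ((b - 1) * t) ^ 2 * (exp lu * exp (2 * d)) := by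
    rw [← exp_mul, ← exp_sub, ← exp_nat_mul, ← exp_add, ← exp_add]; congr 1
    rw [← hlu, ← hdd, ← htd]; push_cast; ring
  have eX : exp la = exp (b * lm) * (exp t * exp ((b - 1) * t) * exp lu) := by
    rw [← exp_add, ← exp_add, ← exp_add]; congr 1
    rw [← hlu, ← hlm, ← htd]; ring
  have eY : exp lb = exp (b * lm) * (exp ((b - 1) * t) * exp (-t) * (exp lu * exp (2 * d))) := by
    rw [← exp_add, ← exp_add, ← exp_add, ← exp_add]; congr 1
    rw [← hlu, ← hlm, ← hdd, ← htd]; ring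
  have hM : 0 < exp (b * lm) := exp_pos _
  obtain ⟨Xa, hXa⟩ : ∃ Xa, exp (b * lm) * Xa = ax := ⟨ax / exp (b * lm), by field_simp⟩
  obtain ⟨Ya, hYa⟩ : ∃ Ya, exp (b * lm) * Ya = ay := ⟨ay / exp (b * lm), by field_simp⟩
  rw [hb, eu, euy]
  have hjl := jens_le (dl := dl) h (m := exp lm) (t := t) (p := d - t) (exp_pos lm) (exp_pos la)
    (exp_pos lb) (by linarith) (by linarith) (by
      rw [← exp_add, ← exp_add, ← exp_add, ← exp_add, ← exp_add]; congr 1
      linarith)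
  have hfac : (4 * (exp lm * exp t) * exp la) ^ dl * (8 * exp lm * cosh t * sinh t) =
      exp (b * lm) * (exp ((b - 1) * t) * (4 * exp lu) ^ dl * (4 * sinh (2 * t))) := by
    have hk : dl * (1 + b) = b - 1 := by
      have : (1 - dl) ≠ 0 := by linarith [h.2]
      rw [← hb, bExp]; field_simp; ring
    have e1 : 4 * (exp lm * exp t) * exp la = 4 * exp lu * exp ((1 + b) * lx) := by
      rw [mul_assoc 4 (exp lu), ← exp_add, mul_assoc, ← exp_add, ← exp_add]; congr 2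
      rw [← hlu, ← hlm, ← htd]; ring
    rw [e1, mul_rpow (by positivity) (exp_pos _).le, ← exp_mul, sinh_two_mul]
    have e2 : exp ((1 + b) * lx * dl) * exp lm = exp (b * lm) * exp ((b - 1) * t) := by
      rw [← exp_add, ← exp_add]; congr 1
      rw [← hlm, ← htd]
      linear_combination lx * hk
    linear_combination (8 * (4 * exp lu) ^ dl * cosh t * sinh t) * e2
  have hdiv : ∀ {A B : ℝ}, exp (b * lm) * A ≤ exp (b * lm) * B → A ≤ B :=
    fun hAB => le_of_mul_le_mul_left hAB hM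
  have hcore := pair_core (J := jens dl (exp lm * exp t) (exp lm * exp (-t)) (exp la) (exp lb) *
      (8 * exp lm * cosh t * sinh t) / exp (b * lm)) (t := t) (d := d) (u := exp lu)
    (Xa := Xa) (Ya := Ya) hdl hdl1 hG ht (by linarith) (by linarith) (exp_pos lu)
    (by rw [hb]) rfl
    (hdiv (by rw [← eX, mul_left_comm, hXa]; exact hax))
    (hdiv (by rw [← eY, mul_left_comm, hYa]; exact hay))
    (hdiv (by
      rw [mul_sub, mul_sub, mul_sub, hXa, hYa, ← eX, ← eY]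
      refine hde.trans_eq ?_
      rw [eX, eY]; ring))
    (by
      rw [div_le_iff₀ hM]
      refine (mul_le_mul_of_nonneg_right hjl (by
        have := sinh_pos_iff.2 ht
        positivity)).trans_eq ?_
      rw [mul_right_comm, hfac]; ring)
  have hn := rest_norm (dl := dl) (m := exp lm) (t := t) (M := exp (b * lm))
    (Ex := E (exp lu)) (Ey := E (exp ((b - 1) * t) ^ 2 * (exp lu * exp (2 * d))))
    (qx := Q (exp lu)) (qy := Q (exp ((b - 1) * t) ^ 2 * (exp lu * exp (2 * d))))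
    (X := exp t * exp ((b - 1) * t) * exp lu)
    (Y := exp ((b - 1) * t) * exp (-t) * (exp lu * exp (2 * d))) (Xa := Xa) (Ya := Ya)
    (exp_pos lm) ht (by rw [← ex, hb]; exact rx) (by rw [← ey, hb]; exact ry)
  rw [← eX, ← eY, hXa, hYa, ← ex, ← ey] at hn
  rw [← ex, ← ey] at hcore
  have hpos : 0 < 8 * exp lm * cosh t * sinh t := by
    have := sinh_pos_iff.2 ht
    positivity
  have htot := mul_nonpos_of_nonneg_of_nonpos hM.le hcore
  rw [mul_add, mul_div_cancel₀ _ hM.ne', ← hn] at htot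
  exact nonpos_of_mul_nonpos_left htot hpos

lemma pair_diag (dl x A a e q : ℝ) (hx : 0 < x) (hA : 0 < A) :
    pairForm dl x x A A a a e e q q = 0 := by
  rw [pairForm, jens, dslope_same, (hasDerivAt_rpow_const (p := bExp dl) (Or.inl hx.ne')).deriv]
  have hH : Hk dl x x = 1 / (4 * x) := by rw [Hk, Gk]; field_simp; ring
  have hG : Gk x x = 1 / (4 * x) := by rw [Gk]; field_simp; ring
  have hb : x ^ (bExp dl - 1) = x ^ bExp dl / x := rpow_sub_one hx.ne' _
  rw [hH, hG, hb, show 1 / (4 * x) * (1 / A + 1 / A) / 2 = (4 * x * A)⁻¹ by field_simp; ring,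
    inv_rpow (by positivity), rpow_neg (by positivity), inv_inv]
  field_simp
  ring

/-- The pointwise inequality. -/
theorem subsolution (hdl : 0 < dl) (hdl1 : dl ≤ 1 / 10 ^ 100) (hG : IsGood dl E Q) :
    Subsolution dl E Q := by
  have h : Small dl := ⟨hdl, hdl1.trans (by norm_num)⟩
  intro N P
  rcases (Finset.sum_nonneg fun i _ => P.hp i : 0 ≤ P.rho).eq_or_lt with hr | hr
  · have hp : ∀ i, P.p i = 0 := fun i =>
      (Finset.sum_eq_zero_iff_of_nonneg fun i _ => P.hp i).1 hr.symm i (Finset.mem_univ i)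
    have : (1 + aExp dl) ≠ 0 := by unfold aExp; linarith
    have h0 : P.rho = 0 := hr.symm
    simp [Point.S, h0, hp, zero_rpow this]
  refine (P.S_le_pairs h hr hG).trans (Finset.sum_nonpos fun i _ => Finset.sum_nonpos fun j _ =>
    mul_nonpos_of_nonneg_of_nonpos (mul_nonneg (P.hp i) (P.hp j)) ?_)
  have ord : ∀ i j, P.g j < P.g i → pairForm dl (P.g i) (P.g j) (P.Av dl i) (P.Av dl j)
      (P.av i) (P.av j) (P.Ev dl E i) (P.Ev dl E j) (P.qv dl Q i) (P.qv dl Q j) ≤ 0 := fun i j hij =>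
    pair_neg hdl hdl1 hG (P.hg j) hij (P.Av_pos h hr i) (P.Av_anti h hij.le) (P.gAv_mono h hij.le)
      (P.ev_le h i).2.2 (P.ev_le h j).2.2 ((le_abs_self _).trans (P.abs_ev_sub_le h hij.le))
  rcases lt_trichotomy (P.g i) (P.g j) with hij | hij | hij
  · refine le_of_eq_of_le ?_ (ord j i hij)
    unfold pairForm jens
    rw [Hk_comm dl (P.g j), Gk_comm (P.g j), dslope_swap _ (P.g i)]
    rw [← neg_sub (P.g j) (P.g i)]
    simp only [div_neg]
    ring_nf
  · have e1 : P.Av dl i = P.Av dl j := by simp only [Point.Av, hij]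
    have e2 : P.av i = P.av j := by simp only [Point.av, hij]
    have e3 : P.uv dl i = P.uv dl j := by simp only [Point.uv, Point.eps, hij, e1]
    rw [hij, e1, e2]
    simp only [Point.Ev, Point.qv, e3]
    exact (pair_diag dl _ _ _ _ _ (P.hg j) (P.Av_pos h hr j)).le
  · exact ord i j hij

end Vale.Agent.P371.Leg
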