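import Vale.Agent.P371.Leg.Small

/-!
# P371: the geometry of one pair and the error terms
-/

namespace Vale.Agent.P371.Leg

open Real Set

/-- Twice the main coefficient. -/
noncomputable def D0 (t u v : ℝ) : ℝ := 4 * sinh t ^ 2 + (√(1 + 2 * v) - √(1 + 2 * u)) ^ 2

/-- The error terms. -/
noncomputable def errT (t u v e z w Qp r s : ℝ) : ℝ :=
  2 * sinh t ^ 2 * e + sinh t * Qp * (exp (-t) * v - exp t * u) + (2 * (1 + z) + w) * (s / r) -
    (√((1 + 2 * u) * (1 + 2 * v)) - 1)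

/-- The angle of one pair. -/
noncomputable def angle (u d : ℝ) : ℝ :=
  log (exp (2 * d) * (1 + 2 * u) / (1 + 2 * (u * exp (2 * d)))) / 2

lemma angle_facts {t u d : ℝ} (hu : 0 < u) (hd : 0 < d) :
    0 < angle u d ∧ angle u d ≤ d ∧
      8 * fq t d (angle u d) = 2 * angle u d * D0 t u (u * exp (2 * d)) := by
  set v := u * exp (2 * d) with hv
  have hE : 1 < exp (2 * d) := one_lt_exp_iff.2 (by linarith)
  have hv0 : 0 < v := by positivity
  have huv : u < v := lt_mul_of_one_lt_right hu hE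
  set a := √(1 + 2 * u) with ha
  set b := √(1 + 2 * v) with hb
  have ha0 : 0 < a := by positivity
  have hb0 : 0 < b := by positivity
  have ha2 : a ^ 2 = 1 + 2 * u := sq_sqrt (by positivity)
  have hb2 : b ^ 2 = 1 + 2 * v := sq_sqrt (by positivity)
  set th := angle u d with hth
  have e1 : exp th = exp d * a / b := by
    have h2 : exp th ^ 2 = (exp d * a / b) ^ 2 := by
      rw [div_pow, mul_pow, ha2, hb2, ← exp_nat_mul, ← exp_nat_mul, hth, angle]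
      push_cast
      rw [mul_div_cancel₀ _ (two_ne_zero' ℝ), exp_log (by positivity), hv]
    exact (pow_left_inj₀ (exp_pos _).le (by positivity) two_ne_zero).1 h2
  have hpos : 0 < th := by
    refine one_lt_exp_iff.1 ?_
    rw [e1, one_lt_div hb0]
    refine lt_of_pow_lt_pow_left₀ 2 (by positivity) ?_
    rw [mul_pow, ha2, hb2, ← exp_nat_mul, hv]
    push_cast
    nlinarith
  have hle : th ≤ d := by
    refine exp_le_exp.1 ?_
    rw [e1, div_le_iff₀ hb0]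
    refine mul_le_mul_of_nonneg_left (sqrt_le_sqrt (by linarith)) (exp_pos _).le
  refine ⟨hpos, hle, ?_⟩
  have hs := sinh_pos_iff.2 hpos
  have key : (b - a) ^ 2 * sinh th = 2 * (sinh d * (cosh (d - th) - 1)) := by
    have ex : exp (d - th) = b / a := by
      rw [exp_sub, e1]; field_simp
    have hd2 : exp (2 * d) = exp d ^ 2 := by rw [← exp_nat_mul]; norm_num
    have e2 : b ^ 2 - 1 = exp d ^ 2 * (a ^ 2 - 1) := by
      rw [ha2, hb2, hv, hd2]; ring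
    have e3 : exp d * a / b - (exp d * a / b)⁻¹ = (exp d - (exp d)⁻¹) / (a * b) := by
      field_simp
      linear_combination -e2
    rw [cosh_eq (d - th), sinh_eq th, sinh_eq d, exp_neg, exp_neg, exp_neg, ex, e1, e3]
    field_simp
    ring
  rw [fq, D0, ← ha, ← hb, wt]
  field_simp
  linear_combination -4 * key

lemma sqrt_lin {u v r : ℝ} (hu : 0 ≤ u) (hv : 0 ≤ v) (hr : 0 ≤ r) :
    √((1 + 2 * u) * (1 + 2 * (r * v))) ≤ √((1 + 2 * u) * (1 + 2 * v)) +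
      (r - 1) * ((1 + 2 * u) * v / √((1 + 2 * u) * (1 + 2 * v))) := by
  set P := √((1 + 2 * u) * (1 + 2 * v))
  have hP : 0 < P := by positivity
  have hP2 : P ^ 2 = (1 + 2 * u) * (1 + 2 * v) := sq_sqrt (by positivity)
  have e : P + (r - 1) * ((1 + 2 * u) * v / P) =
      (1 + 2 * u) * (1 + 2 * v + (r - 1) * v) / P := by
    field_simp; linear_combination hP2
  rw [e, sqrt_le_left (div_nonneg (mul_nonneg (by linarith) (by nlinarith [mul_nonneg hr hv])) hP.le), div_pow, le_div_iff₀ (pow_pos hP 2), hP2]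
  nlinarith [mul_nonneg (mul_nonneg (sq_nonneg (1 + 2 * u)) (sq_nonneg ((r - 1) * v)))
    (zero_le_one' ℝ)]

/-- The reference slope at `r v` against `r` times the one at `v`. -/
lemma s0_shift {u v r z : ℝ} (hu : 0 ≤ u) (huv : u ≤ v) (hz : 0 ≤ z) (hr : 1 + 2 * z ≤ r) :
    (1 + z) * ((√((1 + 2 * u) * (1 + 2 * (r * v))) - 1) / r) -
        (√((1 + 2 * u) * (1 + 2 * v)) - 1) ≤
      z * (√(1 + 2 * v) - √(1 + 2 * u)) + 2 * z ^ 2 * √((1 + 2 * u) * (1 + 2 * v)) := by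
  have hv : 0 ≤ v := hu.trans huv
  set a := √(1 + 2 * u)
  set b := √(1 + 2 * v)
  have eP : √((1 + 2 * u) * (1 + 2 * v)) = a * b := sqrt_mul (by positivity) _
  have ha : 1 ≤ a := one_le_sqrt.2 (by linarith)
  have hab : a ≤ b := sqrt_le_sqrt (by linarith)
  have hb : 1 ≤ b := ha.trans hab
  have hb2 : b ^ 2 = 1 + 2 * v := sq_sqrt (by positivity)
  have ha2 : a ^ 2 = 1 + 2 * u := sq_sqrt (by positivity)
  have hr0 : 0 < r := by linarith
  have hl := sqrt_lin hu hv hr0.le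
  rw [eP] at hl ⊢
  obtain ⟨Q, hQ⟩ : ∃ Q, (1 + 2 * u) * v / (a * b) = Q := ⟨_, rfl⟩
  rw [hQ] at hl
  have hab0 : 0 < a * b := by positivity
  have hQ2 : 2 * Q - (a * b - 1) = (b - a) / b := by
    rw [← hQ, ← ha2, show v = (b ^ 2 - 1) / 2 by linarith]
    field_simp
    ring
  have hQ0 : 0 ≤ Q := by rw [← hQ]; positivity
  have hQb : (b - a) / b ≤ b - a := div_le_self (by linarith) hb
  have hQ1 : Q ≤ a * b - 1 := by
    rw [← hQ, div_le_iff₀ hab0, ← ha2]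
    have hb3 : b ≤ 1 + v := by nlinarith
    have hb4 : b ≤ a * (1 + v) := hb3.trans (le_mul_of_one_le_left (by linarith) ha)
    nlinarith [mul_le_mul_of_nonneg_left hb4 (show 0 ≤ a by linarith)]
  have h1 : (√((1 + 2 * u) * (1 + 2 * (r * v))) - 1) / r ≤
      Q + (a * b - 1 - Q) / (1 + 2 * z) := by
    calc _ ≤ (a * b - 1 + (r - 1) * Q) / r := div_le_div_of_nonneg_right (by linarith) hr0.le
      _ = Q + (a * b - 1 - Q) / r := by field_simp; ring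
      _ ≤ _ := by
        gcongr
  have h2 : (1 + z) * (Q + (a * b - 1 - Q) / (1 + 2 * z)) - (a * b - 1) =
      z * ((b - a) / b + 2 * z * Q) / (1 + 2 * z) := by
    rw [← hQ2]; field_simp; ring
  have h3 := mul_le_mul_of_nonneg_left h1 (show 0 ≤ 1 + z by linarith)
  have h4 : z * ((b - a) / b + 2 * z * Q) / (1 + 2 * z) ≤ z * ((b - a) / b + 2 * z * Q) :=
    div_le_self (mul_nonneg hz (add_nonneg (div_nonneg (by linarith) (by linarith))
      (by positivity))) (by linarith)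
  have h5 := mul_le_mul_of_nonneg_left hQb hz
  have h6 := mul_le_mul_of_nonneg_left (show Q ≤ a * b by linarith) (sq_nonneg z)
  linarith

lemma exp14 : exp (14:ℝ) ≤ 10 ^ 7 ∧ 4 * 10 ^ 5 ≤ exp (13:ℝ) := by
  constructor
  · calc exp (14:ℝ) = exp 1 ^ 14 := by rw [← exp_nat_mul]; norm_num
      _ ≤ 3 ^ 14 := pow_le_pow_left₀ (exp_pos _).le exp_one_lt_three.le _
      _ ≤ _ := by norm_num
  · calc (4:ℝ) * 10 ^ 5 ≤ (27 / 10) ^ 13 := by norm_num
      _ ≤ exp 1 ^ 13 := pow_le_pow_left₀ (by norm_num) (by linarith [exp_one_gt_d9]) _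
      _ = _ := by rw [← exp_nat_mul]; norm_num

/-- `t² (1 + u)` is controlled by the main coefficient, for bounded `t`. -/
lemma D0_ge {t d u M : ℝ} (ht : 0 < t) (hu : 0 < u) (hd : t ≤ d) (hM : exp d ≤ M) :
    t ^ 2 * (1 + u) ≤ 2 * M ^ 2 * D0 t u (u * exp (2 * d)) := by
  have hM1 : 1 ≤ M := le_trans (one_le_exp (by linarith)) hM
  have hM2 : 1 ≤ M ^ 2 := one_le_pow₀ hM1
  have hS : t ≤ sinh t := self_le_sinh_iff.2 ht.le
  have hS2 := pow_le_pow_left₀ ht.le hS 2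
  set v := u * exp (2 * d) with hv
  set a := √(1 + 2 * u) with ha
  set b := √(1 + 2 * v) with hb
  rw [D0, ← ha, ← hb]
  have hD : 0 ≤ (b - a) ^ 2 := sq_nonneg _
  rcases le_or_gt u 1 with hc | hc
  · have h1 := mul_le_mul_of_nonneg_left (show 1 + u ≤ 2 by linarith) (sq_nonneg t)
    have h2 := le_mul_of_one_le_left (show 0 ≤ 4 * sinh t ^ 2 + (b - a) ^ 2 by positivity) hM2
    nlinarith
  · have ha2 : a ^ 2 = 1 + 2 * u := sq_sqrt (by positivity)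
    have hb2 : b ^ 2 = 1 + 2 * v := sq_sqrt (by positivity)
    have ha0 : 0 < a := by positivity
    have hgap : 4 * t * u ≤ b ^ 2 - a ^ 2 := by
      rw [ha2, hb2, hv]
      nlinarith [add_one_le_exp (2 * d)]
    have hbM : b ≤ M * a := by
      refine le_of_pow_le_pow_left₀ two_ne_zero (by positivity) ?_
      rw [mul_pow, ha2, hb2, hv, show exp (2 * d) = exp d ^ 2 by rw [← exp_nat_mul]; norm_num]
      nlinarith [pow_le_pow_left₀ (exp_pos d).le hM 2]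
    have hba : 0 ≤ b - a := by
      have : a ≤ b := sqrt_le_sqrt (by nlinarith [one_le_exp (show 0 ≤ 2 * d by linarith)])
      linarith
    have h3 : 4 * t * u ≤ (b - a) * (2 * M * a) := by
      refine hgap.trans ?_
      rw [show b ^ 2 - a ^ 2 = (b - a) * (b + a) by ring]
      refine mul_le_mul_of_nonneg_left ?_ hba
      nlinarith
    have h4 := pow_le_pow_left₀ (by positivity) h3 2
    rw [mul_pow (b - a), mul_pow _ a, ha2] at h4
    have h5 : (4 * t * u) ^ 2 ≤ (b - a) ^ 2 * (12 * M ^ 2) * u := by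
      refine h4.trans ?_
      nlinarith [mul_nonneg (mul_nonneg hD (sq_nonneg M)) (show 0 ≤ u - 1 by linarith)]
    have h6 : 4 / 3 * (t ^ 2 * u) ≤ (b - a) ^ 2 * M ^ 2 := by
      refine le_of_mul_le_mul_right (a := 12 * u) ?_ (by positivity)
      nlinarith
    nlinarith [mul_le_mul_of_nonneg_left hc.le (sq_nonneg t),
      mul_nonneg (sq_nonneg (sinh t)) (sq_nonneg M)]

lemma hex14 (n : ℕ) (x : ℝ) (hx : x ≤ n * 14) : exp x ≤ ((10:ℝ) ^ 7) ^ n :=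
  (exp_le_exp.2 hx).trans
    ((exp_nat_mul 14 n).le.trans (pow_le_pow_left₀ (exp_pos _).le exp14.1 n))

lemma small_second {dl t d u qx qy M : ℝ} (hdl : 0 < dl) (ht : 0 < t) (hd : t ≤ d) (hd1 : d ≤ 2 * t)
    (hu : 0 < u) (hM : exp t ≤ M) (hM4 : exp (-t + 2 * d) ≤ M ^ 4) (hqy : qy ≤ qx)
    (hqy0 : 0 ≤ qy) (hq : qx * u ≤ 3200 * dl * (1 + u)) :
    sinh t * (17 * dl + 3 / 2 * qy + qx / 2) * (exp (-t) * (u * exp (2 * d)) - exp t * u) ≤
      13000 * dl * M ^ 5 * (t ^ 2 * (1 + u)) := by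
  have hM0 : 0 < M := (exp_pos t).trans_le hM
  have hS : sinh t ≤ t * M := by
    have h1 := le_of_deriv_le (f := sinh) (f' := cosh) (g := fun z => z * cosh z)
      (g' := fun z => cosh z + z * sinh z) ht.le (fun z _ => hasDerivAt_sinh z)
      (fun z _ => ((hasDerivAt_id z).mul (hasDerivAt_cosh z)).congr_deriv (by simp))
      (by simp) fun z hz => by nlinarith [sinh_nonneg_iff.2 hz.1.le, hz.1]
    refine h1.trans (mul_le_mul_of_nonneg_left (le_trans ?_ hM) ht.le)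
    rw [cosh_eq]
    linarith [exp_le_exp.2 (show -t ≤ t by linarith)]
  have hP : exp (-t) * (u * exp (2 * d)) - exp t * u ≤ u * (2 * t * M ^ 4) := by
    have e1 : exp (-t) * (u * exp (2 * d)) - exp t * u =
        u * (exp (-t + 2 * d) * (1 - exp (-(2 * (d - t))))) := by
      rw [mul_sub, mul_one, ← exp_add, exp_add (-t) (2 * d),
        show -t + 2 * d + -(2 * (d - t)) = t by ring]
      ring
    rw [e1]
    refine mul_le_mul_of_nonneg_left ?_ hu.le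
    have h3 : 1 - exp (-(2 * (d - t))) ≤ 2 * (d - t) := by
      linarith [add_one_le_exp (-(2 * (d - t)))]
    calc _ ≤ M ^ 4 * (2 * t) := by
          refine mul_le_mul hM4 ?_ (sub_nonneg.2 (exp_le_one_iff.2 (by linarith))) (by positivity)
          linarith
      _ = _ := by ring
  have hQu : (17 * dl + 3 / 2 * qy + qx / 2) * u ≤ 6500 * dl * (1 + u) := by
    have h1 := mul_le_mul_of_nonneg_right hqy hu.le
    have h3 : 0 ≤ dl * u := by positivity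
    linarith
  have hQ0 : 0 ≤ 17 * dl + 3 / 2 * qy + qx / 2 := by linarith
  calc _ ≤ t * M * (17 * dl + 3 / 2 * qy + qx / 2) * (u * (2 * t * M ^ 4)) :=
        (mul_le_mul_of_nonneg_left hP (mul_nonneg (sinh_nonneg_iff.2 ht.le) hQ0)).trans
          (mul_le_mul_of_nonneg_right (mul_le_mul_of_nonneg_right hS hQ0) (by positivity))
    _ = 2 * t ^ 2 * M ^ 5 * ((17 * dl + 3 / 2 * qy + qx / 2) * u) := by ring
    _ ≤ 2 * t ^ 2 * M ^ 5 * (6500 * dl * (1 + u)) :=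
        mul_le_mul_of_nonneg_left hQu (by positivity)
    _ = _ := by ring

lemma small_sqrt {u v M : ℝ} (hu : 0 ≤ u) (hv0 : 0 ≤ v) (hv : v ≤ u * M ^ 4) (hM : 1 ≤ M) :
    √((1 + 2 * u) * (1 + 2 * v)) ≤ 3 * M ^ 4 * (1 + u) := by
  have h4 : 1 ≤ M ^ 4 := one_le_pow₀ hM
  refine (sqrt_le_left (by positivity)).2 ?_
  have h1 : 1 + 2 * v ≤ 3 * M ^ 4 * (1 + u) := by nlinarith
  have h2 : 1 + 2 * u ≤ 3 * M ^ 4 * (1 + u) := by nlinarith
  calc _ ≤ (3 * M ^ 4 * (1 + u)) * (3 * M ^ 4 * (1 + u)) :=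
        mul_le_mul h2 h1 (by positivity) (by positivity)
    _ = _ := by ring

lemma small_z {t u v z ep dl : ℝ} (hu : 0 ≤ u) (huv : u ≤ v) (ht : 0 ≤ t) (hep : 0 ≤ ep)
    (hep1 : ep ≤ 3 * dl) (hz1 : z ≤ ep * t) :
    z * (√(1 + 2 * v) - √(1 + 2 * u)) ≤ 3 * dl * D0 t u v := by
  obtain ⟨D, hD⟩ : ∃ D, √(1 + 2 * v) - √(1 + 2 * u) = D := ⟨_, rfl⟩
  have h4 : 0 ≤ D := hD ▸ sub_nonneg.2 (sqrt_le_sqrt (by linarith))
  rw [D0, hD]
  have h3 := pow_le_pow_left₀ ht (self_le_sinh_iff.2 ht) 2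
  have h5 := mul_le_mul_of_nonneg_right hz1 h4
  have h6 := mul_le_mul_of_nonneg_left (sq_nonneg (D - t)) hep
  have h7 := mul_le_mul_of_nonneg_right hep1 (add_nonneg (sq_nonneg D) (sq_nonneg t))
  have h8 := mul_le_mul_of_nonneg_left h3 (show 0 ≤ 3 * dl by linarith)
  have h9 : 0 ≤ 3 * dl * sinh t ^ 2 := mul_nonneg (by linarith) (sq_nonneg _)
  have h10 : 0 ≤ 3 * dl * D ^ 2 := mul_nonneg (by linarith) (sq_nonneg _)
  linarith

lemma small_tilt {dl t d u ep sl M c : ℝ} (hdl : 0 < dl) (hdl1 : dl ≤ 1 / 10 ^ 100) (ht : 0 < t)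
    (ht1 : t ≤ 14) (hu : 0 < u) (hd : t ≤ d) (hd1 : d ≤ 2 * t) (hep : 0 ≤ ep)
    (hep1 : ep ≤ 3 * dl) (hsl : 0 ≤ sl) (hsl1 : sl ≤ 2 * 10 ^ 10 * dl)
    (hM : exp (5 * t) ≤ M ^ 5) (hc : 0 ≤ c) (hc1 : c ≤ 5) :
    c * ((exp (2 * ep * t) * (u * exp (2 * d)) - u) * (exp (sl * (2 * ep * t + 2 * d)) - 1) /
        exp (2 * ep * t)) ≤
      10 ^ 12 * 100 * dl * M ^ 5 * (t ^ 2 * (1 + u)) := by
  have hep2 : ep ≤ 1 / 100 := by linarith [show (1:ℝ) / 10 ^ 100 ≤ 1 / 1000 by norm_num]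
  have hx : 2 * ep * t + 2 * d ≤ 5 * t := by
    linarith [mul_le_mul_of_nonneg_right hep2 ht.le]
  have hx0 : 0 ≤ 2 * ep * t + 2 * d := add_nonneg (by positivity) (by linarith)
  obtain ⟨L, hL⟩ : ∃ L, 2 * ep * t + 2 * d = L := ⟨_, rfl⟩
  rw [hL] at hx hx0 ⊢
  have hy : sl * L ≤ 1 := by
    have := mul_le_mul hsl1 (hx.trans (show 5 * t ≤ 70 by linarith)) hx0 (by positivity)
    linarith [show (1:ℝ) / 10 ^ 100 * (2 * 10 ^ 10) * 70 ≤ 1 by norm_num]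
  have hy0 : 0 ≤ sl * L := mul_nonneg hsl hx0
  have h0 : 0 ≤ exp (sl * L) - 1 := sub_nonneg.2 (one_le_exp hy0)
  have h1 : exp (sl * L) - 1 ≤ 2 * (2 * 10 ^ 10 * dl * (5 * t)) := by
    have := Real.abs_exp_sub_one_le (x := sl * L) (by rwa [abs_of_nonneg hy0])
    rw [abs_of_nonneg hy0, abs_of_nonneg h0] at this
    linarith [mul_le_mul hsl1 hx hx0 (by positivity)]
  have h2 : exp (2 * ep * t) * (u * exp (2 * d)) - u ≤ u * (5 * t * M ^ 5) := by
    rw [mul_left_comm, ← exp_add, hL, ← mul_sub_one]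
    refine mul_le_mul_of_nonneg_left ?_ hu.le
    have h5 := exp_le_exp.2 hx
    have h6 : exp (5 * t) - 1 ≤ 5 * t * exp (5 * t) := by
      have : exp (5 * t) * exp (-(5 * t)) = 1 := by rw [← exp_add]; simp
      nlinarith [mul_le_mul_of_nonneg_left (add_one_le_exp (-(5 * t))) (exp_pos (5 * t)).le]
    have h7 := mul_le_mul_of_nonneg_left hM (show 0 ≤ 5 * t by positivity)
    linarith
  have h3 : 0 ≤ exp (2 * ep * t) * (u * exp (2 * d)) - u := by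
    rw [mul_left_comm, ← exp_add, ← mul_sub_one]
    exact mul_nonneg hu.le (sub_nonneg.2 (one_le_exp (by linarith)))
  calc _ ≤ 5 * ((exp (2 * ep * t) * (u * exp (2 * d)) - u) * (exp (sl * L) - 1)) :=
        mul_le_mul hc1 (div_le_self (mul_nonneg h3 h0) (one_le_exp (by positivity)))
          (div_nonneg (mul_nonneg h3 h0) (exp_pos _).le) (by norm_num)
    _ ≤ 5 * (u * (5 * t * M ^ 5) * (2 * (2 * 10 ^ 10 * dl * (5 * t)))) :=
        mul_le_mul_of_nonneg_left (mul_le_mul h2 h1 h0 (h3.trans h2)) (by norm_num)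
    _ = 5 * 10 ^ 12 * (dl * M ^ 5 * t ^ 2) * u := by ring
    _ ≤ _ := by
      have h8 : 0 ≤ dl * M ^ 5 * t ^ 2 :=
        mul_nonneg (mul_nonneg hdl.le ((exp_pos _).le.trans hM)) (sq_nonneg t)
      linarith [mul_nonneg h8 hu.le]

/-- The error terms for bounded `t`. -/
lemma err_small {dl t d u ep e z w qx qy sl : ℝ} (hdl : 0 < dl) (hdl1 : dl ≤ 1 / 10 ^ 100)
    (ht : 0 < t) (ht1 : t ≤ 14) (hd : t ≤ d) (hd1 : d ≤ 2 * t) (hu : 0 < u)
    (hep : 0 ≤ ep) (hep1 : ep ≤ 3 * dl) (he : e ≤ dl) (hz : 0 ≤ z) (hz1 : z ≤ ep * t)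
    (hw : 0 ≤ w) (hw1 : w ≤ 1000 * dl * t ^ 2) (hqy : qy ≤ qx) (hqy0 : 0 ≤ qy)
    (hq : qx * u ≤ 3200 * dl * (1 + u)) (hsl : 0 ≤ sl) (hsl1 : sl ≤ 2 * 10 ^ 10 * dl) :
    errT t u (u * exp (2 * d)) e z w (17 * dl + 3 / 2 * qy + qx / 2) (exp (2 * ep * t))
      ((√((1 + 2 * u) * (1 + 2 * (exp (2 * ep * t) * (u * exp (2 * d))))) - 1) / 2 +
        (exp (2 * ep * t) * (u * exp (2 * d)) - u) * (exp (sl * (2 * ep * t + 2 * d)) - 1)) ≤
      1 / 10 ^ 4 * D0 t u (u * exp (2 * d)) := by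
  obtain ⟨M, hM⟩ : ∃ M : ℝ, (10:ℝ) ^ 7 = M := ⟨_, rfl⟩
  have hex : ∀ (n : ℕ) (x : ℝ), x ≤ n * 14 → exp x ≤ M ^ n := fun n x hx => hM ▸ hex14 n x hx
  have hM1 : 1 ≤ M := by rw [← hM]; norm_num
  have hK := D0_ge ht hu hd (hex 2 d (by push_cast; linarith))
  rw [← pow_mul] at hK
  have t2 := small_second hdl ht hd hd1 hu (pow_one M ▸ hex 1 t (by push_cast; linarith))
    (hex 4 _ (by push_cast; linarith)) hqy hqy0 hq
  have t6 := small_tilt (c := 2 * (1 + z) + w) hdl hdl1 ht ht1 hu hd hd1 hep hep1 hsl hsl1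
    (hex 5 _ (by push_cast; linarith)) (by positivity) (by
      have h1 := mul_le_mul (hz1.trans (mul_le_mul hep1 ht1 ht.le (by positivity))) le_rfl
        zero_le_one (by positivity)
      have h2 := hw1.trans (mul_le_mul_of_nonneg_left (pow_le_pow_left₀ ht.le ht1 2) (by positivity))
      linarith [show (1:ℝ) / 10 ^ 100 * (14 ^ 2 * 1000 + 84) ≤ 1 by norm_num])
  obtain ⟨v, hv⟩ : ∃ v, u * exp (2 * d) = v := ⟨_, rfl⟩
  rw [hv] at hK t2 t6 ⊢
  have huv : u ≤ v := hv ▸ le_mul_of_one_le_right hu.le (one_le_exp (by linarith))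
  have hP1 := small_sqrt hu.le (hu.le.trans huv)
    (hv ▸ mul_le_mul_of_nonneg_left (hex 4 _ (by push_cast; linarith)) hu.le) hM1
  have t3 := small_z hu.le huv ht.le hep hep1 hz1
  have hr1 : 1 + 2 * z ≤ exp (2 * ep * t) := by linarith [add_one_le_exp (2 * ep * t)]
  obtain ⟨r, hr⟩ : ∃ r, exp (2 * ep * t) = r := ⟨_, rfl⟩
  rw [hr] at t6 hr1 ⊢
  have hs := s0_shift hu.le huv hz hr1
  have h0 := s0_shift hu.le huv le_rfl (r := r) (by linarith)
  obtain ⟨K, hKdef⟩ : ∃ K, t ^ 2 * (1 + u) = K := ⟨_, rfl⟩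
  rw [hKdef] at hK t2 t6
  have hK0 : 0 ≤ K := by rw [← hKdef]; positivity
  have hD : 0 ≤ D0 t u v := by rw [D0]; positivity
  have t1 : 2 * sinh t ^ 2 * e ≤ dl * D0 t u v := by
    have h1 := mul_le_mul_of_nonneg_left he (show 0 ≤ 2 * sinh t ^ 2 by positivity)
    have h2 : 2 * sinh t ^ 2 ≤ D0 t u v := by
      rw [D0]; linarith [sq_nonneg (√(1 + 2 * v) - √(1 + 2 * u)), sq_nonneg (sinh t)]
    linarith [mul_le_mul_of_nonneg_right h2 hdl.le]
  obtain ⟨P, hP⟩ : ∃ P, √((1 + 2 * u) * (1 + 2 * v)) = P := ⟨_, rfl⟩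
  obtain ⟨F, hF⟩ : ∃ F, (√((1 + 2 * u) * (1 + 2 * (r * v))) - 1) / r = F := ⟨_, rfl⟩
  rw [hP, hF] at hs h0
  rw [hP] at hP1
  have hP0 : 0 ≤ P := hP ▸ sqrt_nonneg _
  have t4 : z ^ 2 * P ≤ 27 * dl * M ^ 4 * K := by
    have h1 : z ^ 2 ≤ 9 * dl * t ^ 2 := by
      have h2 := pow_le_pow_left₀ hz (hz1.trans (mul_le_mul_of_nonneg_right hep1 ht.le)) 2
      have h3 := mul_le_mul_of_nonneg_left
        (show dl ≤ 1 by linarith [show (1:ℝ) / 10 ^ 100 ≤ 1 by norm_num])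
        (show 0 ≤ 9 * dl * t ^ 2 by positivity)
      linarith
    calc _ ≤ 9 * dl * t ^ 2 * (3 * M ^ 4 * (1 + u)) := mul_le_mul h1 hP1 hP0 (by positivity)
      _ = _ := by rw [← hKdef]; ring
  have t5 : w / 2 * F ≤ 3000 * dl * M ^ 4 * K := by
    calc _ ≤ 1000 * dl * t ^ 2 * (3 * M ^ 4 * (1 + u)) :=
          (mul_le_mul_of_nonneg_left (show F ≤ P by linarith) (by positivity)).trans
            (mul_le_mul (by linarith) hP1 hP0 (by positivity))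
      _ = _ := by rw [← hKdef]; ring
  obtain ⟨X, hX⟩ : ∃ X, exp (sl * (2 * ep * t + 2 * d)) - 1 = X := ⟨_, rfl⟩
  rw [hX] at t6 ⊢
  have e0 : errT t u v e z w (17 * dl + 3 / 2 * qy + qx / 2) r
      ((√((1 + 2 * u) * (1 + 2 * (r * v))) - 1) / 2 + (r * v - u) * X) =
      2 * sinh t ^ 2 * e + sinh t * (17 * dl + 3 / 2 * qy + qx / 2) * (exp (-t) * v - exp t * u) +
      ((1 + z) * F - (P - 1)) + w / 2 * F + (2 * (1 + z) + w) * ((r * v - u) * X / r) := by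
    rw [errT, hP, ← hF]; ring
  rw [e0]
  have hM45 : dl * M ^ 4 * K ≤ dl * M ^ 5 * K :=
    mul_le_mul_of_nonneg_right
      (mul_le_mul_of_nonneg_left (pow_le_pow_right₀ hM1 (by norm_num)) hdl.le) hK0
  have h9 := mul_le_mul_of_nonneg_left hK (show 0 ≤ 10 ^ 15 * dl * M ^ 5 by positivity)
  have hfin : 2 * 10 ^ 15 * dl * M ^ 9 + 4 * dl ≤ 1 / 10 ^ 4 := by
    have := mul_le_mul_of_nonneg_right hdl1 (show 0 ≤ 2 * 10 ^ 15 * M ^ 9 + 4 by positivity)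
    rw [← hM] at this ⊢
    norm_num at this ⊢
    linarith
  have h10 := mul_le_mul_of_nonneg_right hfin hD
  have h11 : 0 ≤ dl * M ^ 5 * K := by positivity
  refine le_trans (show _ ≤ 10 ^ 15 * (dl * M ^ 5 * K) + 4 * (dl * D0 t u v) by linarith) ?_
  have h12 : dl * M ^ 5 * (2 * M ^ (2 * 2)) = 2 * (dl * M ^ 9) := by ring
  have h13 : 10 ^ 15 * dl * M ^ 5 * (2 * M ^ (2 * 2) * D0 t u v) =
      2 * 10 ^ 15 * (dl * M ^ 9 * D0 t u v) := by ring
  linarith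

lemma large_sqrt {t d u : ℝ} (ht1 : 14 ≤ t) (hd : t ≤ d) (hu : 0 < u) :
    let v := u * exp (2 * d)
    10 ^ 9 ≤ sinh t ^ 2 ∧
    √((1 + 2 * u) * (1 + 2 * v)) * exp (t / 20) ≤ (sinh t ^ 2 + u + v) / 50000 := by
  intro v
  have h13 : 4 * 10 ^ 5 ≤ exp t := exp14.2.trans (exp_le_exp.2 (by linarith))
  have hS : exp t * 2 ≤ 5 * sinh t := by
    have : exp t * exp (-t) = 1 := by rw [← exp_add]; simp
    rw [sinh_eq]; nlinarith [exp_pos (-t)]
  have hS5 : exp t ^ 2 ≤ 25 / 4 * sinh t ^ 2 := by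
    linarith [pow_le_pow_left₀ (by positivity) hS 2]
  have hS9 : 10 ^ 9 ≤ sinh t ^ 2 := by linarith [pow_le_pow_left₀ (by norm_num) h13 2]
  refine ⟨hS9, ?_⟩
  obtain ⟨U, hU⟩ : ∃ U, sinh t ^ 2 + u + v = U := ⟨_, rfl⟩
  rw [hU]
  have hv : 0 ≤ v := by positivity
  have hU0 : 0 ≤ U := by rw [← hU]; positivity
  have hPU : √((1 + 2 * u) * (1 + 2 * v)) * exp t ≤ 7 * U := by
    refine (pow_le_pow_iff_left₀ (by positivity) (by linarith) two_ne_zero).1 ?_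
    rw [mul_pow, sq_sqrt (by positivity)]
    have h2 : u * exp t ^ 2 ≤ v := by
      rw [← exp_nat_mul]
      exact mul_le_mul_of_nonneg_left (exp_le_exp.2 (by push_cast; linarith)) hu.le
    have h3 : (1 + 2 * u) * exp t ^ 2 ≤ 7 * U := by
      rw [← hU]; linarith [sq_nonneg (sinh t)]
    have h4 : 1 + 2 * v ≤ 7 * U := by rw [← hU]; linarith
    calc (1 + 2 * u) * (1 + 2 * v) * exp t ^ 2 = (1 + 2 * v) * ((1 + 2 * u) * exp t ^ 2) := by ring
      _ ≤ 7 * U * (7 * U) := mul_le_mul h4 h3 (by positivity) (by linarith)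
      _ = _ := by ring
  have h1 : exp t = exp (t / 20) * exp (t * (19 / 20)) := by rw [← exp_add]; ring_nf
  have h2 : 4 * (10:ℝ) ^ 5 ≤ exp (t * (19 / 20)) := exp14.2.trans (exp_le_exp.2 (by linarith))
  rw [h1, ← mul_assoc] at hPU
  have h3 := mul_le_mul_of_nonneg_left h2
    (show 0 ≤ √((1 + 2 * u) * (1 + 2 * v)) * exp (t / 20) by positivity)
  linarith

lemma large_slope {dl t d u v ep z w sl r : ℝ} (hdl : 0 < dl) (hdl1 : dl ≤ 1 / 10 ^ 100)
    (ht : 0 ≤ t) (hd : 0 ≤ d) (hd1 : d ≤ 2 * t) (hu : 0 ≤ u) (huv : u ≤ v) (hr : 1 ≤ r)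
    (hep : 0 ≤ ep) (hep1 : ep ≤ 3 * dl) (hz : 0 ≤ z) (hz1 : z ≤ 3 * dl) (hw : 0 ≤ w)
    (hw1 : w ≤ 11 / 10) (hsl : 0 ≤ sl) (hsl1 : sl ≤ 1 / 100) :
    (2 * (1 + z) + w) * (exp (sl * (2 * ep * t + 2 * d)) *
      ((√((1 + 2 * u) * (1 + 2 * (r * v))) - 1) / 2) / r) ≤
      2 * (√((1 + 2 * u) * (1 + 2 * v)) * exp (t / 20)) := by
  have h1 := s0_shift hu huv le_rfl (r := r) (by linarith)
  obtain ⟨P, hP⟩ : ∃ P, √((1 + 2 * u) * (1 + 2 * v)) = P := ⟨_, rfl⟩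
  obtain ⟨F, hF⟩ : ∃ F, (√((1 + 2 * u) * (1 + 2 * (r * v))) - 1) / r = F := ⟨_, rfl⟩
  rw [hP, hF] at h1
  rw [hP]
  have hep2 : ep ≤ 1 / 2 := by linarith [show (1:ℝ) / 10 ^ 100 ≤ 1 / 10 by norm_num]
  have hL : 2 * ep * t + 2 * d ≤ 5 * t := by
    linarith [mul_le_mul_of_nonneg_right hep2 ht]
  have h2 : exp (sl * (2 * ep * t + 2 * d)) ≤ exp (t / 20) := exp_le_exp.2 (by
    linarith [mul_le_mul hsl1 hL (by positivity) (by norm_num)])
  have h3 : 0 ≤ F := by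
    rw [← hF]
    refine div_nonneg (sub_nonneg.2 (one_le_sqrt.2 ?_)) (by linarith)
    exact one_le_mul_of_one_le_of_one_le (by linarith) (by
      have : 0 ≤ r * v := mul_nonneg (by linarith) (hu.trans huv)
      linarith)
  calc _ = (2 * (1 + z) + w) / 2 * (exp (sl * (2 * ep * t + 2 * d)) * F) := by rw [← hF]; ring
    _ ≤ 2 * (exp (t / 20) * P) :=
        mul_le_mul (by linarith [show (1:ℝ) / 10 ^ 100 ≤ 1 / 100 by norm_num])
          (mul_le_mul h2 (by linarith) h3 (exp_pos _).le) (mul_nonneg (exp_pos _).le h3) (by norm_num)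
    _ = _ := by ring

lemma large_second {t d u Qp : ℝ} (ht : 0 ≤ t) (hu : 0 ≤ u) (hQ : 0 ≤ Qp) :
    sinh t * Qp * (exp (-t) * (u * exp (2 * d)) - exp t * u) ≤ Qp / 2 * (u * exp (2 * d)) := by
  have h1 : sinh t * exp (-t) ≤ 1 / 2 := by
    rw [sinh_eq, sub_div, sub_mul, div_mul_eq_mul_div, ← exp_add, add_neg_cancel, exp_zero]
    linarith [show 0 ≤ exp (-t) / 2 * exp (-t) by positivity]
  have h2 := mul_le_mul_of_nonneg_right h1 (show 0 ≤ Qp * (u * exp (2 * d)) by positivity)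
  have h3 : 0 ≤ sinh t * Qp * (exp t * u) :=
    mul_nonneg (mul_nonneg (sinh_nonneg_iff.2 ht) hQ) (by positivity)
  linarith

/-- The error terms for large `t`: either they are small, or the pair is very unequal. -/
lemma err_large {dl t d u ep e z w qx qy sl : ℝ} (hdl : 0 < dl) (hdl1 : dl ≤ 1 / 10 ^ 100)
    (ht1 : 14 ≤ t) (hd : t ≤ d) (hd1 : d ≤ 2 * t) (hu : 0 < u)
    (hep : 0 ≤ ep) (hep1 : ep ≤ 3 * dl) (he : e ≤ dl) (hz : 0 ≤ z) (hz1 : z ≤ 3 * dl)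
    (hw : 0 ≤ w) (hw1 : w ≤ 11 / 10) (hqx : qx ≤ 21 / 10) (hqy : qy ≤ qx) (hqy0 : 0 ≤ qy)
    (hq : qx * u ≤ 3200 * dl * (1 + u)) (hsl : 0 ≤ sl) (hsl1 : sl ≤ 1 / 100)
    (hq2 : 1 ≤ exp (2 * ep * t) * (u * exp (2 * d)) → qy ≤ 6400 * dl) :
    errT t u (u * exp (2 * d)) e z w (17 * dl + 3 / 2 * qy + qx / 2) (exp (2 * ep * t))
      (exp (sl * (2 * ep * t + 2 * d)) *
        ((√((1 + 2 * u) * (1 + 2 * (exp (2 * ep * t) * (u * exp (2 * d))))) - 1) / 2)) ≤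
      1 / 10 ^ 4 * D0 t u (u * exp (2 * d)) ∨
    (1 / 10 ^ 6 ≤ qx - qy ∧ u < 1 ∧ sinh t ^ 2 / 4 ≤ D0 t u (u * exp (2 * d)) / 2 -
      errT t u (u * exp (2 * d)) e z w (17 * dl + 3 / 2 * qy + qx / 2) (exp (2 * ep * t))
      (exp (sl * (2 * ep * t + 2 * d)) *
        ((√((1 + 2 * u) * (1 + 2 * (exp (2 * ep * t) * (u * exp (2 * d))))) - 1) / 2))) := by
  have hQ0 : 0 ≤ 17 * dl + 3 / 2 * qy + qx / 2 := by linarith
  obtain ⟨hS9, hsmallP⟩ := large_sqrt ht1 hd hu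
  have hP' := large_second (t := t) (d := d) (by linarith) hu.le hQ0
  have huv : u ≤ u * exp (2 * d) := le_mul_of_one_le_right hu.le (one_le_exp (by linarith))
  have hr1 : 1 ≤ exp (2 * ep * t) := one_le_exp (mul_nonneg (by linarith) (by linarith))
  have hs := large_slope hdl hdl1 (by linarith) (show 0 ≤ d by linarith) hd1 hu.le huv hr1 hep
    hep1 hz hz1 hw hw1 hsl hsl1
  have hP1 : 1 ≤ √((1 + 2 * u) * (1 + 2 * (u * exp (2 * d)))) :=
    one_le_sqrt.2 (one_le_mul_of_one_le_of_one_le (by linarith) (by linarith))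
  have hPs := (le_mul_of_one_le_right (sqrt_nonneg _)
    (one_le_exp (show 0 ≤ t / 20 by linarith))).trans hsmallP
  have eD : D0 t u (u * exp (2 * d)) = 4 * sinh t ^ 2 + 2 + 2 * u + 2 * (u * exp (2 * d)) -
      2 * √((1 + 2 * u) * (1 + 2 * (u * exp (2 * d)))) := by
    rw [D0, sub_sq, sq_sqrt (by positivity), sq_sqrt (by positivity), sqrt_mul (by positivity)]
    ring
  rw [eD, errT]
  obtain ⟨v, hv⟩ : ∃ v, u * exp (2 * d) = v := ⟨_, rfl⟩
  rw [hv] at hP' hs hPs hsmallP hP1 hq2 huv ⊢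
  obtain ⟨P, hP⟩ : ∃ P, √((1 + 2 * u) * (1 + 2 * v)) = P := ⟨_, rfl⟩
  rw [hP] at hs hPs hsmallP hP1 ⊢
  obtain ⟨S, hS⟩ : ∃ S, sinh t ^ 2 = S := ⟨_, rfl⟩
  rw [hS] at hPs hsmallP hS9 ⊢
  obtain ⟨A, hA⟩ : ∃ A, sinh t * (17 * dl + 3 / 2 * qy + qx / 2) * (exp (-t) * v - exp t * u) = A :=
    ⟨_, rfl⟩
  obtain ⟨B, hB⟩ : ∃ B, (2 * (1 + z) + w) * (exp (sl * (2 * ep * t + 2 * d)) *
      ((√((1 + 2 * u) * (1 + 2 * (exp (2 * ep * t) * v))) - 1) / 2) / exp (2 * ep * t)) = B :=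
    ⟨_, rfl⟩
  rw [hA] at hP'
  rw [hA]
  rw [hB] at hs
  rw [hB]
  have hv0 : 0 ≤ v := hu.le.trans huv
  have hd1' : dl ≤ 1 / 10 ^ 12 := hdl1.trans (by norm_num)
  have he2 : 2 * S * e ≤ S / 10 ^ 6 := by
    linarith [mul_le_mul_of_nonneg_left (he.trans hd1') (show 0 ≤ 2 * S by linarith)]
  rcases lt_or_ge v 1 with hc | hc
  · left
    have := mul_le_mul (show (17 * dl + 3 / 2 * qy + qx / 2) / 2 ≤ 3 by linarith) hc.le hv0
      (by norm_num)
    linarith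
  have hqy2 : qy ≤ 6400 * dl := hq2 (hc.trans (le_mul_of_one_le_left hv0 hr1))
  rcases le_or_gt qx (1 / 10 ^ 5) with hc2 | hc2
  · left
    have := mul_le_mul_of_nonneg_right
      (show (17 * dl + 3 / 2 * qy + qx / 2) / 2 ≤ 1 / 10 ^ 5 by linarith) hv0
    linarith
  · right
    have hu1 : u < 1 := by
      by_contra hu1
      push Not at hu1
      have := mul_le_mul_of_nonneg_right hc2.le hu.le
      have := mul_le_mul_of_nonneg_left hu1 hdl.le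
      have := mul_le_mul_of_nonneg_right hd1' hu.le
      linarith
    refine ⟨by linarith, hu1, ?_⟩
    have := mul_le_mul_of_nonneg_right
      (show (17 * dl + 3 / 2 * qy + qx / 2) / 2 ≤ 3 / 5 by linarith) hv0
    linarith

end Vale.Agent.P371.Leg
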