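import Vale.Agent.P371.Leg.PairLead
import Vale.Agent.P371.Leg.PairErr

/-!
# P371: one pair in normalised variables
-/

namespace Vale.Agent.P371.Leg

open Real Set

variable {dl : ℝ}

/-- The pair form without the Jensen part, in normalised variables. -/
noncomputable def restN (dl t e px py Ex Ey qx qy X Y Xa Ya : ℝ) : ℝ :=
  4 * sinh t * (bExp dl - kExp dl * e) * (px * Ex + py * Ey) -
    4 * cosh t * (px * Ex - py * Ey) - 2 * cosh t * (qx - qy) * (X + Y) -
    2 * sinh t * (1 - e) * (qx - qy) * (px * Ex - py * Ey) +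
    2 * sinh t * (1 - e) * (qx - qy) * ((1 - 2 * qx) * X - (1 - 2 * qy) * Y) -
    2 * sinh t * e * (qx - qy) * (X - Y) +
    2 * sinh t * (1 - 2 * e) * (qx - qy) * ((Xa - X) - (Ya - Y)) +
    sinh t * (1 - e) * (qx - qy) ^ 2 * (X + Y) +
    4 * dl * e * sinh t * (qx * Xa + qy * Ya)

lemma kernel_norm (m t : ℝ) (hm : 0 < m) :
    Gk (m * exp t) (m * exp (-t)) = 1 / (4 * m * cosh t) ∧
      Hk dl (m * exp t) (m * exp (-t)) = (1 - dl * tanh t ^ 2) / (4 * m * cosh t) ∧
      m * exp t - m * exp (-t) = 2 * m * sinh t := by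
  have h5 : exp t * exp (-t) = 1 := by rw [← exp_add]; simp
  have h6 : m * exp t + m * exp (-t) = 2 * m * cosh t := by rw [cosh_eq]; ring
  have hC := cosh_pos t
  have hcs := cosh_sq t
  refine ⟨?_, ?_, by rw [sinh_eq]; ring⟩
  · rw [Gk, h6]; field_simp; ring
  · rw [Hk, Gk, h6, show m * exp t * (m * exp (-t)) = m ^ 2 by linear_combination m ^ 2 * h5,
      tanh_eq_sinh_div_cosh]
    field_simp
    linear_combination (-4 * dl) * hcs

lemma rest_norm {m t M px py Ex Ey qx qy X Y Xa Ya : ℝ} (hm : 0 < m) (ht : 0 < t)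
    (hx : (m * exp t) ^ bExp dl = M * px) (hy : (m * exp (-t)) ^ bExp dl = M * py) :
    pairForm dl (m * exp t) (m * exp (-t)) (M * X) (M * Y) (M * Xa) (M * Ya) Ex Ey qx qy *
        (8 * m * cosh t * sinh t) =
      jens dl (m * exp t) (m * exp (-t)) (M * X) (M * Y) * (8 * m * cosh t * sinh t) +
        M * restN dl t (dl * tanh t ^ 2) px py Ex Ey qx qy X Y Xa Ya := by
  obtain ⟨hG, hH, hd⟩ := kernel_norm (dl := dl) m t hm
  have hS := sinh_pos_iff.2 ht
  have hC := cosh_pos t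
  have hne : m * exp (-t) ≠ m * exp t := fun he => by
    have := mul_left_cancel₀ hm.ne' he
    linarith [exp_injective this]
  rw [pairForm, dslope_of_ne _ hne.symm.symm, slope_def_field, hx, hy, hG, hH]
  rw [show m * exp (-t) - m * exp t = -(2 * m * sinh t) by linarith, hd, restN]
  field_simp
  ring

lemma u_part {t e dl qx qy u v T de : ℝ} (he : 0 ≤ e) (he1 : e ≤ dl) (hdl : dl ≤ 1 / 100)
    (ht : 0 < t) (hT : 0 < T) (hqy : 0 ≤ qy) (hq : qy ≤ qx) (hu : 0 ≤ u)
    (hP : 0 ≤ exp (-t) * v - exp t * u)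
    (hde : de ≤ 15 * dl * (T * (exp (-t) * v - exp t * u))) :
    -2 * cosh t * (qx - qy) * (exp t * T * u + T * exp (-t) * v) +
      2 * sinh t * (1 - e) * (qx - qy) *
        ((1 - 2 * qx) * (exp t * T * u) - (1 - 2 * qy) * (T * exp (-t) * v)) -
      2 * sinh t * e * (qx - qy) * (exp t * T * u - T * exp (-t) * v) +
      2 * sinh t * (1 - 2 * e) * (qx - qy) * de +
      sinh t * (1 - e) * (qx - qy) ^ 2 * (exp t * T * u + T * exp (-t) * v) ≤
    T * (-2 * (qx - qy) * (u + v) + 2 * sinh t * (qx - qy) *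
      (17 * dl + 3 / 2 * qy + qx / 2) * (exp (-t) * v - exp t * u)) := by
  obtain ⟨D, hD⟩ : ∃ D, qx - qy = D := ⟨_, rfl⟩
  have hD0 : 0 ≤ D := by linarith
  have hS := sinh_pos_iff.2 ht
  obtain ⟨P, hPe⟩ : ∃ P, exp (-t) * v - exp t * u = P := ⟨_, rfl⟩
  rw [hPe] at hP hde ⊢
  rw [hD]
  have e1 : exp t * exp (-t) = 1 := by rw [← exp_add]; simp
  have hC : cosh t = exp (-t) + sinh t := by rw [cosh_eq, sinh_eq]; ring
  have hC2 : cosh t = exp t - sinh t := by rw [cosh_eq, sinh_eq]; ring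
  have a1 := mul_le_mul_of_nonneg_left hde
    (show 0 ≤ 2 * sinh t * (1 - 2 * e) * D by
      have : 0 ≤ 1 - 2 * e := by linarith
      positivity)
  have h0 : 0 ≤ 2 * sinh t * D * T := by positivity
  have hX : 0 ≤ exp t * u := by positivity
  have a2 : (1 - 2 * e) * (15 * dl) * P + 2 * e * P +
      (1 - e) * ((3 / 2 * qy + qx / 2) * P - (qx - qy) * (exp t * u)) ≤
      (17 * dl + 3 / 2 * qy + qx / 2) * P := by
    have : 0 ≤ e * dl * P := mul_nonneg (mul_nonneg he (by linarith)) hP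
    have := mul_le_mul_of_nonneg_right he1 hP
    have := mul_nonneg (mul_nonneg he (show 0 ≤ 3 / 2 * qy + qx / 2 by linarith)) hP
    have := mul_nonneg (show 0 ≤ 1 - e by linarith) (mul_nonneg (sub_nonneg.2 hq) hX)
    linarith
  have a3 := mul_le_mul_of_nonneg_left a2 h0
  have hv : exp (-t) * v = P + exp t * u := by linarith
  have e2 : -2 * cosh t * D * (exp t * T * u + T * exp (-t) * v) +
      2 * sinh t * (D * (exp t * T * u) - D * (T * exp (-t) * v)) = T * (-2 * D * (u + v)) := by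
    rw [cosh_eq, sinh_eq]
    linear_combination -(2 * D * T * (u + v)) * e1
  rw [← hD] at a1 a3 e2 ⊢
  rw [← hPe] at a1 a3 ⊢
  linarith

lemma E_part {t e px py Ex Ey D c : ℝ} (ht : 0 < t) (he : 0 ≤ e) (he1 : e ≤ 1)
    (hpy : 0 ≤ py) (hD : 0 ≤ D) (hdE : Ex ≤ Ey) :
    4 * sinh t * c * (px * Ex + py * Ey) - 4 * cosh t * (px * Ex - py * Ey) -
      2 * sinh t * (1 - e) * D * (px * Ex - py * Ey) ≤
    4 * Ex * (sinh t * c * (px + py) - cosh t * (px - py)) -
      2 * sinh t * (1 - e) * D * ((px - py) * Ex) +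
      (4 * (py * (sinh t * c + cosh t)) + 2 * (py * sinh t) * D) * (Ey - Ex) := by
  have hS := sinh_pos_iff.2 ht
  have := mul_nonneg (mul_nonneg (mul_nonneg (mul_nonneg hS.le he) hD) hpy) (sub_nonneg.2 hdE)
  linarith

lemma coef_facts (h : Small dl) {t : ℝ} (ht : 0 < t) :
    let ep := bExp dl - 1
    let T := exp (ep * t)
    let px := exp t * T
    let py := exp (-t) / T
    let c := bExp dl - kExp dl * (dl * tanh t ^ 2)
    0 < ep ∧ ep ≤ 3 * dl ∧ dl * (2 + ep) = ep ∧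
      sinh t * c * (px + py) - cosh t * (px - py) =
        2 * (ep * (tanh t * cosh (ep * t) + tanh t ^ 2 * sinh (ep * t)) - sinh (ep * t)) ∧
      2 * sinh t * T ≤ px - py ∧
      py * (sinh t * c + cosh t) ≤ (1 + ep * (exp (-t) * sinh t)) / T := by
  intro ep T px py c
  have h1 : (1 - dl) ≠ 0 := by linarith [h.2]
  have hep : dl * (2 + ep) = ep := by
    simp only [ep, bExp]; field_simp; ring
  have hep0 : 0 < ep := by simp only [ep]; linarith [h.one_lt_b]
  have hc : c = 1 + ep * (1 - tanh t ^ 2) := by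
    simp only [c, h.k_eq]
    linear_combination (-(tanh t ^ 2)) * hep
  have hT : 0 < T := exp_pos _
  have hT1 : 1 ≤ T := one_le_exp (mul_nonneg hep0.le ht.le)
  have hS := sinh_pos_iff.2 ht
  have hC := cosh_pos t
  refine ⟨hep0, h.k_mem.2.2, hep, ?_, ?_, ?_⟩
  · rw [hc]
    simp only [px, py, T]
    have e1 : exp t = cosh t + sinh t := (cosh_add_sinh t).symm
    have e2 : exp (-t) = cosh t - sinh t := (cosh_sub_sinh t).symm
    have e3 : exp (ep * t) = cosh (ep * t) + sinh (ep * t) := (cosh_add_sinh _).symm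
    have e4 : (exp (ep * t))⁻¹ = cosh (ep * t) - sinh (ep * t) := by
      rw [← exp_neg, cosh_sub_sinh]
    rw [div_eq_mul_inv, e4, e3, e1, e2, tanh_eq_sinh_div_cosh]
    field_simp
    have hcs := cosh_sq t
    linear_combination (2 * ep * sinh t * cosh (ep * t) * cosh t +
      2 * ep * sinh t ^ 2 * sinh (ep * t) - 2 * sinh (ep * t) * cosh t ^ 2) * hcs
  · simp only [px, py]
    rw [sinh_eq]
    have : exp (-t) / T ≤ exp (-t) * T := by
      rw [div_le_iff₀ hT, mul_assoc]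
      exact le_mul_of_one_le_right (exp_pos _).le (one_le_mul_of_one_le_of_one_le hT1 hT1)
    linarith
  · simp only [py]
    rw [div_mul_eq_mul_div]
    refine div_le_div_of_nonneg_right ?_ hT.le
    rw [hc]
    have e : exp (-t) * (sinh t + cosh t) = 1 := by
      rw [add_comm, cosh_add_sinh, ← exp_add]; simp
    have := mul_nonneg (mul_nonneg (exp_pos (-t)).le hS.le)
      (mul_nonneg hep0.le (sq_nonneg (tanh t)))
    linarith

lemma err_expand {t u v e ep D Qp T s : ℝ} (hT : T ≠ 0) (hu : 0 ≤ u) (hv : 0 ≤ v) :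
    T * (-2 * D * (D0 t u v / 2 -
      errT t u v e (ep * (exp (-t) * sinh t)) (exp (-t) * sinh t * D) Qp (T ^ 2) s)) =
      T * (-2 * D * (u + v) + 2 * sinh t * D * Qp * (exp (-t) * v - exp t * u)) -
      2 * sinh t * (1 - e) * D * (2 * sinh t * T) +
      (4 * ((1 + ep * (exp (-t) * sinh t)) / T) + 2 * (exp (-t) / T * sinh t) * D) * (D * s) := by
  rw [errT, D0, sub_sq, sq_sqrt (by positivity), sq_sqrt (by positivity), sqrt_mul (by positivity)]
  field_simp
  ring

/-- Assembly of the parts of `restN`. -/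
lemma parts_combine {t e c px py T Ex Ey D s U R B L : ℝ} (ht : 0 < t) (hD : 0 ≤ D) (he : 0 ≤ e)
    (he1 : e ≤ 1) (hT : 0 < T) (hpy : 0 ≤ py) (hE : 1 ≤ Ex) (hEy : Ex ≤ Ey) (hs : Ey - Ex ≤ D * s)
    (hlead : sinh t * c * (px + py) - cosh t * (px - py) = 2 * L)
    (hpd : 2 * sinh t * T ≤ px - py)
    (hB : py * (sinh t * c + cosh t) ≤ B) (hB0 : 0 ≤ B) (hU : U ≤ R) :
    4 * sinh t * c * (px * Ex + py * Ey) - 4 * cosh t * (px * Ex - py * Ey) -
      2 * sinh t * (1 - e) * D * (px * Ex - py * Ey) + U ≤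
    8 * Ex * L + (R - 2 * sinh t * (1 - e) * D * (2 * sinh t * T) +
      (4 * B + 2 * (py * sinh t) * D) * (D * s)) := by
  have hS := sinh_pos_iff.2 ht
  have hEp := E_part (c := c) (px := px) ht he he1 hpy hD hEy
  rw [hlead] at hEp
  have a1 : 2 * sinh t * T ≤ (px - py) * Ex :=
    hpd.trans (le_mul_of_one_le_right (le_trans (by positivity) hpd) hE)
  have a2 := mul_le_mul_of_nonneg_left a1
    (show 0 ≤ 2 * sinh t * (1 - e) * D by
      have : 0 ≤ 1 - e := by linarith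
      positivity)
  have a3 : (4 * (py * (sinh t * c + cosh t)) + 2 * (py * sinh t) * D) * (Ey - Ex) ≤
      (4 * B + 2 * (py * sinh t) * D) * (D * s) :=
    mul_le_mul (by linarith) hs (sub_nonneg.2 hEy) (by positivity)
  linarith

/-- The normalised bound. -/
lemma rest_le (h : Small dl) {t ep T Ex Ey qx qy u v Xa Ya s : ℝ} (ht : 0 < t)
    (hep : bExp dl - 1 = ep) (hTd : exp (ep * t) = T)
    (hq : qy ≤ qx) (hqy : 0 ≤ qy) (hE : 1 ≤ Ex) (hEy : Ex ≤ Ey)
    (hs : Ey - Ex ≤ (qx - qy) * s) (hu : 0 ≤ u) (hv : 0 ≤ v)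
    (hP : 0 ≤ exp (-t) * v - exp t * u)
    (hde : (Xa - exp t * T * u) - (Ya - T * exp (-t) * v) ≤
      15 * dl * (T * (exp (-t) * v - exp t * u))) :
    restN dl t (dl * tanh t ^ 2) (exp t * T) (exp (-t) / T) Ex Ey qx qy
        (exp t * T * u) (T * exp (-t) * v) Xa Ya ≤
      8 * Ex * (ep * (tanh t * cosh (ep * t) + tanh t ^ 2 * sinh (ep * t)) - sinh (ep * t)) +
      T * (-2 * (qx - qy) * (D0 t u v / 2 -
        errT t u v (dl * tanh t ^ 2) (ep * (exp (-t) * sinh t))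
          (exp (-t) * sinh t * (qx - qy)) (17 * dl + 3 / 2 * qy + qx / 2) (T ^ 2) s)) +
      4 * dl * (dl * tanh t ^ 2) * sinh t * (qx * Xa + qy * Ya) := by
  obtain ⟨hep0, -, -, hlead, hpd, hpy⟩ := coef_facts h ht
  rw [hep] at hep0
  rw [hep, hTd] at hlead hpd hpy
  have hT : 0 < T := hTd ▸ exp_pos _
  have he : 0 ≤ dl * tanh t ^ 2 := mul_nonneg h.1.le (sq_nonneg _)
  have he1 : dl * tanh t ^ 2 ≤ dl := mul_le_of_le_one_right h.1.le (tanh_sq_lt_one t).le
  have hU := u_part he he1 h.2 ht hT hqy hq hu hP hde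
  have hS := sinh_pos_iff.2 ht
  have key := parts_combine ht (sub_nonneg.2 hq) he (he1.trans (by linarith [h.2])) hT
    (by positivity) hE hEy hs hlead hpd hpy (by positivity) hU
  rw [err_expand hT.ne' hu hv, restN]
  linarith

lemma zeta_le (h0 : 0 ≤ dl) (h1 : dl ≤ 1) {u : ℝ} (hu : 0 < u) :
    (4 * u) ^ dl ≤ 4 * (1 + u) :=
  calc (4 * u) ^ dl ≤ (4 * (1 + u)) ^ dl := rpow_le_rpow (by positivity) (by linarith) h0
    _ ≤ (4 * (1 + u)) ^ (1:ℝ) := rpow_le_rpow_of_exponent_le (by linarith) h1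
    _ = _ := rpow_one _

end Vale.Agent.P371.Leg
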