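import Vale.Agent.P371.Leg.Kernel

/-!
# P371: bounds on the two kernels
-/

namespace Vale.Agent.P371.Leg

open Real

variable {dl x y c : ℝ}

lemma Gk_pos (hx : 0 < x) (hy : 0 < y) : 0 < Gk x y := by rw [Gk]; positivity

lemma DGk_neg (hx : 0 < x) (hy : 0 < y) (hc : 0 < c) : DGk x y c < 0 := by
  have := mul_pos (Gk_pos hx hc) (Gk_pos hy hc)
  rw [DGk]; linarith

/-- The cubic in the divided difference of the correction. -/
lemma poly_bound (hx : 0 < x) (hy : 0 < y) (hc : 0 < c) :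
    |c * (c ^ 3 - x * y * (x + y) - 3 * c * x * y)| ≤ 3 * ((x + c) ^ 2 * (y + c) ^ 2) ∧
    (y ≤ x → |y * (c ^ 3 - x * y * (x + y) - 3 * c * x * y)| ≤
      3 * ((x + c) ^ 2 * (y + c) ^ 2)) := by
  have a1 : 0 < c * x := mul_pos hc hx
  have a2 : 0 < c * y := mul_pos hc hy
  have a3 : 0 < x * y := mul_pos hx hy
  have a4 : ∀ {w : ℝ}, y ≤ x → 0 ≤ w → y * w ≤ x * w := fun h hw => mul_le_mul_of_nonneg_right h hw
  refine ⟨?_, fun hyx => ?_⟩
  · rw [abs_le]; constructor <;>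
    nlinarith [mul_pos a1 a1, mul_pos a2 a2, mul_pos a3 a3, mul_pos a1 a2, mul_pos a1 a3,
      mul_pos a2 a3, pow_pos hc 4, mul_pos (pow_pos hc 3) hx, mul_pos (pow_pos hc 3) hy,
      mul_pos (mul_pos a1 hy) hc,
      mul_pos (mul_pos a3 hc) hy]
  · rw [abs_le]; constructor <;>
    nlinarith [mul_pos a1 a1, mul_pos a2 a2, mul_pos a3 a3, mul_pos a1 a2, mul_pos a1 a3,
      mul_pos a2 a3, pow_pos hc 4, mul_pos (pow_pos hc 3) hx, mul_pos (pow_pos hc 3) hy,
      a4 hyx (mul_pos a3 hy).le, a4 hyx (mul_pos (mul_pos a3 hc) one_pos).le]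

lemma DHk_split (dl x y c : ℝ) : DHk dl x y c = DGk x y c - dl * (DGk x y c -
    2 * c * (c ^ 3 - x * y * (x + y) - 3 * c * x * y) / ((x + c) ^ 3 * (y + c) ^ 3)) := by
  rw [DHk]; ring

lemma DHk_close (h0 : 0 ≤ dl) (hx : 0 < x) (hy : 0 < y) (hc : 0 < c) :
    |DHk dl x y c - DGk x y c| ≤ 13 * dl * -DGk x y c := by
  have hG : -DGk x y c = 1 / (2 * ((x + c) * (y + c))) := by
    rw [DGk, Gk, Gk]; field_simp
  have h2 : |2 * c * (c ^ 3 - x * y * (x + y) - 3 * c * x * y) / ((x + c) ^ 3 * (y + c) ^ 3)| ≤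
      12 * -DGk x y c := by
    rw [abs_div, abs_of_pos (show 0 < (x + c) ^ 3 * (y + c) ^ 3 by positivity), hG,
      div_le_iff₀ (by positivity), mul_assoc 2 c, abs_mul, abs_two]
    have e : 12 * (1 / (2 * ((x + c) * (y + c)))) * ((x + c) ^ 3 * (y + c) ^ 3) =
        6 * ((x + c) ^ 2 * (y + c) ^ 2) := by field_simp; ring
    rw [e]
    linarith [(poly_bound hx hy hc).1]
  have hneg := DGk_neg hx hy hc
  rw [DHk_split, sub_sub_cancel_left, abs_neg, abs_mul, abs_of_nonneg h0]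
  calc dl * |DGk x y c - _| ≤ dl * (|DGk x y c| + 12 * -DGk x y c) :=
        mul_le_mul_of_nonneg_left ((abs_sub _ _).trans (by linarith)) h0
    _ = _ := by rw [abs_of_neg hneg]; ring

lemma DHk_neg (h0 : 0 ≤ dl) (hx : 0 < x) (hy : 0 < y) (hc : 0 < c) :
    DHk dl x y c ≤ (1 - 13 * dl) * DGk x y c := by
  linarith [(abs_le.1 (DHk_close h0 hx hy hc)).2]

/-- `g ↦ g Hk g c` is monotone. -/
lemma mul_Hk_mono (h0 : 0 ≤ dl) (h1 : dl ≤ 1 / 100) (hy : 0 < y) (hc : 0 < c) (hxy : y ≤ x) :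
    y * Hk dl y c ≤ x * Hk dl x c := by
  have hx := hy.trans_le hxy
  have e : x * Hk dl x c - y * Hk dl y c = (x - y) * (Hk dl x c + y * DHk dl x y c) := by
    linear_combination y * Hk_sub dl hx hy hc
  have key : 0 ≤ Hk dl x c + y * DHk dl x y c := by
    have h2 := (poly_bound hx hy hc).2 hxy
    have e1 : Hk dl x c + y * DHk dl x y c = (1 - dl) * (c / (2 * ((x + c) * (y + c)))) +
        2 * dl * c * (x * (y + c) ^ 3 + y * (c ^ 3 - x * y * (x + y) - 3 * c * x * y)) /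
          ((x + c) ^ 3 * (y + c) ^ 3) := by
      rw [Hk, DHk, DGk, Gk, Gk]; field_simp; ring
    have h3 : -(2 * dl * c * (3 * ((x + c) ^ 2 * (y + c) ^ 2))) / ((x + c) ^ 3 * (y + c) ^ 3) ≤
        2 * dl * c * (x * (y + c) ^ 3 + y * (c ^ 3 - x * y * (x + y) - 3 * c * x * y)) /
          ((x + c) ^ 3 * (y + c) ^ 3) := by
      refine div_le_div_of_nonneg_right ?_ (by positivity)
      rw [← mul_neg]
      exact mul_le_mul_of_nonneg_left (by
        linarith [(abs_le.1 h2).1, show 0 ≤ x * (y + c) ^ 3 by positivity]) (by positivity)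
    have e2 : -(2 * dl * c * (3 * ((x + c) ^ 2 * (y + c) ^ 2))) / ((x + c) ^ 3 * (y + c) ^ 3) =
        -(12 * dl) * (c / (2 * ((x + c) * (y + c)))) := by field_simp; ring
    have h4 : 0 ≤ (1 - 13 * dl) * (c / (2 * ((x + c) * (y + c)))) :=
      mul_nonneg (by linarith) (by positivity)
    rw [e2] at h3
    linarith
  nlinarith [mul_nonneg (sub_nonneg.2 hxy) key]

/-- `(DGk - DHk)/dl`. -/
noncomputable def De (x y c : ℝ) : ℝ :=
  -(((x + c) ^ 2 * (y + c) ^ 2 + 4 * c * (c ^ 3 - x * y * (x + y) - 3 * c * x * y)) /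
    (2 * ((x + c) ^ 3 * (y + c) ^ 3)))

lemma De_eq (hx : 0 < x) (hy : 0 < y) (hc : 0 < c) :
    DGk x y c - DHk dl x y c = dl * De x y c := by
  rw [DHk, DGk, Gk, Gk, De]; field_simp; ring

lemma De_comm (x y c : ℝ) : De x y c = De y x c := by rw [De, De]; ring

/-- The three elementary cases of the ordered cyclic inequality. -/
lemma De_cases {x y z : ℝ} (hx : 0 < x) (hxy : x ≤ y) (hyz : y ≤ z) :
    De x y z + De y z x + De x z y ≤ 0 ∧ 2 * De x y z + De y z x + De x z y ≤ 0 ∧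
      3 * De x y z + 2 * De y z x + 3 * De x z y ≤ 0 := by
  have hy := hx.trans_le hxy
  have hz := hy.trans_le hyz
  have key : ∀ w1 w2 w3 : ℝ,
      0 ≤ w1 * (((x + z) ^ 2 * (y + z) ^ 2 + 4 * z * (z ^ 3 - x * y * (x + y) - 3 * z * x * y)) *
          (x + y) ^ 3) +
        w2 * (((y + x) ^ 2 * (z + x) ^ 2 + 4 * x * (x ^ 3 - y * z * (y + z) - 3 * x * y * z)) *
          (y + z) ^ 3) +
        w3 * (((x + y) ^ 2 * (z + y) ^ 2 + 4 * y * (y ^ 3 - x * z * (x + z) - 3 * y * x * z)) *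
          (x + z) ^ 3) →
      w1 * De x y z + w2 * De y z x + w3 * De x z y ≤ 0 := by
    intro w1 w2 w3 hw
    have e : w1 * De x y z + w2 * De y z x + w3 * De x z y =
      -(w1 * (((x + z) ^ 2 * (y + z) ^ 2 + 4 * z * (z ^ 3 - x * y * (x + y) - 3 * z * x * y)) *
          (x + y) ^ 3) +
        w2 * (((y + x) ^ 2 * (z + x) ^ 2 + 4 * x * (x ^ 3 - y * z * (y + z) - 3 * x * y * z)) *
          (y + z) ^ 3) +
        w3 * (((x + y) ^ 2 * (z + y) ^ 2 + 4 * y * (y ^ 3 - x * z * (x + z) - 3 * y * x * z)) *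
          (x + z) ^ 3)) / (2 * ((x + y) ^ 3 * (x + z) ^ 3 * (y + z) ^ 3)) := by
      unfold De
      rw [show y + x = x + y by ring, show z + x = x + z by ring, show z + y = y + z by ring]
      field_simp
      ring
    rw [e]
    exact div_nonpos_of_nonpos_of_nonneg (by linarith) (by positivity)
  obtain ⟨b, hb, rfl⟩ : ∃ b, 0 ≤ b ∧ y = x + b := ⟨y - x, by linarith, by ring⟩
  obtain ⟨c, hc, rfl⟩ : ∃ c, 0 ≤ c ∧ z = x + b + c := ⟨z - (x + b), by linarith, by ring⟩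
  refine ⟨?_, ?_, ?_⟩
  · have := key 1 1 1 (by ring_nf; positivity)
    linarith
  · have := key 2 1 1 (by ring_nf; positivity)
    linarith
  · have := key 3 2 3 (by ring_nf; positivity)
    linarith

/-- The symmetric cubic form of one triple. -/
noncomputable def cyc (x y z qx qy qz : ℝ) : ℝ :=
  ((qx + qy) / 2 + qz) * De x y z + ((qy + qz) / 2 + qx) * De y z x +
    ((qx + qz) / 2 + qy) * De x z y

lemma cyc_sorted {x y z qx qy qz : ℝ} (hx : 0 < x) (hxy : x ≤ y) (hyz : y ≤ z)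
    (h0 : 0 ≤ qx) (h1 : qx ≤ qy) (h2 : qy ≤ qz) : cyc x y z qx qy qz ≤ 0 := by
  obtain ⟨a1, a2, a3⟩ := De_cases hx hxy hyz
  have e : cyc x y z qx qy qz = 2 * qx * (De x y z + De y z x + De x z y) +
      (qy - qx) / 2 * (3 * De x y z + 2 * De y z x + 3 * De x z y) +
      (qz - qy) / 2 * (2 * De x y z + De y z x + De x z y) := by
    unfold cyc; ring
  rw [e]
  have b1 := mul_nonpos_of_nonneg_of_nonpos (show 0 ≤ 2 * qx by linarith) a1
  have b2 := mul_nonpos_of_nonneg_of_nonpos (show 0 ≤ (qy - qx) / 2 by linarith) a3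
  have b3 := mul_nonpos_of_nonneg_of_nonpos (show 0 ≤ (qz - qy) / 2 by linarith) a2
  linarith

lemma cyc_nonpos {ι : Type*} (g q : ι → ℝ) (hg : ∀ i, 0 < g i) (hq : ∀ i, 0 ≤ q i)
    (hmono : ∀ i j, g i ≤ g j → q i ≤ q j) (i j k : ι) :
    cyc (g i) (g j) (g k) (q i) (q j) (q k) ≤ 0 := by
  have base : ∀ i j k, g i ≤ g j → g j ≤ g k →
      cyc (g i) (g j) (g k) (q i) (q j) (q k) ≤ 0 := fun i j k h1 h2 =>
    cyc_sorted (hg i) h1 h2 (hq i) (hmono _ _ h1) (hmono _ _ h2)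
  have p1 : ∀ a b c, cyc (g a) (g b) (g c) (q a) (q b) (q c) =
      cyc (g b) (g a) (g c) (q b) (q a) (q c) := fun a b c => by
    unfold cyc; rw [De_comm (g b) (g a)]; ring
  have p2 : ∀ a b c, cyc (g a) (g b) (g c) (q a) (q b) (q c) =
      cyc (g a) (g c) (g b) (q a) (q c) (q b) := fun a b c => by
    unfold cyc; rw [De_comm (g c) (g b)]; ring
  rcases le_total (g i) (g j) with a | a <;> rcases le_total (g j) (g k) with b | b <;>
    rcases le_total (g i) (g k) with c | c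
  · exact base _ _ _ a b
  · exact base _ _ _ a b
  · rw [p2]; exact base _ _ _ c b
  · rw [p2, p1]; exact base _ _ _ c a
  · rw [p1]; exact base _ _ _ a c
  · rw [p1, p2]; exact base _ _ _ b c
  · rw [p2, p1, p2]; exact base _ _ _ b a
  · rw [p2, p1, p2]; exact base _ _ _ b a

end Vale.Agent.P371.Leg
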