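import Vale.Agent.P371.Leg.Profile
import Vale.Agent.P371.Leg.PairKernel

/-!
# P371: reduction of the pointwise inequality to pairs
-/

namespace Vale.Agent.P371.Leg

open Real Finset

variable {dl : ℝ} {E Q : ℝ → ℝ}

/-- The Jensen part of a pair. -/
noncomputable def jens (dl x y Ax Ay : ℝ) : ℝ :=
  Kc dl * ((Hk dl x y * (1 / Ax + 1 / Ay) / 2) ^ (-dl) -
    2 * Hk dl x y * (x * (4 * x * Ax) ^ dl + y * (4 * y * Ay) ^ dl))

/-- The pair form, symmetric in the two points. -/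
noncomputable def pairForm (dl x y Ax Ay ax ay Ex Ey qx qy : ℝ) : ℝ :=
  jens dl x y Ax Ay +
    2 * (bExp dl * Gk x y - kExp dl * (Gk x y - Hk dl x y)) *
      (x ^ bExp dl * Ex + y ^ bExp dl * Ey) -
    dslope (fun t : ℝ => t ^ bExp dl) x y * ((Ex + Ey) / 2) -
    (x ^ bExp dl + y ^ bExp dl) / 2 * ((Ex - Ey) / (x - y)) -
    (Ax + Ay) / 2 * ((qx - qy) / (x - y)) -
    Hk dl x y * (qx - qy) * (x ^ bExp dl * Ex - y ^ bExp dl * Ey) +
    Hk dl x y * (qx - qy) * ((1 - 2 * qx) * Ax - (1 - 2 * qy) * Ay) -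
    (Gk x y - Hk dl x y) * (qx - qy) * (Ax - Ay) +
    (Hk dl x y - (Gk x y - Hk dl x y)) * (qx - qy) * ((ax - Ax) - (ay - Ay)) +
    (Ax + Ay) / 2 * Hk dl x y * (qx - qy) ^ 2 +
    2 * dl * (Gk x y - Hk dl x y) * (qx * ax + qy * ay)

lemma sum_comm_avg {N : ℕ} (f : Fin N → Fin N → ℝ) :
    ∑ i, ∑ j, f i j = ∑ i, ∑ j, (f i j + f j i) / 2 := by
  simp only [add_div, sum_add_distrib]
  rw [Finset.sum_comm (f := fun i j => f j i / 2), ← sum_add_distrib]
  refine sum_congr rfl fun i _ => ?_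
  rw [← sum_add_distrib]
  exact sum_congr rfl fun j _ => by ring

lemma dslope_swap (f : ℝ → ℝ) (x y : ℝ) : dslope f x y = dslope f y x := by
  rcases eq_or_ne y x with rfl | hne
  · rfl
  · rw [dslope_of_ne f hne, dslope_of_ne f hne.symm, slope_comm]

lemma G_sub_H {x y : ℝ} (hx : 0 < x) (hy : 0 < y) :
    Gk x y - Hk dl x y = dl * ((x - y) ^ 2 / (2 * (x + y) ^ 3)) := by
  have : x + y ≠ 0 := (add_pos hx hy).ne'
  rw [Hk, Gk]; field_simp; ring

lemma Hk_ge (h : Small dl) {x y : ℝ} (hx : 0 < x) (hy : 0 < y) :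
    (1 - dl) * Gk x y ≤ Hk dl x y := by
  have := h.1
  rw [Hk]
  exact le_add_of_nonneg_right (by positivity)

lemma Hk_pos (h : Small dl) {x y : ℝ} (hx : 0 < x) (hy : 0 < y) : 0 < Hk dl x y :=
  lt_of_lt_of_le (mul_pos (by linarith [h.2]) (Gk_pos hx hy)) (Hk_ge h hx hy)

namespace Point

variable {N : ℕ} (P : Point N)

/-- `a - A`. -/
noncomputable def ev (dl : ℝ) (i : Fin N) : ℝ := P.av i - P.Av dl i

/-- The weighted difference of `q`. -/
noncomputable def Dv (dl : ℝ) (Q : ℝ → ℝ) (i : Fin N) : ℝ :=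
  ∑ c, P.p c * ((P.qv dl Q i - P.qv dl Q c) * Hk dl (P.g i) (P.g c))

/-- The weighted difference of `q` against `G - H`. -/
noncomputable def Cv (dl : ℝ) (Q : ℝ → ℝ) (i : Fin N) : ℝ :=
  ∑ c, P.p c * ((P.qv dl Q i - P.qv dl Q c) * (Gk (P.g i) (P.g c) - Hk dl (P.g i) (P.g c)))

lemma fv_eq (i : Fin N) : P.fv dl E Q i = -(P.eps dl i * P.Ev dl E i) +
    2 * (1 - P.qv dl Q i) * P.Av dl i + 2 * P.ev dl i + P.Dv dl Q i := by
  have : ∑ c, P.p c * P.qv dl Q c * Hk dl (P.g i) (P.g c) =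
      P.qv dl Q i * P.Av dl i - P.Dv dl Q i := by
    rw [Dv, Av, mul_sum, ← sum_sub_distrib]
    exact sum_congr rfl fun c _ => by ring
  rw [fv, this, ev]
  ring

lemma Av_pos (h : Small dl) (hr : 0 < P.rho) (i : Fin N) : 0 < P.Av dl i := by
  obtain ⟨c, hc⟩ : ∃ c, 0 < P.p c := by
    by_contra hh
    push Not at hh
    exact not_lt.2 (Finset.sum_nonpos fun c _ => hh c) hr
  exact sum_pos' (fun c _ => mul_nonneg (P.hp c) (Hk_pos h (P.hg i) (P.hg c)).le)
    ⟨c, mem_univ c, mul_pos hc (Hk_pos h (P.hg i) (P.hg c))⟩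

lemma Av_anti (h : Small dl) {i j : Fin N} (hij : P.g j ≤ P.g i) : P.Av dl i ≤ P.Av dl j := by
  refine sum_le_sum fun c _ => mul_le_mul_of_nonneg_left ?_ (P.hp c)
  have e := Hk_sub dl (P.hg i) (P.hg j) (P.hg c)
  have := mul_nonpos_of_nonpos_of_nonneg (((DHk_neg h.1.le (P.hg i) (P.hg j) (P.hg c)).trans
    (mul_nonpos_of_nonneg_of_nonpos (by linarith [h.2]) (DGk_neg (P.hg i) (P.hg j) (P.hg c)).le)))
    (sub_nonneg.2 hij)
  linarith

lemma gAv_mono (h : Small dl) {i j : Fin N} (hij : P.g j ≤ P.g i) :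
    P.g j * P.Av dl j ≤ P.g i * P.Av dl i := by
  rw [Av, Av, mul_sum, mul_sum]
  refine sum_le_sum fun c _ => ?_
  rw [mul_left_comm, mul_left_comm (P.g i)]
  exact mul_le_mul_of_nonneg_left (mul_Hk_mono h.1.le h.2 (P.hg j) (P.hg c) hij) (P.hp c)

lemma ev_le (h : Small dl) (i : Fin N) : 0 ≤ P.ev dl i ∧ P.ev dl i ≤ dl * P.av i ∧
    (1 - dl) * P.av i ≤ P.Av dl i := by
  have e : P.ev dl i = ∑ c, P.p c * (Gk (P.g i) (P.g c) - Hk dl (P.g i) (P.g c)) := by
    simp only [ev, av, Av, mul_sub, sum_sub_distrib]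
  have h1 : (1 - dl) * P.av i ≤ P.Av dl i := by
    rw [av, Av, mul_sum]
    refine sum_le_sum fun c _ => ?_
    rw [mul_left_comm]
    exact mul_le_mul_of_nonneg_left (Hk_ge h (P.hg i) (P.hg c)) (P.hp c)
  refine ⟨?_, by unfold ev; linarith, h1⟩
  rw [e]
  refine sum_nonneg fun c _ => mul_nonneg (P.hp c) ?_
  rw [G_sub_H (P.hg i) (P.hg c)]
  have := P.hg i; have := P.hg c; have := h.1
  positivity

lemma abs_ev_sub_le (h : Small dl) {i j : Fin N} (hij : P.g j ≤ P.g i) :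
    |P.ev dl i - P.ev dl j| ≤ 15 * dl * (P.Av dl j - P.Av dl i) := by
  rw [show P.Av dl j - P.Av dl i = ∑ c, P.p c *
      (Hk dl (P.g j) (P.g c) - Hk dl (P.g i) (P.g c)) by
    simp only [Av, mul_sub, sum_sub_distrib]]
  rw [show P.ev dl i - P.ev dl j = ∑ c, P.p c * ((Gk (P.g i) (P.g c) - Hk dl (P.g i) (P.g c)) -
      (Gk (P.g j) (P.g c) - Hk dl (P.g j) (P.g c))) by
    simp only [ev, av, Av, mul_sub, sum_sub_distrib]]
  rw [mul_sum]
  refine (abs_sum_le_sum_abs _ _).trans (sum_le_sum fun c _ => ?_)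
  rw [abs_mul, abs_of_nonneg (P.hp c), mul_left_comm]
  refine mul_le_mul_of_nonneg_left ?_ (P.hp c)
  have hG := Gk_sub (P.hg i) (P.hg j) (P.hg c)
  have hH := Hk_sub dl (P.hg i) (P.hg j) (P.hg c)
  have hc := DHk_close h.1.le (P.hg i) (P.hg j) (P.hg c)
  have hn := DHk_neg (c := P.g c) h.1.le (P.hg i) (P.hg j) (P.hg c)
  have hd := DGk_neg (P.hg i) (P.hg j) (P.hg c)
  set d := P.g i - P.g j
  have hd0 : 0 ≤ d := sub_nonneg.2 hij
  have e : (Gk (P.g i) (P.g c) - Hk dl (P.g i) (P.g c)) -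
      (Gk (P.g j) (P.g c) - Hk dl (P.g j) (P.g c)) =
      -((DHk dl (P.g i) (P.g j) (P.g c) - DGk (P.g i) (P.g j) (P.g c)) * d) := by linarith
  rw [e, abs_neg, abs_mul, abs_of_nonneg hd0]
  calc _ ≤ 13 * dl * -DGk (P.g i) (P.g j) (P.g c) * d := mul_le_mul_of_nonneg_right hc hd0
    _ ≤ 15 * dl * -DHk dl (P.g i) (P.g j) (P.g c) * d := by
        refine mul_le_mul_of_nonneg_right ?_ hd0
        rw [mul_assoc, mul_assoc, mul_left_comm 13, mul_left_comm 15]
        refine mul_le_mul_of_nonneg_left ?_ h.1.le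
        nlinarith [h.2]
    _ = _ := by linear_combination (15 * dl) * hH

lemma qv_mono (h : Small dl) (hr : 0 < P.rho) (hP : IsProfile dl E Q) {i j : Fin N}
    (hij : P.g i ≤ P.g j) : P.qv dl Q i ≤ P.qv dl Q j := by
  have he : 0 < P.eps dl i := rpow_pos_of_pos (P.hg i) _
  refine hP.anti (Set.mem_Ici.2 (div_nonneg (P.Av_pos h hr j).le
    (rpow_nonneg (P.hg j).le _))) (Set.mem_Ici.2 (div_nonneg (P.Av_pos h hr i).le he.le)) ?_
  exact div_le_div₀ (P.Av_pos h hr i).le (P.Av_anti h hij) he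
    (rpow_le_rpow (P.hg i).le hij (by linarith [h.one_lt_b]))

lemma qv_nonneg (h : Small dl) (hr : 0 < P.rho) (hP : IsProfile dl E Q) (i : Fin N) :
    0 ≤ P.qv dl Q i :=
  (hP.q_mem _ (div_nonneg (P.Av_pos h hr i).le (rpow_nonneg (P.hg i).le _))).1

lemma cubic_le (h : Small dl) (hr : 0 < P.rho) (hP : IsProfile dl E Q) :
    ∑ i, ∑ j, ∑ c, P.p i * P.p j * P.p c * (((P.qv dl Q i + P.qv dl Q j) / 2 + P.qv dl Q c) *
      (DGk (P.g i) (P.g j) (P.g c) - DHk dl (P.g i) (P.g j) (P.g c))) ≤ 0 := by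
  set F : Fin N → Fin N → Fin N → ℝ := fun i j c => P.p i * P.p j * P.p c *
    (((P.qv dl Q i + P.qv dl Q j) / 2 + P.qv dl Q c) * De (P.g i) (P.g j) (P.g c))
  have h1 : ∑ i, ∑ j, ∑ c, F i j c = ∑ i, ∑ j, ∑ c, F j c i := by
    symm
    rw [Finset.sum_comm]
    exact sum_congr rfl fun j _ => Finset.sum_comm
  have h2 : ∑ i, ∑ j, ∑ c, F i j c = ∑ i, ∑ j, ∑ c, F i c j :=
    sum_congr rfl fun i _ => Finset.sum_comm
  have h3 : 3 * ∑ i, ∑ j, ∑ c, F i j c ≤ 0 := by
    have e : 3 * ∑ i, ∑ j, ∑ c, F i j c = ∑ i, ∑ j, ∑ c, (F i j c + F j c i + F i c j) := by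
      simp only [sum_add_distrib]; rw [← h1, ← h2]; ring
    rw [e]
    refine sum_nonpos fun i _ => sum_nonpos fun j _ => sum_nonpos fun c _ => ?_
    have := mul_nonpos_of_nonneg_of_nonpos
      (mul_nonneg (mul_nonneg (P.hp i) (P.hp j)) (P.hp c))
      (cyc_nonpos P.g (P.qv dl Q) P.hg (P.qv_nonneg h hr hP)
        (fun a b hab => P.qv_mono h hr hP hab) i j c)
    unfold cyc at this
    simp only [F]
    linarith
  have e : ∀ i j c, P.p i * P.p j * P.p c * (((P.qv dl Q i + P.qv dl Q j) / 2 + P.qv dl Q c) *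
      (DGk (P.g i) (P.g j) (P.g c) - DHk dl (P.g i) (P.g j) (P.g c))) = dl * F i j c := by
    intro i j c
    rw [De_eq (P.hg i) (P.hg j) (P.hg c)]
    simp only [F]; ring
  simp only [e, ← mul_sum]
  exact mul_nonpos_of_nonneg_of_nonpos h.1.le (by linarith)

lemma cubic_G :
    ∑ i, ∑ j, ∑ c, P.p i * P.p j * P.p c * ((2 - ((P.qv dl Q i + P.qv dl Q j) / 2 + P.qv dl Q c)) *
      DGk (P.g i) (P.g j) (P.g c)) =
    ∑ c, P.p c * (-4 * (1 - P.qv dl Q c) * P.av c ^ 2 -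
      2 * P.av c * (P.Dv dl Q c + P.Cv dl Q c)) := by
  have hD : ∀ c, P.Dv dl Q c + P.Cv dl Q c =
      P.qv dl Q c * P.av c - ∑ j, P.p j * P.qv dl Q j * Gk (P.g j) (P.g c) := fun c => by
    rw [Dv, Cv, av, ← sum_add_distrib, mul_sum, ← sum_sub_distrib]
    exact sum_congr rfl fun j _ => by rw [Gk_comm (P.g j) (P.g c)]; ring
  rw [Finset.sum_comm]
  have : ∀ i, ∑ j, ∑ c, P.p i * P.p j * P.p c *
      ((2 - ((P.qv dl Q j + P.qv dl Q i) / 2 + P.qv dl Q c)) * DGk (P.g j) (P.g i) (P.g c)) =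
      ∑ c, ∑ j, P.p i * P.p j * P.p c *
      ((2 - ((P.qv dl Q j + P.qv dl Q i) / 2 + P.qv dl Q c)) * DGk (P.g j) (P.g i) (P.g c)) :=
    fun i => Finset.sum_comm
  calc _ = ∑ i, ∑ c, ∑ j, P.p i * P.p j * P.p c *
        ((2 - ((P.qv dl Q j + P.qv dl Q i) / 2 + P.qv dl Q c)) * DGk (P.g j) (P.g i) (P.g c)) := by
        refine sum_congr rfl fun i _ => ?_
        rw [← this]
        exact sum_congr rfl fun j _ => sum_congr rfl fun c _ => by ring
    _ = _ := by
      rw [Finset.sum_comm]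
      refine sum_congr rfl fun c _ => ?_
      have ha : ∑ j, P.p j * Gk (P.g j) (P.g c) = P.av c :=
        sum_congr rfl fun j _ => by rw [Gk_comm (P.g j)]
      set s := ∑ j, P.p j * P.qv dl Q j * Gk (P.g j) (P.g c) with hs
      calc ∑ i, ∑ j, P.p i * P.p j * P.p c *
            ((2 - ((P.qv dl Q j + P.qv dl Q i) / 2 + P.qv dl Q c)) *
              DGk (P.g j) (P.g i) (P.g c))
          = ∑ i, P.p c * P.p i * Gk (P.g i) (P.g c) *
              (-2 * (2 - P.qv dl Q c - P.qv dl Q i / 2) * P.av c + s) := by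
            refine sum_congr rfl fun i _ => ?_
            rw [mul_add, ← ha, hs, mul_sum, mul_sum, mul_sum, ← sum_add_distrib]
            exact sum_congr rfl fun j _ => by rw [DGk]; ring
        _ = P.p c * (-2 * (2 - P.qv dl Q c) * P.av c ^ 2 + 2 * P.av c * s) := by
            have : ∀ i, P.p c * P.p i * Gk (P.g i) (P.g c) *
                (-2 * (2 - P.qv dl Q c - P.qv dl Q i / 2) * P.av c + s) =
                P.p c * (-2 * (2 - P.qv dl Q c) * P.av c + s) * (P.p i * Gk (P.g i) (P.g c)) +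
                P.p c * P.av c * (P.p i * P.qv dl Q i * Gk (P.g i) (P.g c)) := fun i => by ring
            rw [sum_congr rfl fun i _ => this i, sum_add_distrib, ← mul_sum, ← mul_sum, ha, ← hs]
            ring
        _ = _ := by rw [hD c, ← hs]; ring

lemma jens_sum (h : Small dl) (hr : 0 < P.rho) :
    Kc dl * (P.rho ^ (1 + aExp dl) - ∑ i, P.p i * (4 * P.g i * P.Av dl i) ^ aExp dl) ≤
      ∑ i, ∑ j, P.p i * P.p j * jens dl (P.g i) (P.g j) (P.Av dl i) (P.Av dl j) := by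
  set S : Fin N → Fin N → ℝ := fun i j =>
    Hk dl (P.g i) (P.g j) * (1 / P.Av dl i + 1 / P.Av dl j) / 2
  have hA : ∀ i, 0 < P.Av dl i := P.Av_pos h hr
  have hS : ∀ i j, 0 < S i j := fun i j => by
    have := Hk_pos h (P.hg i) (P.hg j); have := hA i; have := hA j
    positivity
  have hsym : ∀ f : Fin N → ℝ, ∑ i, ∑ j, P.p i * P.p j * (Hk dl (P.g i) (P.g j) * f j) =
      ∑ i, ∑ j, P.p i * P.p j * (Hk dl (P.g i) (P.g j) * f i) := fun f => by
    rw [Finset.sum_comm]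
    exact sum_congr rfl fun i _ => sum_congr rfl fun j _ => by
      rw [Hk_comm dl (P.g j)]; ring
  have hrow : ∀ f : Fin N → ℝ, ∑ i, ∑ j, P.p i * P.p j * (Hk dl (P.g i) (P.g j) * f i) =
      ∑ i, P.p i * f i * P.Av dl i := fun f => by
    refine sum_congr rfl fun i _ => ?_
    rw [Av, mul_sum]
    exact sum_congr rfl fun j _ => by ring
  have hS1 : ∑ i, ∑ j, P.p i * P.p j * S i j = P.rho := by
    have : ∀ i j, P.p i * P.p j * S i j =
        P.p i * P.p j * (Hk dl (P.g i) (P.g j) * (1 / (2 * P.Av dl i))) +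
        P.p i * P.p j * (Hk dl (P.g i) (P.g j) * (1 / (2 * P.Av dl j))) := fun i j => by
      simp only [S]; ring
    simp only [this, sum_add_distrib]
    rw [hsym (fun j => 1 / (2 * P.Av dl j)), hrow, rho, ← sum_add_distrib]
    exact sum_congr rfl fun i _ => by
      have := (hA i).ne'
      field_simp
      ring
  have hS0 : ∑ i, ∑ j, P.p i * P.p j = P.rho ^ 2 := by
    rw [sq, rho, sum_mul]
    simp only [mul_sum]
  set r := P.rho
  have hm : 0 < 1 / r := by positivity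
  have tangent : ∀ i j, r ^ dl * (1 + dl - dl * (S i j * r)) ≤ S i j ^ (-dl) := by
    intro i j
    have hs := hS i j
    have hlog := log_le_sub_one_of_pos (mul_pos hs hr)
    have h1 : 1 + -(dl * log (S i j * r)) ≤ (S i j * r) ^ (-dl) := by
      rw [rpow_def_of_pos (mul_pos hs hr)]
      linarith [add_one_le_exp (log (S i j * r) * -dl)]
    rw [mul_rpow hs.le hr.le, rpow_neg hr.le, ← div_eq_mul_inv,
      le_div_iff₀ (rpow_pos_of_pos hr _)] at h1
    have h2 := mul_le_mul_of_nonneg_left hlog h.1.le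
    have h3 : 0 ≤ r ^ dl := rpow_nonneg hr.le _
    nlinarith
  have hmain : r ^ (1 + aExp dl) ≤ ∑ i, ∑ j, P.p i * P.p j * S i j ^ (-dl) := by
    calc r ^ (1 + aExp dl) = r ^ 2 * r ^ dl := by
          rw [aExp, ← add_assoc, rpow_add hr]; norm_num
      _ = ∑ i, ∑ j, (P.p i * P.p j * (r ^ dl * (1 + dl)) -
            P.p i * P.p j * S i j * (r ^ dl * dl * r)) := by
          simp only [sum_sub_distrib, ← sum_mul]
          rw [hS0, hS1]; ring
      _ ≤ _ := sum_le_sum fun i _ => sum_le_sum fun j _ => by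
          have := mul_le_mul_of_nonneg_left (tangent i j) (mul_nonneg (P.hp i) (P.hp j))
          linarith
  have hsecond : ∑ i, ∑ j, P.p i * P.p j * (2 * Hk dl (P.g i) (P.g j) *
      (P.g i * (4 * P.g i * P.Av dl i) ^ dl + P.g j * (4 * P.g j * P.Av dl j) ^ dl)) =
      ∑ i, P.p i * (4 * P.g i * P.Av dl i) ^ aExp dl := by
    set f : Fin N → ℝ := fun i => 2 * P.g i * (4 * P.g i * P.Av dl i) ^ dl
    have : ∀ i j, P.p i * P.p j * (2 * Hk dl (P.g i) (P.g j) *
        (P.g i * (4 * P.g i * P.Av dl i) ^ dl + P.g j * (4 * P.g j * P.Av dl j) ^ dl)) =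
        P.p i * P.p j * (Hk dl (P.g i) (P.g j) * f i) +
        P.p i * P.p j * (Hk dl (P.g i) (P.g j) * f j) := fun i j => by simp only [f]; ring
    simp only [this, sum_add_distrib]
    rw [hsym f, hrow, ← sum_add_distrib]
    refine sum_congr rfl fun i _ => ?_
    rw [aExp, rpow_add (by have := P.hg i; have := hA i; positivity), rpow_one]
    simp only [f]; ring
  calc Kc dl * (r ^ (1 + aExp dl) - ∑ i, P.p i * (4 * P.g i * P.Av dl i) ^ aExp dl)
      ≤ Kc dl * (∑ i, ∑ j, P.p i * P.p j * S i j ^ (-dl) -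
          ∑ i, P.p i * (4 * P.g i * P.Av dl i) ^ aExp dl) :=
        mul_le_mul_of_nonneg_left (by linarith) h.Kc_pos.le
    _ = _ := by
      rw [← hsecond, ← sum_sub_distrib, mul_sum]
      refine sum_congr rfl fun i _ => ?_
      rw [← sum_sub_distrib, mul_sum]
      exact sum_congr rfl fun j _ => by simp only [S, jens]; ring

lemma point_identity (h : Small dl) (hr : 0 < P.rho) (hG : IsGood dl E Q) (i : Fin N) :
    P.eps dl i ^ 2 * (P.Ev dl E i ^ 2 - 1) =
      4 * P.eps dl i * P.Ev dl E i * P.Av dl i * (kExp dl - P.qv dl Q i) +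
      4 * P.qv dl Q i * (1 - P.qv dl Q i) * P.Av dl i ^ 2 -
      Kc dl * (4 * P.g i * P.Av dl i) ^ aExp dl := by
  have hA := P.Av_pos h hr i
  have hg := P.hg i
  have he : 0 < P.eps dl i := rpow_pos_of_pos hg _
  have hu : 0 < P.uv dl i := div_pos hA he
  have hid := hG.ident _ hu
  have key : 4 * P.uv dl i * P.eps dl i ^ 2 * (4 * P.uv dl i) ^ dl =
      (4 * P.g i * P.Av dl i) ^ aExp dl := by
    have e1 : 4 * P.uv dl i * (4 * P.uv dl i) ^ dl = (4 * P.uv dl i) ^ aExp dl := by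
      rw [aExp, rpow_add (by linarith), rpow_one]
    have e2 : P.eps dl i ^ 2 / P.eps dl i ^ aExp dl = P.g i ^ aExp dl := by
      rw [eps, ← rpow_natCast, ← rpow_mul hg.le, ← rpow_mul hg.le, ← rpow_sub hg]
      congr 1
      have : 1 - dl ≠ 0 := by linarith [h.2]
      unfold bExp aExp; push_cast; field_simp; ring
    calc 4 * P.uv dl i * P.eps dl i ^ 2 * (4 * P.uv dl i) ^ dl
        = P.eps dl i ^ 2 * (4 * P.Av dl i / P.eps dl i) ^ aExp dl := by
          rw [← mul_div_assoc' 4 (P.Av dl i)] at *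
          rw [show 4 * (P.Av dl i / P.eps dl i) = 4 * P.uv dl i from rfl, ← e1]; ring
      _ = P.eps dl i ^ 2 / P.eps dl i ^ aExp dl * (4 * P.Av dl i) ^ aExp dl := by
          rw [div_rpow (by linarith) he.le]; ring
      _ = _ := by
          rw [e2, ← mul_rpow hg.le (by linarith)]; ring_nf
  rw [show E (P.uv dl i) = P.Ev dl E i from rfl, show Q (P.uv dl i) = P.qv dl Q i from rfl] at hid
  have h4 : P.uv dl i * P.eps dl i = P.Av dl i := div_mul_cancel₀ _ he.ne'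
  have h5 : Kc dl * (4 * P.g i * P.Av dl i) ^ aExp dl = P.eps dl i ^ 2 *
      (4 * P.uv dl i * ((kExp dl - P.qv dl Q i) * P.Ev dl E i +
        P.qv dl Q i * (1 - P.qv dl Q i) * P.uv dl i) - (P.Ev dl E i ^ 2 - 1)) := by
    rw [← key]
    have := hu.ne'
    field_simp at hid ⊢
    linear_combination hid
  rw [h5, ← h4]
  ring

lemma D_sq_le (h : Small dl) (i : Fin N) (Q : ℝ → ℝ) : P.Dv dl Q i ^ 2 ≤
    P.Av dl i * ∑ c, P.p c * ((P.qv dl Q i - P.qv dl Q c) ^ 2 * Hk dl (P.g i) (P.g c)) := by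
  unfold Dv Av
  refine sum_sq_le_sum_mul_sum_of_sq_le_mul _ (fun c _ => ?_) (fun c _ => ?_) fun c _ => le_of_eq (by ring)
  · exact mul_nonneg (P.hp c) (Hk_pos h (P.hg i) (P.hg c)).le
  · exact mul_nonneg (P.hp c) (mul_nonneg (sq_nonneg _) (Hk_pos h (P.hg i) (P.hg c)).le)

theorem S_le_pairs (h : Small dl) (hr : 0 < P.rho) (hG : IsGood dl E Q) :
    P.S dl E Q ≤ ∑ i, ∑ j, P.p i * P.p j * pairForm dl (P.g i) (P.g j) (P.Av dl i) (P.Av dl j)
      (P.av i) (P.av j) (P.Ev dl E i) (P.Ev dl E j) (P.qv dl Q i) (P.qv dl Q j) := by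
  set q := P.qv dl Q
  set A := P.Av dl
  set a := P.av
  set ep := P.eps dl
  set En := P.Ev dl E
  set D := P.Dv dl Q
  set C := P.Cv dl Q
  set e := P.ev dl
  -- the point terms
  have hf : ∀ i, P.fv dl E Q i ^ 2 - ep i ^ 2 =
      4 * ep i * En i * (bExp dl * a i - kExp dl * e i) - 2 * ep i * En i * D i +
      (4 * q i * e i ^ 2 + 2 * (1 - 2 * q i) * A i * D i + 2 * e i * D i + D i ^ 2 -
        2 * A i * C i - 2 * e i * C i) + (4 * (1 - q i) * a i ^ 2 + 2 * a i * (D i + C i)) -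
      Kc dl * (4 * P.g i * A i) ^ aExp dl := fun i => by
    have hid := P.point_identity h hr hG i
    rw [P.fv_eq]
    show (-(ep i * En i) + 2 * (1 - q i) * A i + 2 * e i + D i) ^ 2 - ep i ^ 2 = _
    have ea : a i = A i + e i := by simp only [a, A, e, ev]; ring
    rw [ea, show kExp dl = bExp dl + 1 from h.k_eq]
    rw [h.k_eq] at hid
    linear_combination hid
  -- bound of the point terms by pairs
  have hpt : ∀ i, 4 * q i * e i ^ 2 + D i ^ 2 ≤
      ∑ c, P.p c * (4 * dl * q i * a i * (Gk (P.g i) (P.g c) - Hk dl (P.g i) (P.g c)) +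
        A i * ((q i - q c) ^ 2 * Hk dl (P.g i) (P.g c))) := fun i => by
    obtain ⟨e0, e1, -⟩ := P.ev_le h i
    have h2 := P.D_sq_le h i Q
    rw [mul_sum] at h2
    have h1 : 4 * q i * e i ^ 2 ≤ ∑ c, P.p c * (4 * dl * q i * a i *
        (Gk (P.g i) (P.g c) - Hk dl (P.g i) (P.g c))) := by
      have e' : ∑ c, P.p c * (4 * dl * q i * a i * (Gk (P.g i) (P.g c) - Hk dl (P.g i) (P.g c))) =
          4 * dl * q i * a i * e i := by
        simp only [e, ev, av, Av, ← sum_sub_distrib, mul_sum]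
        exact sum_congr rfl fun c _ => by ring
      rw [e']
      have hq : 0 ≤ q i := P.qv_nonneg h hr hG.prof i
      nlinarith [mul_le_mul_of_nonneg_left e1 (mul_nonneg hq e0)]
    calc _ ≤ _ := add_le_add h1 h2
      _ = _ := by
          rw [← sum_add_distrib]
          exact sum_congr rfl fun c _ => by ring
  have hcub : ∑ i, ∑ j, P.p i * P.p j * P.dd dl E Q i j =
      ∑ i, ∑ j, P.p i * P.p j * (-(dslope (fun t : ℝ => t ^ bExp dl) (P.g i) (P.g j) *
        ((En i + En j) / 2)) - (ep i + ep j) / 2 * ((En i - En j) / (P.g i - P.g j)) -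
        (A i + A j) / 2 * ((q i - q j) / (P.g i - P.g j))) +
      (∑ i, P.p i * (-4 * (1 - q i) * a i ^ 2 - 2 * a i * (D i + C i)) +
      ∑ i, ∑ j, ∑ c, P.p i * P.p j * P.p c * (((q i + q j) / 2 + q c) *
        (DGk (P.g i) (P.g j) (P.g c) - DHk dl (P.g i) (P.g j) (P.g c)))) := by
    rw [← P.cubic_G (dl := dl) (Q := Q)]
    simp only [← sum_add_distrib]
    refine sum_congr rfl fun i _ => sum_congr rfl fun j _ => ?_
    rw [dd]
    have : ∀ c, P.p i * P.p j * P.p c * ((2 - ((P.qv dl Q i + P.qv dl Q j) / 2 + P.qv dl Q c)) *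
        DGk (P.g i) (P.g j) (P.g c)) + P.p i * P.p j * P.p c * (((q i + q j) / 2 + q c) *
        (DGk (P.g i) (P.g j) (P.g c) - DHk dl (P.g i) (P.g j) (P.g c))) =
        P.p i * P.p j * (P.p c * (2 * DGk (P.g i) (P.g j) (P.g c) -
          ((q i + q j) / 2 + q c) * DHk dl (P.g i) (P.g j) (P.g c))) := fun c => by
      simp only [q]; ring
    rw [sum_congr rfl fun c _ => this c, ← mul_sum]
    simp only [q, A, En, ep]
    ring
  have hS : P.S dl E Q = Kc dl * (P.rho ^ (1 + aExp dl) -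
      ∑ i, P.p i * (4 * P.g i * A i) ^ aExp dl) +
    (∑ i, P.p i * (4 * ep i * En i * (bExp dl * a i - kExp dl * e i) - 2 * ep i * En i * D i +
      (2 * (1 - 2 * q i) * A i * D i + 2 * e i * D i - 2 * A i * C i - 2 * e i * C i)) +
    ∑ i, P.p i * (4 * q i * e i ^ 2 + D i ^ 2) +
    ∑ i, ∑ j, P.p i * P.p j * (-(dslope (fun t : ℝ => t ^ bExp dl) (P.g i) (P.g j) *
        ((En i + En j) / 2)) - (ep i + ep j) / 2 * ((En i - En j) / (P.g i - P.g j)) -
        (A i + A j) / 2 * ((q i - q j) / (P.g i - P.g j)))) +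
    ∑ i, ∑ j, ∑ c, P.p i * P.p j * P.p c * (((q i + q j) / 2 + q c) *
        (DGk (P.g i) (P.g j) (P.g c) - DHk dl (P.g i) (P.g j) (P.g c))) := by
    have hp : ∑ i, P.p i * (P.fv dl E Q i ^ 2 - ep i ^ 2) +
        ∑ i, P.p i * (-4 * (1 - q i) * a i ^ 2 - 2 * a i * (D i + C i)) +
        Kc dl * ∑ i, P.p i * (4 * P.g i * A i) ^ aExp dl =
      ∑ i, P.p i * (4 * ep i * En i * (bExp dl * a i - kExp dl * e i) - 2 * ep i * En i * D i +
        (2 * (1 - 2 * q i) * A i * D i + 2 * e i * D i - 2 * A i * C i - 2 * e i * C i)) +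
      ∑ i, P.p i * (4 * q i * e i ^ 2 + D i ^ 2) := by
      rw [mul_sum, ← sum_add_distrib, ← sum_add_distrib, ← sum_add_distrib]
      exact sum_congr rfl fun i _ => by rw [hf i]; ring
    rw [Point.S, hcub]
    simp only [ep] at hp ⊢
    linear_combination hp
  rw [hS]
  have hJ := P.jens_sum h hr
  have hC := P.cubic_le h hr hG.prof
  -- expand the linear point terms as pairs
  set L : Fin N → Fin N → ℝ := fun i j =>
    4 * ep i * En i * (bExp dl * Gk (P.g i) (P.g j) -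
      kExp dl * (Gk (P.g i) (P.g j) - Hk dl (P.g i) (P.g j))) -
    2 * ep i * En i * ((q i - q j) * Hk dl (P.g i) (P.g j)) +
    2 * (1 - 2 * q i) * A i * ((q i - q j) * Hk dl (P.g i) (P.g j)) +
    2 * e i * ((q i - q j) * Hk dl (P.g i) (P.g j)) -
    2 * A i * ((q i - q j) * (Gk (P.g i) (P.g j) - Hk dl (P.g i) (P.g j))) -
    2 * e i * ((q i - q j) * (Gk (P.g i) (P.g j) - Hk dl (P.g i) (P.g j))) +
    (4 * dl * q i * a i * (Gk (P.g i) (P.g j) - Hk dl (P.g i) (P.g j)) +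
      A i * ((q i - q j) ^ 2 * Hk dl (P.g i) (P.g j))) +
    (-(dslope (fun t : ℝ => t ^ bExp dl) (P.g i) (P.g j) * ((En i + En j) / 2)) -
      (ep i + ep j) / 2 * ((En i - En j) / (P.g i - P.g j)) -
      (A i + A j) / 2 * ((q i - q j) / (P.g i - P.g j))) +
    jens dl (P.g i) (P.g j) (A i) (A j)
  have hlin : ∀ i, P.p i * (4 * ep i * En i * (bExp dl * a i - kExp dl * e i) -
      2 * ep i * En i * D i +
      (2 * (1 - 2 * q i) * A i * D i + 2 * e i * D i - 2 * A i * C i - 2 * e i * C i)) =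
      ∑ j, P.p i * P.p j * (4 * ep i * En i * (bExp dl * Gk (P.g i) (P.g j) -
      kExp dl * (Gk (P.g i) (P.g j) - Hk dl (P.g i) (P.g j))) -
    2 * ep i * En i * ((q i - q j) * Hk dl (P.g i) (P.g j)) +
    2 * (1 - 2 * q i) * A i * ((q i - q j) * Hk dl (P.g i) (P.g j)) +
    2 * e i * ((q i - q j) * Hk dl (P.g i) (P.g j)) -
    2 * A i * ((q i - q j) * (Gk (P.g i) (P.g j) - Hk dl (P.g i) (P.g j))) -
    2 * e i * ((q i - q j) * (Gk (P.g i) (P.g j) - Hk dl (P.g i) (P.g j)))) := fun i => by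
    have e1 : a i = ∑ j, P.p j * Gk (P.g i) (P.g j) := rfl
    have e2 : e i = ∑ j, P.p j * (Gk (P.g i) (P.g j) - Hk dl (P.g i) (P.g j)) := by
      simp only [e, ev, av, Av, mul_sub, sum_sub_distrib]
    have e3 : ∀ (x y z w v1 : ℝ), P.p i * (x * (bExp dl * a i - kExp dl * e i) - y * D i +
        (z * D i + w * D i - v1 * C i - w * C i)) =
      ∑ j, P.p i * P.p j * (x * (bExp dl * Gk (P.g i) (P.g j) -
      kExp dl * (Gk (P.g i) (P.g j) - Hk dl (P.g i) (P.g j))) -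
      y * ((q i - q j) * Hk dl (P.g i) (P.g j)) +
      z * ((q i - q j) * Hk dl (P.g i) (P.g j)) +
      w * ((q i - q j) * Hk dl (P.g i) (P.g j)) -
      v1 * ((q i - q j) * (Gk (P.g i) (P.g j) - Hk dl (P.g i) (P.g j))) -
      w * ((q i - q j) * (Gk (P.g i) (P.g j) - Hk dl (P.g i) (P.g j)))) := by
      intro x y z w v1
      rw [e1, e2]
      simp only [D, C, Dv, Cv, mul_sum, ← sum_sub_distrib, ← sum_add_distrib]
      exact sum_congr rfl fun j _ => by ring
    exact e3 _ _ _ _ _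
  have hbound : ∑ i, P.p i * (4 * q i * e i ^ 2 + D i ^ 2) ≤ ∑ i, ∑ j, P.p i * P.p j *
      (4 * dl * q i * a i * (Gk (P.g i) (P.g j) - Hk dl (P.g i) (P.g j)) +
        A i * ((q i - q j) ^ 2 * Hk dl (P.g i) (P.g j))) := by
    refine sum_le_sum fun i _ => (mul_le_mul_of_nonneg_left (hpt i) (P.hp i)).trans_eq ?_
    rw [mul_sum]
    exact sum_congr rfl fun j _ => by ring
  have hsum : ∑ i, ∑ j, P.p i * P.p j * L i j = ∑ i, ∑ j, P.p i * P.p j *
      pairForm dl (P.g i) (P.g j) (A i) (A j) (a i) (a j) (En i) (En j) (q i) (q j) := by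
    rw [sum_comm_avg]
    refine sum_congr rfl fun i _ => sum_congr rfl fun j _ => ?_
    have hjs : jens dl (P.g j) (P.g i) (A j) (A i) = jens dl (P.g i) (P.g j) (A i) (A j) := by
      unfold jens; rw [Hk_comm dl (P.g j)]; ring
    simp only [L, hjs, dslope_swap _ (P.g j) (P.g i), Hk_comm dl (P.g j) (P.g i),
      Gk_comm (P.g j) (P.g i)]
    unfold pairForm
    simp only [ep, eps, e, ev, a, A]
    rw [← neg_sub (P.g i) (P.g j)]
    simp only [div_neg]
    ring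
  rw [← hsum, sum_congr rfl fun i _ => hlin i]
  simp only [L, mul_add, sum_add_distrib] at hJ hbound ⊢
  linarith

end Point

end Vale.Agent.P371.Leg
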