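import Vale.Agent.P371.Leg.Third
import Vale.Agent.P371.Leg.Reduce

/-!
# P371: the leading terms of one pair
-/

namespace Vale.Agent.P371.Leg

open Real Set

variable {dl t p : ℝ}

lemma tanh_gap (ht : 0 ≤ t) :
    t * tanh t ^ 2 / 4 ≤ t - tanh t ∧ t - tanh t ≤ t * tanh t ^ 2 := by
  obtain ⟨h0, h1, -, h2⟩ := tanh_bounds ht
  have h3 := artanh_series ht
  have : tanh t + tanh t ^ 3 / 3 ≤ t := by
    linarith [pow_nonneg h0 5, pow_nonneg h0 7]
  constructor
  · rcases le_or_gt (3 * t) (4 * tanh t) with hc | hc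
    · nlinarith [mul_le_mul_of_nonneg_right hc (sq_nonneg (tanh t))]
    · nlinarith [mul_le_mul_of_nonneg_left (show tanh t ^ 2 ≤ 1 by nlinarith) ht]
  · obtain ⟨e, -, -⟩ := tanh_mul_facts t
    have hs : 2 * t ≤ sinh (2 * t) := self_le_sinh_iff.2 (by linarith)
    nlinarith [mul_le_mul_of_nonneg_right hs (show 0 ≤ 1 - tanh t ^ 2 by nlinarith)]

lemma three_halves_tanh (ht : 0 ≤ t) : min t 1 ≤ 3 / 2 * tanh t := by
  obtain ⟨h0, -, h1, -⟩ := tanh_bounds ht
  rcases le_or_gt t 1 with hc | hc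
  · rw [min_eq_left hc]; nlinarith [mul_le_mul_of_nonneg_left (mul_le_mul hc hc ht zero_le_one) ht]
  · rw [min_eq_right hc.le]
    have := monotone_of_hasDerivAt_nonneg hasDerivAt_tanh'
      (fun z => sub_nonneg.2 ((tanh_sq_lt_one z).le)) hc.le
    linarith [(tanh_bounds zero_le_one).2.2.1]

/-- `Y = ln (W + W' e^σ)` and the gain `Ψ = Y - W' σ`. -/
lemma psi_facts (hp : 0 ≤ p) (hpt : p ≤ t) :
    0 ≤ psi t p ∧ psi t p ≤ 2 * tanh t ^ 2 ∧ psi t p ≤ t - p + log (cosh p) - log (cosh t) ∧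
      0 ≤ t - p + log (cosh p) - log (cosh t) ∧
      t - p + log (cosh p) - log (cosh t) ≤ 2 * tanh t ∧
      t - p + log (cosh p) - log (cosh t) ≤ 1 := by
  have ht : 0 ≤ t := hp.trans hpt
  obtain ⟨h0, -, -, h2⟩ := tanh_bounds ht
  have hY : t - p + log (cosh p) - log (cosh t) = log (exp (t - p) * cosh p / cosh t) := by
    rw [log_div (by positivity) (cosh_pos t).ne', log_mul (exp_pos _).ne' (cosh_pos p).ne',
      log_exp]
  have hlog : log (cosh p) ≤ log (cosh t) :=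
    log_le_log (cosh_pos p) (cosh_le_cosh.2 (by rwa [abs_of_nonneg hp, abs_of_nonneg ht]))
  have hpos : 0 ≤ psi t p := by
    have := monotoneOn_of_hasDerivWithinAt_nonneg (convex_Icc p t)
      (fun r _ => (hasDerivAt_psi r p).continuousAt.continuousWithinAt)
      (fun r _ => (hasDerivAt_psi r p).hasDerivWithinAt)
      (fun r hr => by
        rw [interior_Icc] at hr
        exact mul_nonneg (sub_nonneg.2 (tanh_sq_lt_one r).le) (by linarith [hr.1]))
      (left_mem_Icc.2 hpt) (right_mem_Icc.2 hpt) hpt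
    simpa [tanh_pp] using this
  have hle : psi t p ≤ t - p + log (cosh p) - log (cosh t) := by
    unfold psi
    nlinarith [mul_le_mul_of_nonneg_right h2.le (sub_nonneg.2 hpt)]
  have hY2 : t - p + log (cosh p) - log (cosh t) ≤ log 2 := by
    rw [hY]
    refine log_le_log (by positivity) ?_
    rw [div_le_iff₀ (cosh_pos t)]
    have e : exp (t - p) * cosh p = exp t * (1 + exp (-(2 * p))) / 2 := by
      rw [cosh_eq, mul_add, ← mul_div_assoc]
      simp only [mul_add, ← exp_add, mul_one, sub_add_cancel]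
      ring_nf
    rw [e, cosh_eq]
    have : exp (-(2 * p)) ≤ 1 := exp_le_one_iff.2 (by linarith)
    nlinarith [exp_pos t, exp_pos (-t)]
  have hl2 : log 2 ≤ 7 / 10 := by linarith [Real.log_two_lt_d9]
  refine ⟨hpos, ?_, hle, hpos.trans hle, ?_, by linarith⟩
  · have h3 := three_halves_tanh ht
    rcases le_or_gt t 1 with hc | hc
    · rw [min_eq_left hc] at h3
      have : psi t p ≤ tanh t * t := by
        unfold psi; nlinarith [mul_nonneg h0 hp]
      nlinarith [mul_le_mul_of_nonneg_left h3 h0]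
    · rw [min_eq_right hc.le] at h3
      nlinarith
  · have h3 := three_halves_tanh ht
    rcases le_or_gt t 1 with hc | hc
    · rw [min_eq_left hc] at h3; linarith
    · rw [min_eq_right hc.le] at h3; linarith

lemma sq_le_sinh (ht : 0 ≤ t) : t ^ 2 ≤ sinh (2 * t) ∧ 2 * t ≤ sinh (2 * t) := by
  refine ⟨?_, self_le_sinh_iff.2 (by linarith)⟩
  have := le_of_deriv_le (f := fun y : ℝ => y + y ^ 3 / 6) (g := sinh)
    (show 0 ≤ 2 * t by linarith)
    (fun y _ => (hasDerivAt_id y).add (((hasDerivAt_id y).pow 3).div_const 6))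
    (fun y _ => hasDerivAt_sinh y) (by simp) fun y _ => by
      simp only [id_eq, Nat.cast_ofNat, Nat.add_one_sub_one, mul_one]
      linarith [cosh_ge_quad y]
  nlinarith [mul_nonneg ht (sq_nonneg (t - 1)), mul_nonneg ht (sq_nonneg t)]

/-- The bracket for small `ε t`. -/
lemma lead_bracket {e : ℝ} (ht : 0 < t) (he0 : 0 ≤ e) (he1 : e ≤ 1) (hc : e * t ≤ 1) :
    e * (tanh t * cosh (e * t) + tanh t ^ 2 * sinh (e * t)) - sinh (e * t) ≤
      e * (tanh t - t) + 3 * e ^ 2 * (t * tanh t ^ 2) := by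
  obtain ⟨h0, -, -, -⟩ := tanh_bounds ht.le
  have h3 := three_halves_tanh ht.le
  have het : 0 ≤ e * t := mul_nonneg he0 ht.le
  have hch : cosh (e * t) ≤ 1 + (e * t) ^ 2 := by
    have := (taylor_upper het (by linarith)).1
    nlinarith [mul_le_mul hc hc het zero_le_one, sq_nonneg (e * t)]
  have hsh : e * t ≤ sinh (e * t) := self_le_sinh_iff.2 het
  have hsh2 := sinh_le_mul het (show e * t ≤ 6 / 5 by linarith)
  have h4 : e * t ≤ 3 / 2 * tanh t := by
    rcases le_or_gt t 1 with hc1 | hc1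
    · rw [min_eq_left hc1] at h3
      linarith [mul_le_of_le_one_left ht.le he1]
    · rw [min_eq_right hc1.le] at h3; linarith
  have a1 := mul_le_mul_of_nonneg_left hch (mul_nonneg he0 h0)
  have a2 := mul_le_mul_of_nonneg_left hsh2 (mul_nonneg he0 (sq_nonneg (tanh t)))
  have a3 := mul_le_mul_of_nonneg_left h4 (mul_nonneg (mul_nonneg he0 het) h0)
  have a4 : 0 ≤ e ^ 2 * (t * tanh t ^ 2) := by positivity
  linarith

lemma lead_small (h : Small dl) (ht : 0 < t) {Ex z e : ℝ} (hz : 0 ≤ z)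
    (hE : z * (1 - 500 * dl) ≤ Ex) (hE1 : 0 ≤ Ex) (hsmall : dl ≤ 1 / 10 ^ 6)
    (hel : 2 * dl ≤ e) (heu : e ≤ 3 * dl) (hc : e * t ≤ 1) :
    8 * Ex * (e * (tanh t * cosh (e * t) + tanh t ^ 2 * sinh (e * t)) - sinh (e * t)) ≤
      exp (e * t) * (16 * dl * z * (tanh t - t) +
        5000 * dl ^ 2 * z * (sinh (2 * t) * tanh t ^ 2)) := by
  have h1 := h.1
  have he0 : 0 ≤ e := by linarith
  obtain ⟨g1, g2⟩ := tanh_gap ht.le
  obtain ⟨ht2, hs2⟩ := sq_le_sinh ht.le
  have hw : 0 ≤ t * tanh t ^ 2 := mul_nonneg ht.le (sq_nonneg _)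
  have hbr := lead_bracket ht he0 (by linarith [h.2]) hc
  obtain ⟨A, hA⟩ : ∃ A, t * tanh t ^ 2 = A := ⟨_, rfl⟩
  obtain ⟨B, hB⟩ : ∃ B, sinh (2 * t) * tanh t ^ 2 = B := ⟨_, rfl⟩
  have hAB : 2 * A ≤ B := by rw [← hA, ← hB]; nlinarith [sq_nonneg (tanh t)]
  have htB : t * A ≤ B := by rw [← hA, ← hB]; nlinarith [sq_nonneg (tanh t)]
  rw [hA] at hbr g1 g2 hw
  rw [hB]
  obtain ⟨g, hg⟩ : ∃ g, t - tanh t = g := ⟨_, rfl⟩
  rw [show tanh t - t = -g by linarith] at hbr ⊢
  rw [hg] at g1 g2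
  have hg0 : 0 ≤ g := le_trans (by linarith) g1
  have hR0 : e * -g + 3 * e ^ 2 * A ≤ 0 := by
    have a1 := mul_le_mul_of_nonneg_left g1 he0
    have a2 := mul_nonneg (mul_nonneg he0 hw) (show 0 ≤ 1 / 4 - 3 * e by linarith)
    linarith
  have hz5 : 0 ≤ z * (1 - 500 * dl) := mul_nonneg hz (by linarith)
  refine ((mul_le_mul_of_nonneg_left hbr (by positivity)).trans
    (mul_le_mul_of_nonpos_right (show 8 * (z * (1 - 500 * dl)) ≤ 8 * Ex by linarith) hR0)).trans ?_
  have het : 0 ≤ e * t := mul_nonneg he0 ht.le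
  have hexp : exp (e * t) ≤ 1 + 2 * (e * t) := by
    have := Real.abs_exp_sub_one_le (x := e * t) (by rwa [abs_of_nonneg het])
    rw [abs_of_nonneg het, abs_of_nonneg (by linarith [one_le_exp het])] at this
    linarith
  have b1 : 8 * (z * (1 - 500 * dl)) * (e * -g) ≤
      -(16 * dl * z * g) + 8000 * dl ^ 2 * z * A := by
    have c2 := mul_le_mul_of_nonneg_left (mul_le_mul_of_nonneg_right hel hg0) hz5
    have c3 := mul_le_mul_of_nonneg_left g2 (show 0 ≤ 8000 * dl ^ 2 * z by positivity)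
    linarith
  have b2 : 8 * (z * (1 - 500 * dl)) * (3 * e ^ 2 * A) ≤ 216 * dl ^ 2 * z * A := by
    have := mul_le_mul (show z * (1 - 500 * dl) ≤ z from mul_le_of_le_one_right hz (by linarith))
      (pow_le_pow_left₀ he0 heu 2) (sq_nonneg e) hz
    have := mul_le_mul_of_nonneg_right this hw
    linarith
  have b3 : (exp (e * t) - 1) * (16 * dl * z * g) ≤ 96 * dl ^ 2 * z * B := by
    have c0 : (exp (e * t) - 1) * g ≤ 6 * dl * B := by
      have : (exp (e * t) - 1) * g ≤ 6 * dl * t * A := by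
        refine mul_le_mul ?_ g2 hg0 (by positivity)
        linarith [mul_le_mul_of_nonneg_right heu ht.le]
      linarith [mul_le_mul_of_nonneg_left htB (show 0 ≤ 6 * dl by positivity)]
    have := mul_le_mul_of_nonneg_left c0 (show 0 ≤ 16 * dl * z by positivity)
    linarith
  have b4 := mul_le_mul_of_nonneg_left hAB (show 0 ≤ 4108 * dl ^ 2 * z by positivity)
  have hB0 : 0 ≤ dl ^ 2 * z * B := mul_nonneg (by positivity) (by linarith)
  have b5 := le_mul_of_one_le_left hB0 (one_le_exp het)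
  linarith

/-- The leading coefficient of `E`. -/
lemma lead_le (h : Small dl) (ht : 0 < t) {Ex z : ℝ} (hz : 0 ≤ z)
    (hE : z * (1 - 500 * dl) ≤ Ex) (hE1 : 0 ≤ Ex) (hsmall : dl ≤ 1 / 10 ^ 6) :
    8 * Ex * ((bExp dl - 1) * (tanh t * cosh ((bExp dl - 1) * t) +
        tanh t ^ 2 * sinh ((bExp dl - 1) * t)) - sinh ((bExp dl - 1) * t)) ≤
      exp ((bExp dl - 1) * t) * (16 * dl * z * (tanh t - t) +
        5000 * dl ^ 2 * z * (sinh (2 * t) * tanh t ^ 2)) := by
  have h1 := h.1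
  have hel : 2 * dl ≤ bExp dl - 1 := by
    have : 0 < 1 - dl := by linarith
    rw [bExp, le_sub_iff_add_le, le_div_iff₀ this]; nlinarith
  have heu := h.k_mem.2.2
  obtain ⟨e, he⟩ : ∃ e, bExp dl - 1 = e := ⟨_, rfl⟩
  rw [he] at hel heu ⊢
  rcases le_or_gt (e * t) 1 with hc | hc
  · exact lead_small h ht hz hE hE1 hsmall hel heu hc
  obtain ⟨h0, -, -, h2⟩ := tanh_bounds ht.le
  obtain ⟨-, g2⟩ := tanh_gap ht.le
  obtain ⟨ht2, -⟩ := sq_le_sinh ht.le
  have het : 0 ≤ e * t := by linarith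
  have hsh : 43 / 100 * exp (e * t) ≤ sinh (e * t) := by
    have h3 : exp (e * t) * exp (-(e * t)) = 1 := by rw [← exp_add]; simp
    have h4 : 27 / 10 ≤ exp (e * t) := by
      linarith [Real.exp_one_gt_d9, exp_le_exp.2 hc.le]
    rw [sinh_eq]
    nlinarith [exp_pos (-(e * t))]
  have hbr : e * (tanh t * cosh (e * t) + tanh t ^ 2 * sinh (e * t)) - sinh (e * t) ≤ 0 := by
    have a1 : tanh t * cosh (e * t) + tanh t ^ 2 * sinh (e * t) ≤ exp (e * t) := by
      rw [← cosh_add_sinh]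
      exact add_le_add (mul_le_of_le_one_left (cosh_pos _).le h2.le)
        (mul_le_of_le_one_left (sinh_nonneg_iff.2 het) (pow_le_one₀ h0 h2.le))
    nlinarith [mul_le_mul_of_nonneg_left a1 (show 0 ≤ e by linarith),
      mul_le_mul_of_nonneg_right (show e ≤ 3 / 100 by linarith [h.2]) (exp_pos (e * t)).le]
  refine (mul_nonpos_of_nonneg_of_nonpos (by positivity) hbr).trans
    (mul_nonneg (exp_pos _).le ?_)
  have hbig : 1 ≤ 3 * dl * t := hc.le.trans (mul_le_mul_of_nonneg_right heu ht.le)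
  have hS : 16 * t ≤ 5000 * dl * sinh (2 * t) := by
    linarith [mul_le_mul_of_nonneg_left ht2 h1.le, mul_le_mul_of_nonneg_left hbig ht.le]
  have c1 := mul_le_mul_of_nonneg_left g2 (show 0 ≤ 16 * dl * z by positivity)
  have c2 := mul_le_mul_of_nonneg_left (mul_le_mul_of_nonneg_right hS (sq_nonneg (tanh t)))
    (show 0 ≤ dl * z by positivity)
  linarith

/-- The scalar part of the Jensen bound. -/
lemma jens_scalar (h : Small dl) {K q Y e c h2 : ℝ} (k0 : 2 * (1 - dl) ≤ K)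
    (k1 : K ≤ 2 * (1 + dl)) (he : e = dl * h2) (hh0 : 0 ≤ h2) (hh1 : h2 ≤ 1) (hY : 0 ≤ Y)
    (hq : Y - c = q) (hc : 0 ≤ c) (q0 : 0 ≤ q) (q1 : q ≤ 2 * h2) :
    K * ((1 + 2 * dl * e) * (1 - dl * Y + 4 * dl ^ 2 * h2) - (1 - e) * (1 - dl * c)) ≤
      2 * dl * (h2 - q) + 21 * dl ^ 2 * h2 := by
  have h1 := h.1
  have he0 : 0 ≤ e := by rw [he]; positivity
  have n1 : 0 ≤ e * (dl * c) := by positivity
  have n2 : 0 ≤ dl * e * (dl * Y) := by positivity
  have n3 : dl * (dl * (dl * h2)) * (dl * h2) ≤ dl * (dl * (dl * h2)) * dl := by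
    refine mul_le_mul_of_nonneg_left (mul_le_of_le_one_right h1.le hh1) (by positivity)
  have n4 : dl * (dl * (dl * h2)) * dl ≤ dl ^ 2 * h2 / 100 := by
    have := mul_le_mul_of_nonneg_left (show dl * dl ≤ 1 / 100 by nlinarith [h.2])
      (show 0 ≤ dl ^ 2 * h2 by positivity)
    linarith
  have a5 : 0 ≤ dl ^ 2 * h2 := by positivity
  obtain ⟨R, hR⟩ : ∃ R, (1 + 2 * dl * e) * (1 - dl * Y + 4 * dl ^ 2 * h2) -
      (1 - e) * (1 - dl * c) = R := ⟨_, rfl⟩
  have hR1 : R ≤ dl * (h2 - q) + 7 * dl ^ 2 * h2 := by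
    rw [← hR, ← hq]
    rw [he] at n1 n2 ⊢
    linarith
  rw [hR]
  have hK : 0 ≤ K := by linarith [h.2]
  refine (mul_le_mul_of_nonneg_left hR1 hK).trans ?_
  have a1 := mul_le_mul_of_nonneg_right k1 (show 0 ≤ 7 * dl ^ 2 * h2 by positivity)
  have a2 := mul_le_mul_of_nonneg_left h.2 (show 0 ≤ 14 * dl ^ 2 * h2 by positivity)
  rcases le_or_gt q h2 with hc2 | hc2
  · have a3 := mul_le_mul_of_nonneg_right k1 (mul_nonneg h1.le (sub_nonneg.2 hc2))
    have a4 := mul_nonneg (sq_nonneg dl) q0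
    linarith
  · have a3 := mul_le_mul_of_nonpos_right k0
      (mul_nonpos_of_nonneg_of_nonpos h1.le (sub_nonpos.2 hc2.le))
    have a4 := mul_le_mul_of_nonneg_left q1 (sq_nonneg dl)
    linarith

lemma inv_rpow_le {e s : ℝ} (he : 0 ≤ e) (he1 : e ≤ 1 / 100) (hs : 0 ≤ s) (hs1 : s ≤ 1) :
    (1 - e) ^ (-s) ≤ 1 + 2 * s * e := by
  have h5 : 0 < 1 - e := by linarith
  rw [rpow_neg h5.le, ← inv_rpow h5.le]
  have := rpow_one_add_le_one_add_mul_self (s := (1 - e)⁻¹ - 1) (by linarith [inv_pos.2 h5]) hs hs1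
  rw [add_sub_cancel] at this
  have : (1 - e)⁻¹ - 1 ≤ 2 * e := by
    rw [sub_le_iff_le_add, inv_le_iff_one_le_mul₀ h5]; nlinarith
  nlinarith

lemma exp_mul_le {s Y r : ℝ} (hs : 0 ≤ s) (hs1 : s ≤ 1) (y0 : 0 ≤ Y) (y1 : Y ≤ 2 * r)
    (y2 : Y ≤ 1) : exp Y ^ (-s) ≤ 1 - s * Y + 4 * s ^ 2 * r ^ 2 := by
  rw [← exp_mul]
  have hx : |Y * -s| ≤ 1 := by
    rw [abs_mul, abs_neg, abs_of_nonneg y0, abs_of_nonneg hs]; exact mul_le_one₀ y2 hs hs1
  have h1 := (abs_le.1 (Real.abs_exp_sub_one_sub_id_le hx)).2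
  have h2 := mul_le_mul_of_nonneg_left (pow_le_pow_left₀ y0 y1 2) (sq_nonneg s)
  linarith

/-- The Jensen part in normalised variables. -/
lemma jens_le (h : Small dl) {m Ax Ay : ℝ} (hm : 0 < m) (hA : 0 < Ax) (hB : 0 < Ay)
    (hp : 0 ≤ p) (hpt : p ≤ t)
    (hs : m * exp t * Ax = exp (2 * (t - p)) * (m * exp (-t) * Ay)) :
    jens dl (m * exp t) (m * exp (-t)) Ax Ay ≤ (4 * (m * exp t) * Ax) ^ dl *
      (2 * dl * (tanh t ^ 2 - psi t p) + 21 * dl ^ 2 * tanh t ^ 2) := by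
  have h1 := h.1
  obtain ⟨q0, q1, q2, y0, y1, y2⟩ := psi_facts hp hpt
  set h' := tanh t with hh'
  set Y := t - p + log (cosh p) - log (cosh t) with hY
  set e := dl * h' ^ 2 with he
  have he0 : 0 ≤ e := by positivity
  have he1 : e ≤ dl := mul_le_of_le_one_right h1.le (by nlinarith [tanh_sq_lt_one t])
  have hC := cosh_pos t
  set Z := (4 * (m * exp t) * Ax) ^ dl with hZdef
  have hZ : 0 < Z := by rw [hZdef]; positivity
  have hH : Hk dl (m * exp t) (m * exp (-t)) = (1 - e) / (4 * m * cosh t) := by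
    have h5 : exp t * exp (-t) = 1 := by rw [← exp_add]; simp
    have h6 : exp t + exp (-t) = 2 * cosh t := by rw [cosh_eq]; ring
    have hcs := cosh_sq t
    rw [Hk, Gk, show m * exp t + m * exp (-t) = 2 * m * cosh t by linear_combination m * h6,
      show m * exp t * (m * exp (-t)) = m ^ 2 by linear_combination m ^ 2 * h5, he, hh',
      tanh_eq_sinh_div_cosh]
    field_simp
    linear_combination (-4 * dl) * hcs
  set W := exp t / (2 * cosh t) with hW
  set W' := exp (-t) / (2 * cosh t) with hW'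
  have hWs : W + W' = 1 := by
    rw [hW, hW', ← add_div, div_eq_one_iff_eq (by positivity), cosh_eq]; ring
  have hAy : Ay = Ax * exp (2 * p) := by
    have e1 : exp (2 * (t - p)) * exp (-t) * exp (2 * p) = exp t := by
      rw [← exp_add, ← exp_add]; ring_nf
    have := exp_pos (2 * (t - p)); have := exp_pos (-t)
    have h5 : exp (2 * (t - p)) * exp (-t) * Ay = exp t * Ax :=
      mul_left_cancel₀ hm.ne' (by linarith)
    refine mul_left_cancel₀ (show exp (2 * (t - p)) * exp (-t) ≠ 0 by positivity) ?_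
    linear_combination h5 - Ax * e1
  have hbase : Hk dl (m * exp t) (m * exp (-t)) * (1 / Ax + 1 / Ay) / 2 =
      (1 - e) * exp Y / (4 * (m * exp t) * Ax) := by
    have eY : exp Y = exp t * (1 + exp (-(2 * p))) / (2 * cosh t) := by
      rw [hY, exp_sub, exp_add, exp_log (cosh_pos p), exp_log hC, cosh_eq p, mul_div_assoc',
        mul_add, ← exp_add, ← exp_add, mul_add, ← exp_add, mul_one]
      ring_nf
    rw [hH, hAy, eY, exp_neg (2 * p)]
    field_simp
  have hsig : 0 ≤ W' * (2 * (t - p)) := by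
    have : 0 ≤ W' := by rw [hW']; positivity
    exact mul_nonneg this (by linarith)
  have ePsi : Y - W' * (2 * (t - p)) = psi t p := by
    have : 2 * W' = 1 - h' := by
      rw [hW', hh', tanh_eq_sinh_div_cosh, cosh_eq, sinh_eq]
      field_simp
      ring
    rw [hY, psi, ← hh']
    linear_combination -(t - p) * this
  have hfirst : (Hk dl (m * exp t) (m * exp (-t)) * (1 / Ax + 1 / Ay) / 2) ^ (-dl) ≤
      Z * ((1 + 2 * dl * e) * (1 - dl * Y + 4 * dl ^ 2 * h' ^ 2)) := by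
    have h4 : 0 < 4 * (m * exp t) * Ax := by positivity
    have h5 : 0 < 1 - e := by linarith [h.2]
    rw [hbase, div_rpow (by positivity) h4.le, rpow_neg h4.le, div_inv_eq_mul, mul_comm,
      mul_rpow h5.le (exp_pos Y).le, ← hZdef]
    refine mul_le_mul_of_nonneg_left (mul_le_mul ?_ ?_ (by positivity) (by positivity)) hZ.le
    · exact inv_rpow_le he0 (he1.trans h.2) h1.le (h.2.trans (by norm_num))
    · exact exp_mul_le h1.le (h.2.trans (by norm_num)) y0 y1 y2
  have hsecond : 2 * Hk dl (m * exp t) (m * exp (-t)) * (m * exp t * Z +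
      m * exp (-t) * (4 * (m * exp (-t)) * Ay) ^ dl) ≥ Z * ((1 - e) * (1 - dl * (W' * (2 * (t - p))))) := by
    have e2 : (4 * (m * exp (-t)) * Ay) ^ dl = Z * exp (-(2 * (t - p)) * dl) := by
      have : 4 * (m * exp (-t)) * Ay = 4 * (m * exp t) * Ax * exp (-(2 * (t - p))) := by
        have h5 : exp (2 * (t - p)) * exp (-t) * Ay = exp t * Ax :=
          mul_left_cancel₀ hm.ne' (by linarith)
        rw [exp_neg (2 * (t - p))]; field_simp; linarith
      rw [this, mul_rpow (by positivity) (exp_pos _).le, ← exp_mul, hZdef]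
    have e3 : 2 * Hk dl (m * exp t) (m * exp (-t)) * (m * exp t * Z +
        m * exp (-t) * (Z * exp (-(2 * (t - p)) * dl))) =
        Z * ((1 - e) * (W + W' * exp (-(2 * (t - p)) * dl))) := by
      rw [hH, hW, hW']; field_simp; ring
    rw [e2, e3]
    refine mul_le_mul_of_nonneg_left (mul_le_mul_of_nonneg_left ?_ (by linarith [h.2])) hZ.le
    have hw0 : 0 ≤ W' := by rw [hW']; positivity
    nlinarith [mul_le_mul_of_nonneg_left (add_one_le_exp (-(2 * (t - p)) * dl)) hw0]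
  rw [jens]
  obtain ⟨k0, k1⟩ := h.Kc_mem
  have key := jens_scalar h (h2 := h' ^ 2) k0 k1 he (sq_nonneg _) (tanh_sq_lt_one t).le y0 ePsi
    hsig q0 q1
  calc _ ≤ Kc dl * (Z * ((1 + 2 * dl * e) * (1 - dl * Y + 4 * dl ^ 2 * h' ^ 2)) -
        Z * ((1 - e) * (1 - dl * (W' * (2 * (t - p)))))) :=
      mul_le_mul_of_nonneg_left (sub_le_sub hfirst hsecond) h.Kc_pos.le
    _ = Z * (Kc dl * ((1 + 2 * dl * e) * (1 - dl * Y + 4 * dl ^ 2 * h' ^ 2) -
        (1 - e) * (1 - dl * (W' * (2 * (t - p)))))) := by ring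
    _ ≤ _ := mul_le_mul_of_nonneg_left key hZ.le

end Vale.Agent.P371.Leg
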