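import Vale.Agent.P371.Leg.Slope

/-!
# P371: what the inequality uses about the profile
-/

namespace Vale.Agent.P371.Leg

open Set Filter Topology Real

variable {dl : ℝ}

/-- The slack in the logarithmic slope of the profile density. -/
noncomputable def slack (dl : ℝ) : ℝ := 2 * (2 * Flow.kap dl + Flow.eps dl) + 6000 * dl

/-- The lower bound on the density. -/
noncomputable def c0 : ℝ := 816 / 1000

/-- The quantitative properties of the profile, in the variable `u ≥ 0`. -/
structure IsGood (dl : ℝ) (E Q : ℝ → ℝ) : Prop where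
  prof : IsProfile dl E Q
  ident : ∀ u, 0 < u → Kc dl * (4 * u) ^ dl =
    (kExp dl - Q u) * E u + Q u * (1 - Q u) * u - (E u ^ 2 - 1) / (4 * u)
  qu_le : ∀ u, 0 < u → Q u * u ≤ 800 * dl * (4 * u) ^ dl
  E_ge : ∀ u, 0 < u → (4 * u) ^ dl * (1 - 500 * dl) ≤ E u
  E_mono : ∀ u v, 0 < u → u ≤ v → E u ≤ E v
  dq_le : ∀ u v, 0 < u → u ≤ v → Q u - Q v ≤ 200 * dl * log (v / u)
  dE_le : ∀ u v, 0 < u → u ≤ v → E v - E u ≤ v * (Q u - Q v)
  dq_ge : ∀ u v, 0 < u → u ≤ v → 2 * dl * c0 * (4 * u) ^ dl *
    log (v * (1 + 2 * u) / (u * (1 + 2 * v))) ≤ Q u - Q v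
  sec_add : ∀ u v, 0 < u → u ≤ v → E v - E u ≤ (Q u - Q v) *
    ((√((1 + 2 * u) * (1 + 2 * v)) - 1) / 2 + (v - u) * ((v / u) ^ slack dl - 1))
  sec_mul : ∀ u v, 0 < u → u ≤ v → E v - E u ≤ (Q u - Q v) *
    ((v / u) ^ slack dl * ((√((1 + 2 * u) * (1 + 2 * v)) - 1) / 2))

lemma Tiny.slack_mem (h : Tiny dl) : 0 ≤ slack dl ∧ slack dl ≤ 1 / 100 := by
  unfold slack Flow.kap Flow.eps
  constructor <;> linarith [h.1, h.2]

namespace Flow

variable (F : Flow dl)

lemma qd_eq_c (h : Small dl) (l : ℝ) :
    F.qd l = -(dl * Kc dl * F.z l * F.c l / F.D l) := by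
  have := F.z_pos l
  have := h.Kc_pos
  have := h.1
  rw [F.qd_eq h, c]
  field_simp

lemma D_le (h : Small dl) (l : ℝ) : F.D l ≤ (1 + 4000 * dl) * (1 + 2 * exp l) := by
  have h1 := (F.E_sub_one_le h l).2.1
  have h2 := F.qu_le h l
  have h3 := (F.z_div_le h l).1
  rw [div_le_iff₀ (by positivity)] at h3
  have h4 := mul_le_mul_of_nonneg_right h.k_mem.2.2 (exp_pos l).le
  unfold D
  nlinarith [mul_le_mul_of_nonneg_left h3 h.1.le, mul_pos h.1 (exp_pos l), h.1]

lemma dq_ge_low (h : Tiny dl) (l : ℝ) :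
    2 * dl * c0 * F.z l / (1 + 2 * exp l) ≤ -F.qd l := by
  have hs := h.small
  have hz := F.z_pos l
  rw [F.qd_eq_c hs, neg_neg, div_le_div_iff₀ (by positivity) (F.D_pos l)]
  have hc : 817398 / 1000000 ≤ F.c l := by
    have := F.c_ge hs l
    have := mul_le_mul_of_nonneg_left (Sl_le_one l) (show (0:ℝ) ≤ lam by norm_num [lam])
    unfold lam eps at *
    linarith [h.2]
  have hK : c0 * 2 * (1 + 4000 * dl) ≤ Kc dl * F.c l := by
    calc c0 * 2 * (1 + 4000 * dl) ≤ 2 * (1 - dl) * (817398 / 1000000) := by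
          unfold c0; nlinarith [h.1, h.2]
      _ ≤ _ := mul_le_mul hs.Kc_mem.1 hc (by norm_num) hs.Kc_pos.le
  have hp : 0 < dl * F.z l := mul_pos h.1 hz
  calc 2 * dl * c0 * F.z l * F.D l
      ≤ 2 * dl * c0 * F.z l * ((1 + 4000 * dl) * (1 + 2 * exp l)) := by
        refine mul_le_mul_of_nonneg_left (F.D_le hs l) ?_
        unfold c0; nlinarith
    _ = dl * F.z l * (c0 * 2 * (1 + 4000 * dl)) * (1 + 2 * exp l) := by ring
    _ ≤ dl * F.z l * (Kc dl * F.c l) * (1 + 2 * exp l) := by gcongr
    _ = _ := by ring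

/-- The density with the reference weight removed. -/
noncomputable def dens (l : ℝ) : ℝ :=
  dl * Kc dl * (F.z l * F.c l / F.D l * (√(1 + 2 * exp l) * exp (-slack dl * l)))

lemma qd_eq_dens (h : Small dl) (l : ℝ) :
    -F.qd l = F.dens l * (exp (slack dl * l) / √(1 + 2 * exp l)) := by
  have : 0 < √(1 + 2 * exp l) := by positivity
  rw [F.qd_eq_c h, dens, show -slack dl * l = -(slack dl * l) by ring, exp_neg]
  field_simp

lemma dens_anti (h : Tiny dl) : Antitone F.dens := by
  have hs := h.small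
  set A : ℝ → ℝ := fun l => F.f l + F.c l * Tl l + F.err1 l + F.c l * (dl - slack dl +
    exp l / (1 + 2 * exp l) - (2 * (bExp dl + F.q l) * exp l + exp l * F.qd l) / F.D l)
  have hd : ∀ l, HasDerivAt F.dens
      (dl * Kc dl * (F.z l / F.D l * (√(1 + 2 * exp l) * exp (-slack dl * l)) * A l)) l := by
    intro l
    have hp : (0:ℝ) < 1 + 2 * exp l := by positivity
    have hsq : 0 < √(1 + 2 * exp l) := by positivity
    have hD : HasDerivAt F.D (2 * (bExp dl + F.q l) * exp l + exp l * F.qd l) l :=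
      ((F.hE l).add ((((F.hq l).const_add (bExp dl)).const_mul 2).mul
        (Real.hasDerivAt_exp l))).congr_deriv (by ring)
    have hsr := (((Real.hasDerivAt_exp l).const_mul 2).const_add 1).sqrt hp.ne'
    refine (((((F.hasDerivAt_z l).mul (F.hasDerivAt_c hs l)).div hD (F.D_pos l).ne').mul
      (hsr.mul ((hasDerivAt_id l).const_mul (-slack dl)).exp)).const_mul
        (dl * Kc dl)).congr_deriv ?_
    simp only [Pi.mul_apply, Pi.div_apply, id_eq, A]
    have := (F.D_pos l).ne'
    have e := sq_sqrt hp.le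
    field_simp
    rw [e]
    ring
  refine antitone_of_hasDerivAt_nonpos hd fun l => ?_
  show _ ≤ (0:ℝ)
  refine mul_nonpos_of_nonneg_of_nonpos (mul_nonneg h.1.le hs.Kc_pos.le)
    (mul_nonpos_of_nonneg_of_nonpos
      (mul_nonneg (div_nonneg (F.z_pos l).le (F.D_pos l).le) (by positivity)) ?_)
  have hG := F.G_le h l
  have he := (abs_le.1 (F.err_le hs l).1).2
  have hu := exp_pos l
  have hp : (0:ℝ) < 1 + 2 * exp l := by positivity
  have hc := F.c_ge hs l
  have hS := mul_le_mul_of_nonneg_left (Sl_le_one l) (show (0:ℝ) ≤ lam by norm_num [lam])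
  have hc8 : 1 / 2 ≤ F.c l := by unfold lam eps at *; linarith [h.2]
  have hDl : 2 * exp l / (1 + 2 * exp l) - 5000 * dl ≤
      (2 * (bExp dl + F.q l) * exp l + exp l * F.qd l) / F.D l := by
    rw [le_div_iff₀ (F.D_pos l)]
    have hqd := mul_le_mul_of_nonneg_left (F.qd_ge hs l) hu.le
    have hz3 := (F.z_div_le hs l).1
    have hE := (F.E_sub_one_le hs l).2.1
    have hb := hs.one_lt_b
    have hq0 := F.q_nonneg hs l
    have key : 2 * exp l / (1 + 2 * exp l) * F.D l ≤
        2 * (bExp dl + F.q l) * exp l + 400 * dl * exp l := by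
      rw [div_mul_eq_mul_div, div_le_iff₀ hp]
      unfold D
      nlinarith [mul_le_mul_of_nonneg_left hE hu.le,
        mul_nonneg (mul_nonneg h.1.le hu.le) hu.le,
        mul_nonneg (show 0 ≤ bExp dl + F.q l - 1 by linarith) hu.le]
    have h1 := F.one_add_le_D hs l
    have h4 := mul_le_mul_of_nonneg_left hz3 (mul_nonneg h.1.le hu.le)
    have h5 := mul_le_mul_of_nonneg_left h1 h.1.le
    have h6 : 0 ≤ dl * exp l := mul_nonneg h.1.le hu.le
    linarith [h.1]
  have hT : exp l / (1 + 2 * exp l) = (1 + Tl l) / 4 := by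
    unfold Tl; field_simp; ring
  have hT2 : 2 * exp l / (1 + 2 * exp l) = (1 + Tl l) / 2 := by
    rw [mul_div_assoc, hT]; ring
  rw [hT2] at hDl
  have h2 := mul_le_mul_of_nonneg_left hDl (F.c_mem hs l).1
  have h3 := mul_le_mul_of_nonneg_right hc8 (show 0 ≤ slack dl - dl - 5000 * dl by
    unfold slack kap eps; linarith [h.1])
  simp only [A, hT]
  unfold G at hG
  unfold slack at h3 ⊢
  linarith [h.1]

/-- The reference antiderivatives. -/
noncomputable def ref (s : ℝ) (l : ℝ) : ℝ :=
  √(1 + 2 * exp l) - s * (log (√(1 + 2 * exp l) - 1) - log (√(1 + 2 * exp l) + 1))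

lemma hasDerivAt_ref (s l : ℝ) :
    HasDerivAt (ref s) ((exp l - s) / √(1 + 2 * exp l)) l := by
  have hu := exp_pos l
  have hp : (0:ℝ) < 1 + 2 * exp l := by positivity
  have h1 : 1 < √(1 + 2 * exp l) := by rw [lt_sqrt zero_le_one]; linarith
  have hsr := (((Real.hasDerivAt_exp l).const_mul 2).const_add 1).sqrt hp.ne'
  refine (hsr.sub ((((hsr.sub_const 1).log (by linarith)).sub
    ((hsr.add_const 1).log (by linarith))).const_mul s)).congr_deriv ?_
  have e := sq_sqrt hp.le
  have h2 : √(1 + 2 * exp l) - 1 ≠ 0 := by linarith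
  have h3 : √(1 + 2 * exp l) + 1 ≠ 0 := by linarith
  field_simp
  linear_combination s * e

lemma ref_le {lx ly : ℝ} (hl : lx ≤ ly) :
    ref ((√((1 + 2 * exp lx) * (1 + 2 * exp ly)) - 1) / 2) ly ≤
      ref ((√((1 + 2 * exp lx) * (1 + 2 * exp ly)) - 1) / 2) lx := by
  have he := exp_le_exp.2 hl
  unfold ref
  rw [sqrt_mul (by positivity)]
  set a := √(1 + 2 * exp lx)
  set b := √(1 + 2 * exp ly)
  have ha : 1 < a := by rw [lt_sqrt zero_le_one]; linarith [exp_pos lx]
  have hab : a ≤ b := sqrt_le_sqrt (by linarith)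
  rcases hab.eq_or_lt with e | hlt
  · rw [e]
  set r := (b - 1) * (a + 1) / ((a - 1) * (b + 1)) with hr
  have hr1 : 1 ≤ r := by
    rw [hr, le_div_iff₀ (by nlinarith)]; nlinarith
  have hlog : 2 * (r - 1) / (r + 1) ≤ log r := by
    have h := (monotoneOn_of_hasDerivWithinAt_nonneg (D := Ici (1:ℝ))
      (f := fun x => log x - 2 * (x - 1) / (x + 1))
      (f' := fun x => x⁻¹ - (2 * (x + 1) - 2 * (x - 1)) / (x + 1) ^ 2) (convex_Ici 1)
      (ContinuousOn.sub (continuousOn_log.mono fun x hx => by
          simp only [mem_compl_iff, mem_singleton_iff]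
          have := mem_Ici.1 hx
          linarith)
        (ContinuousOn.div (by fun_prop) (by fun_prop) fun x hx => by
          have := mem_Ici.1 hx
          linarith))
      (fun x hx => by
        rw [interior_Ici, mem_Ioi] at hx
        exact ((hasDerivAt_log (by linarith)).sub
          ((((hasDerivAt_id x).sub_const 1).const_mul 2).div ((hasDerivAt_id x).add_const 1)
            (by simp only [id_eq]; linarith))).hasDerivWithinAt.congr_deriv (by simp))
      (fun x hx => by
        rw [interior_Ici, mem_Ioi] at hx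
        rw [sub_nonneg, inv_eq_one_div, div_le_div_iff₀ (by positivity) (by linarith)]
        nlinarith [sq_nonneg (x - 1)])) self_mem_Ici (mem_Ici.2 hr1) hr1
    simp only [log_one, sub_self, mul_zero, zero_div] at h
    linarith
  have e : 2 * (r - 1) / (r + 1) = 2 * (b - a) / (a * b - 1) := by
    have h0 : (a - 1) * (b + 1) ≠ 0 := by apply mul_ne_zero <;> linarith
    have e1 : r - 1 = 2 * (b - a) / ((a - 1) * (b + 1)) := by
      rw [hr, div_sub_one h0]; ring
    have e2 : r + 1 = 2 * (a * b - 1) / ((a - 1) * (b + 1)) := by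
      rw [hr, div_add_one h0]; ring
    have h4 : a * b - 1 ≠ 0 := by nlinarith
    rw [e1, e2, ← mul_div_assoc, div_div_div_cancel_right₀ h0]
    field_simp
  rw [e, div_le_iff₀ (by nlinarith)] at hlog
  have er : log r = log (b - 1) - log (b + 1) - (log (a - 1) - log (a + 1)) := by
    rw [hr, log_div (by apply mul_ne_zero <;> linarith) (by apply mul_ne_zero <;> linarith),
      log_mul (by linarith) (by linarith), log_mul (by linarith) (by linarith)]
    ring
  rw [er] at hlog
  nlinarith

lemma sec_le (h : Tiny dl) {lx ly s1 : ℝ} (hl : lx ≤ ly)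
    (hcase : (∀ l ∈ Icc lx ly, (exp l - s1) * exp (slack dl * (l - lx)) ≤
      exp (slack dl * (ly - lx)) *
        (exp l - (√((1 + 2 * exp lx) * (1 + 2 * exp ly)) - 1) / 2)) ∨
      (∀ l ∈ Icc lx ly, (exp l - s1) * exp (slack dl * (l - lx)) ≤
        exp l - (√((1 + 2 * exp lx) * (1 + 2 * exp ly)) - 1) / 2))
    (hpos : 0 < s1) :
    F.E ly - F.E lx ≤ (F.q lx - F.q ly) * s1 := by
  have hs := h.small
  set s0 := (√((1 + 2 * exp lx) * (1 + 2 * exp ly)) - 1) / 2 with hs0
  obtain ⟨C, hC0, hC⟩ : ∃ C, 0 ≤ C ∧ ∀ l ∈ Icc lx ly,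
      (exp l - s1) * exp (slack dl * (l - lx)) ≤ C * (exp l - s0) := by
    rcases hcase with hh | hh
    · exact ⟨_, (exp_pos _).le, hh⟩
    · exact ⟨1, zero_le_one, by simpa using hh⟩
  set ls := max lx (min ly (log s1))
  have hdens : ∀ l, 0 ≤ F.dens l := fun l => by
    have := F.z_pos l; have := (F.c_mem hs l).1; have := F.D_pos l; have := hs.Kc_pos
    have := h.1
    unfold dens; positivity
  set B := F.dens ls * exp (slack dl * lx) * C with hB
  have anti : AntitoneOn (fun l => F.E l + s1 * F.q l - B * ref s0 l) (Icc lx ly) := by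
    refine antitoneOn_of_hasDerivWithinAt_nonpos (convex_Icc _ _)
      (fun l _ => (((F.hE l).add ((F.hq l).const_mul s1)).sub
        ((hasDerivAt_ref s0 l).const_mul B)).continuousAt.continuousWithinAt)
      (fun l _ => (((F.hE l).add ((F.hq l).const_mul s1)).sub
        ((hasDerivAt_ref s0 l).const_mul B)).hasDerivWithinAt) fun l hl' => ?_
    rw [interior_Icc] at hl'
    have hsq : 0 < √(1 + 2 * exp l) := by positivity
    have h1 : (exp l - s1) * F.dens l ≤ (exp l - s1) * F.dens ls := by
      rcases le_total (exp l) s1 with hle | hle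
      · refine mul_le_mul_of_nonpos_left ?_ (by linarith)
        refine F.dens_anti h ?_
        exact le_max_of_le_right (le_min hl'.2.le ((le_log_iff_exp_le hpos).2 hle))
      · refine mul_le_mul_of_nonneg_left ?_ (by linarith)
        refine F.dens_anti h ?_
        exact max_le hl'.1.le ((min_le_right _ _).trans ((log_le_iff_le_exp hpos).2 hle))
    have h2 := mul_le_mul_of_nonneg_left (hC l (Ioo_subset_Icc_self hl'))
      (mul_nonneg (hdens ls) (exp_pos (slack dl * lx)).le)
    have e : exp (slack dl * l) = exp (slack dl * lx) * exp (slack dl * (l - lx)) := by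
      rw [← exp_add]; ring_nf
    have key : -(exp l * F.qd l) + s1 * F.qd l ≤ B * ((exp l - s0) / √(1 + 2 * exp l)) := by
      calc -(exp l * F.qd l) + s1 * F.qd l = (exp l - s1) * (-F.qd l) := by ring
        _ = (exp l - s1) * F.dens l * (exp (slack dl * l) / √(1 + 2 * exp l)) := by
            rw [F.qd_eq_dens hs]; ring
        _ ≤ (exp l - s1) * F.dens ls * (exp (slack dl * l) / √(1 + 2 * exp l)) :=
            mul_le_mul_of_nonneg_right h1 (by positivity)
        _ = F.dens ls * exp (slack dl * lx) * ((exp l - s1) * exp (slack dl * (l - lx))) /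
              √(1 + 2 * exp l) := by rw [e]; ring
        _ ≤ F.dens ls * exp (slack dl * lx) * (C * (exp l - s0)) / √(1 + 2 * exp l) :=
            div_le_div_of_nonneg_right h2 hsq.le
        _ = _ := by rw [hB]; ring
    linarith
  have hfin := anti (left_mem_Icc.2 hl) (right_mem_Icc.2 hl) hl
  have href : ref s0 ly ≤ ref s0 lx := ref_le hl
  have hB0 : 0 ≤ B := mul_nonneg (mul_nonneg (hdens ls) (exp_pos _).le) hC0
  have := mul_le_mul_of_nonneg_left href hB0
  simp only at hfin
  linarith

/-- The profile energy in the variable `u`. -/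
noncomputable def Ef (u : ℝ) : ℝ := if 0 < u then F.E (log u) else 1

/-- The profile parameter in the variable `u`. -/
noncomputable def Qf (u : ℝ) : ℝ := if 0 < u then F.q (log u) else kExp dl

lemma q_tendsto_bot (h : Small dl) : Tendsto F.q atBot (𝓝 (kExp dl)) := by
  have hlo : ∀ l, kExp dl - (Kc dl + 800 * dl * 3 + 2000 * dl) * F.z l ≤ F.q l := fun l => by
    have hz := F.z_pos l
    have hid := F.ident l
    have hqk := F.q_le_k h l
    have hE := F.one_le_E h l
    have h1 := mul_le_mul_of_nonneg_left hE (show 0 ≤ kExp dl - F.q l by linarith)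
    have h2 : -(800 * dl * 3 * F.z l) ≤ F.q l * (1 - F.q l) * exp l := by
      have h3 : -3 ≤ 1 - F.q l := by linarith [h.k_mem.2.1, h.2]
      have h4 := mul_le_mul_of_nonneg_left h3 (mul_nonneg (F.q_nonneg h l) (exp_pos l).le)
      nlinarith [F.qu_le h l]
    have h5 := F.sq_term_le h l
    have hzz : F.z l = (4 * exp l) ^ dl := rfl
    rw [← hzz] at hid
    nlinarith
  refine tendsto_of_tendsto_of_tendsto_of_le_of_le' ?_ tendsto_const_nhds
    (Eventually.of_forall hlo) (Eventually.of_forall (F.q_le_k h))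
  simpa using ((F.z_atBot h).const_mul _).const_sub (kExp dl)

lemma continuousOn_ext {f : ℝ → ℝ} {v : ℝ} (hf : Continuous f) (hv : Tendsto f atBot (𝓝 v)) :
    ContinuousOn (fun u => if 0 < u then f (log u) else v) (Ici 0) := by
  intro x hx
  rcases (mem_Ici.1 hx).eq_or_lt with e | hlt
  · subst e
    rw [← continuousWithinAt_Ioi_iff_Ici, ContinuousWithinAt, if_neg (lt_irrefl 0)]
    refine (hv.comp tendsto_log_nhdsGT_zero).congr' ?_
    filter_upwards [self_mem_nhdsWithin] with u hu
    rw [Function.comp_apply, if_pos (mem_Ioi.1 hu)]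
  · refine ContinuousAt.continuousWithinAt ?_
    refine (hf.continuousAt.comp (continuousAt_log hlt.ne')).congr ?_
    filter_upwards [Ioi_mem_nhds hlt] with u hu
    rw [Function.comp_apply, if_pos (mem_Ioi.1 hu)]

lemma tangent (h : Small dl) (l m : ℝ) :
    F.E l + F.q l * exp l ≤ F.E m + F.q m * exp l := by
  have hd : ∀ r, HasDerivAt (fun r => F.E r + F.q r * exp l)
      ((exp l - exp r) * F.qd r) r := fun r =>
    ((F.hE r).add ((F.hq r).mul_const (exp l))).congr_deriv (by ring)
  rcases le_total l m with hlm | hlm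
  · exact monotoneOn_of_hasDerivWithinAt_nonneg (convex_Ici l)
      (fun r _ => (hd r).continuousAt.continuousWithinAt)
      (fun r _ => (hd r).hasDerivWithinAt) (fun r hr => by
        rw [interior_Ici, mem_Ioi] at hr
        exact mul_nonneg_of_nonpos_of_nonpos (by linarith [exp_le_exp.2 hr.le])
          (F.qd_nonpos h r)) self_mem_Ici (mem_Ici.2 hlm) hlm
  · exact antitoneOn_of_hasDerivWithinAt_nonpos (convex_Iic l)
      (fun r _ => (hd r).continuousAt.continuousWithinAt)
      (fun r _ => (hd r).hasDerivWithinAt) (fun r hr => by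
        rw [interior_Iic, mem_Iio] at hr
        exact mul_nonpos_of_nonneg_of_nonpos (by linarith [exp_le_exp.2 hr.le])
          (F.qd_nonpos h r)) (mem_Iic.2 hlm) self_mem_Iic hlm

theorem isProfile (h : Small dl) : IsProfile dl F.Ef F.Qf := by
  have hEc : Continuous F.E := continuous_iff_continuousAt.2 fun l => (F.hE l).continuousAt
  have hqc : Continuous F.q := continuous_iff_continuousAt.2 fun l => (F.hq l).continuousAt
  refine ⟨fun u _ => ?_, fun u _ => ?_, ?_, ⟨continuousOn_ext hEc F.E_bot,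
    continuousOn_ext hqc (F.q_tendsto_bot h)⟩, ?_, ?_⟩
  · unfold Qf
    split_ifs
    · exact ⟨F.q_nonneg h _, F.q_le_k h _⟩
    · exact ⟨by linarith [h.k_mem.1], le_rfl⟩
  · unfold Ef
    split_ifs
    · exact F.one_le_E h _
    · exact le_rfl
  · simp [Ef, Qf]
  · intro u hu v hv huv
    unfold Qf
    rcases (mem_Ici.1 hu).eq_or_lt with e | hlt
    · rw [← e, if_neg (lt_irrefl 0)]
      split_ifs
      · exact F.q_le_k h _
      · exact le_rfl
    · rw [if_pos hlt, if_pos (hlt.trans_le huv)]
      exact F.q_anti h (log_le_log hlt huv)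
  · intro u v hu hv
    unfold Ef Qf
    rcases hu.eq_or_lt with e | hu0
    · rw [← e]
      simp only [lt_self_iff_false, if_false, mul_zero, add_zero]
      split_ifs
      · exact F.one_le_E h _
      · exact le_rfl
    · rw [if_pos hu0, if_pos hu0]
      rcases hv.eq_or_lt with e | hv0
      · rw [← e]
        simp only [lt_self_iff_false, if_false]
        have := F.tangent h (log u)
        rw [exp_log hu0] at this
        exact ge_of_tendsto (F.E_bot.add ((F.q_tendsto_bot h).mul_const u))
          (Eventually.of_forall this)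
      · rw [if_pos hv0, if_pos hv0]
        have := F.tangent h (log u) (log v)
        rwa [exp_log hu0] at this

lemma dq_bounds (h : Tiny dl) {lx ly : ℝ} (hl : lx ≤ ly) :
    F.q lx - F.q ly ≤ 200 * dl * (ly - lx) ∧
    2 * dl * c0 * F.z lx * (ly - log (1 + 2 * exp ly) - (lx - log (1 + 2 * exp lx))) ≤
      F.q lx - F.q ly ∧
    F.E ly - F.E lx ≤ exp ly * (F.q lx - F.q ly) := by
  have hs := h.small
  have hd : ∀ l, HasDerivAt (fun r => r - log (1 + 2 * exp r)) (1 / (1 + 2 * exp l)) l :=
    fun l => ((hasDerivAt_id l).sub ((((Real.hasDerivAt_exp l).const_mul 2).const_add 1).log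
      (by positivity))).congr_deriv (by field_simp; ring)
  refine ⟨?_, ?_, ?_⟩
  · have mon := monotone_of_hasDerivAt_nonneg
      (f := fun r => F.q r + 200 * dl * r) (f' := fun r => F.qd r + 200 * dl * 1)
      (fun r => (F.hq r).add ((hasDerivAt_id r).const_mul _)) fun r => show (0:ℝ) ≤ _ by
        nlinarith [F.qd_ge hs r, mul_le_mul_of_nonneg_left (F.z_div_le hs r).1 h.1.le]
    have := mon hl
    simp only at this
    linarith
  · have anti : AntitoneOn (fun r => F.q r + 2 * dl * c0 * F.z lx * (r - log (1 + 2 * exp r)))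
        (Icc lx ly) := antitoneOn_of_hasDerivWithinAt_nonpos (convex_Icc _ _)
      (fun r _ => ((F.hq r).add ((hd r).const_mul _)).continuousAt.continuousWithinAt)
      (fun r _ => ((F.hq r).add ((hd r).const_mul _)).hasDerivWithinAt) fun r hr => by
        rw [interior_Icc] at hr
        have hz : F.z lx ≤ F.z r := rpow_le_rpow (by positivity)
          (by linarith [exp_le_exp.2 hr.1.le]) h.1.le
        have h2 := mul_le_mul_of_nonneg_left hz
          (show 0 ≤ 2 * dl * c0 / (1 + 2 * exp r) by
            have := h.1; unfold c0; positivity)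
        have h3 := F.dq_ge_low h r
        rw [mul_div_assoc] at h3
        have e : 2 * dl * c0 * F.z lx * (1 / (1 + 2 * exp r)) =
            2 * dl * c0 / (1 + 2 * exp r) * F.z lx := by ring
        have e2 : 2 * dl * c0 * (F.z r / (1 + 2 * exp r)) =
            2 * dl * c0 / (1 + 2 * exp r) * F.z r := by ring
        linarith
    have := anti (left_mem_Icc.2 hl) (right_mem_Icc.2 hl) hl
    simp only at this
    linarith
  · have anti : AntitoneOn (fun r => F.E r + exp ly * F.q r) (Icc lx ly) :=
      antitoneOn_of_hasDerivWithinAt_nonpos (convex_Icc _ _)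
      (fun r _ => ((F.hE r).add ((F.hq r).const_mul _)).continuousAt.continuousWithinAt)
      (fun r _ => ((F.hE r).add ((F.hq r).const_mul _)).hasDerivWithinAt) fun r hr => by
        rw [interior_Icc] at hr
        have := mul_nonpos_of_nonneg_of_nonpos
          (show 0 ≤ exp ly - exp r by linarith [exp_le_exp.2 hr.2.le]) (F.qd_nonpos hs r)
        linarith
    have := anti (left_mem_Icc.2 hl) (right_mem_Icc.2 hl) hl
    simp only at this
    linarith

lemma sec_bounds (h : Tiny dl) {lx ly : ℝ} (hl : lx ≤ ly) :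
    F.E ly - F.E lx ≤ (F.q lx - F.q ly) *
      ((√((1 + 2 * exp lx) * (1 + 2 * exp ly)) - 1) / 2 +
        (exp ly - exp lx) * (exp (slack dl * (ly - lx)) - 1)) ∧
    F.E ly - F.E lx ≤ (F.q lx - F.q ly) * (exp (slack dl * (ly - lx)) *
      ((√((1 + 2 * exp lx) * (1 + 2 * exp ly)) - 1) / 2)) := by
  have hex := exp_le_exp.2 hl
  have hs0 : exp lx ≤ (√((1 + 2 * exp lx) * (1 + 2 * exp ly)) - 1) / 2 := by
    have h1 : 1 + 2 * exp lx ≤ √((1 + 2 * exp lx) * (1 + 2 * exp ly)) :=
      le_sqrt_of_sq_le (by rw [sq]; gcongr)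
    linarith
  have hs0' : (√((1 + 2 * exp lx) * (1 + 2 * exp ly)) - 1) / 2 ≤ exp ly := by
    have h1 : √((1 + 2 * exp lx) * (1 + 2 * exp ly)) ≤ 1 + 2 * exp ly := by
      rw [sqrt_le_left (by positivity), sq]; gcongr
    linarith
  have hk := h.slack_mem.1
  have hr0 : 1 ≤ exp (slack dl * (ly - lx)) := one_le_exp (mul_nonneg hk (by linarith))
  set s0 := (√((1 + 2 * exp lx) * (1 + 2 * exp ly)) - 1) / 2 with hsdef
  have hr : ∀ l ∈ Icc lx ly, 1 ≤ exp (slack dl * (l - lx)) ∧
      exp (slack dl * (l - lx)) ≤ exp (slack dl * (ly - lx)) := fun l hl' =>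
    ⟨one_le_exp (mul_nonneg hk (by linarith [hl'.1])),
      exp_le_exp.2 (mul_le_mul_of_nonneg_left (by linarith [hl'.2]) hk)⟩
  constructor
  · refine F.sec_le h hl (Or.inr fun l hl' => ?_) ?_
    · obtain ⟨h1, h2⟩ := hr l hl'
      have hu1 := exp_le_exp.2 hl'.1
      have hu2 := exp_le_exp.2 hl'.2
      have h3 : (exp l - s0) * (exp (slack dl * (l - lx)) - 1) ≤
          (exp ly - exp lx) * (exp (slack dl * (ly - lx)) - 1) :=
        mul_le_mul (by linarith) (by linarith) (by linarith) (by linarith)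
      have h4 := mul_le_mul_of_nonneg_left h1
        (show 0 ≤ (exp ly - exp lx) * (exp (slack dl * (ly - lx)) - 1) by
          apply mul_nonneg <;> linarith)
      rw [← hsdef]
      linarith
    · have := exp_pos lx
      have : 0 ≤ (exp ly - exp lx) * (exp (slack dl * (ly - lx)) - 1) := by
        apply mul_nonneg <;> linarith
      linarith
  · refine F.sec_le h hl (Or.inl fun l hl' => ?_) (mul_pos (exp_pos _) (by linarith [exp_pos lx]))
    obtain ⟨h1, h2⟩ := hr l hl'
    have h4 := mul_le_mul_of_nonneg_left h2 (exp_pos l).le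
    have h5 := mul_le_mul_of_nonneg_left h1
      (show 0 ≤ exp (slack dl * (ly - lx)) * s0 from
        mul_nonneg (exp_pos _).le (by linarith [exp_pos lx]))
    rw [← hsdef]
    linarith

theorem isGood (h : Tiny dl) : IsGood dl F.Ef F.Qf := by
  have hs := h.small
  have he : ∀ u, 0 < u → F.Ef u = F.E (log u) := fun u hu => if_pos hu
  have hq : ∀ u, 0 < u → F.Qf u = F.q (log u) := fun u hu => if_pos hu
  have hr : ∀ u v : ℝ, 0 < u → 0 < v → ∀ s : ℝ,
      (v / u) ^ s = exp (s * (log v - log u)) := fun u v hu hv s => by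
    rw [rpow_def_of_pos (div_pos hv hu), log_div hv.ne' hu.ne', mul_comm]
  refine ⟨F.isProfile hs, fun u hu => ?_, fun u hu => ?_, fun u hu => ?_,
    fun u v hu huv => ?_, fun u v hu huv => ?_, fun u v hu huv => ?_, fun u v hu huv => ?_,
    fun u v hu huv => ?_, fun u v hu huv => ?_⟩
  · have := F.ident (log u)
    rw [exp_log hu] at this
    rw [he u hu, hq u hu]; exact this
  · have := F.qu_le hs (log u)
    unfold z at this
    rw [exp_log hu] at this
    rw [hq u hu]; exact this
  · have hid := F.ident (log u)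
    have hqu := F.qu_le hs (log u)
    unfold z at hqu
    rw [exp_log hu] at hid hqu
    rw [he u hu]
    have hE := F.one_le_E hs (log u)
    have hq0 := F.q_nonneg hs (log u)
    have hz : 0 < (4 * u) ^ dl := rpow_pos_of_pos (by linarith) _
    set Z := (4 * u) ^ dl
    have h1 : Kc dl * Z ≤ kExp dl * F.E (log u) + 800 * dl * Z := by
      have : 0 ≤ (F.E (log u) ^ 2 - 1) / (4 * u) := div_nonneg (by nlinarith) (by positivity)
      nlinarith [mul_nonneg hq0 (by linarith : 0 ≤ F.E (log u)),
        mul_nonneg (mul_nonneg hq0 hq0) hu.le]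
    have h2 := mul_le_mul_of_nonneg_right hs.Kc_mem.1 hz.le
    have h3 := mul_le_mul_of_nonneg_right hs.k_mem.2.1 (show 0 ≤ F.E (log u) by linarith)
    have h4 : (2 + 3 * dl) * (Z * (1 - 500 * dl)) ≤ Z * (2 * (1 - dl) - 800 * dl) := by
      rw [mul_left_comm]
      exact mul_le_mul_of_nonneg_left (by nlinarith [h.1]) hz.le
    nlinarith [h.1]
  · rw [he u hu, he v (hu.trans_le huv)]; exact F.E_mono hs (log_le_log hu huv)
  · rw [hq u hu, hq v (hu.trans_le huv), log_div (hu.trans_le huv).ne' hu.ne']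
    exact (F.dq_bounds h (log_le_log hu huv)).1
  · rw [hq u hu, hq v (hu.trans_le huv), he u hu, he v (hu.trans_le huv)]
    have := (F.dq_bounds h (log_le_log hu huv)).2.2
    rwa [exp_log (hu.trans_le huv)] at this
  · have hv := hu.trans_le huv
    rw [hq u hu, hq v hv]
    have := (F.dq_bounds h (log_le_log hu huv)).2.1
    unfold z at this
    rw [exp_log hu, exp_log hv] at this
    convert this using 2
    rw [log_div (by positivity) (by positivity), log_mul hv.ne' (by positivity),
      log_mul hu.ne' (by positivity)]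
    ring
  · have hv := hu.trans_le huv
    rw [hq u hu, hq v hv, he u hu, he v hv, hr u v hu hv]
    have := (F.sec_bounds h (log_le_log hu huv)).1
    rwa [exp_log hu, exp_log hv] at this
  · have hv := hu.trans_le huv
    rw [hq u hu, hq v hv, he u hu, he v hv, hr u v hu hv]
    have := (F.sec_bounds h (log_le_log hu huv)).2
    rwa [exp_log hu, exp_log hv] at this

end Flow

/-- The profile exists, with all the bounds used below. -/
theorem exists_good (h : Tiny dl) : ∃ E Q : ℝ → ℝ, IsGood dl E Q :=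
  (exists_flow h.small).elim fun F => ⟨_, _, F.isGood h⟩

end Vale.Agent.P371.Leg
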