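import Vale.Agent.P371.Leg.Bounds
import Vale.Agent.P371.Leg.MinPrinciple

/-!
# P371: the shape of the profile density
-/

namespace Vale.Agent.P371.Leg

open Set Filter Topology Real

variable {dl : ℝ}

/-- The smallness used throughout. -/
def Tiny (dl : ℝ) : Prop := 0 < dl ∧ dl ≤ 1 / 10 ^ 13

lemma Tiny.small (h : Tiny dl) : Small dl := ⟨h.1, h.2.trans (by norm_num)⟩

/-- `(2u-1)/(2u+1)`. -/
noncomputable def Tl (l : ℝ) : ℝ := (2 * exp l - 1) / (2 * exp l + 1)

/-- `2 √(2u) / (1+2u)`. -/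
noncomputable def Sl (l : ℝ) : ℝ := 2 * √2 * exp (l / 2) / (2 * exp l + 1)

lemma Sl_pos (l : ℝ) : 0 < Sl l := by unfold Sl; positivity

lemma sq_add_sq (l : ℝ) : Sl l ^ 2 + Tl l ^ 2 = 1 := by
  have e : exp (l / 2) ^ 2 = exp l := by rw [← exp_nat_mul]; ring_nf
  have h2 : √2 ^ 2 = (2:ℝ) := sq_sqrt two_pos.le
  unfold Sl Tl
  field_simp
  rw [h2, e]
  ring

lemma Tl_mem (l : ℝ) : -1 < Tl l ∧ Tl l < 1 := by
  have := sq_add_sq l
  have := pow_pos (Sl_pos l) 2
  constructor <;> nlinarith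

lemma Sl_le_one (l : ℝ) : Sl l ≤ 1 := by nlinarith [sq_add_sq l, sq_nonneg (Tl l)]

lemma hasDerivAt_Tl (l : ℝ) : HasDerivAt Tl (Sl l ^ 2 / 2) l := by
  have h := ((Real.hasDerivAt_exp l).const_mul 2).sub_const 1 |>.div
    (((Real.hasDerivAt_exp l).const_mul 2).add_const 1) (by positivity)
  refine h.congr_deriv ?_
  have e : exp (l / 2) ^ 2 = exp l := by rw [← exp_nat_mul]; ring_nf
  have h2 : √2 ^ 2 = (2:ℝ) := sq_sqrt two_pos.le
  unfold Sl
  field_simp
  rw [h2, e]
  ring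

lemma hasDerivAt_Sl (l : ℝ) : HasDerivAt Sl (-(Tl l * Sl l) / 2) l := by
  have h := ((((hasDerivAt_id l).div_const 2).exp).const_mul (2 * √2)).div
    (((Real.hasDerivAt_exp l).const_mul 2).add_const 1) (by positivity)
  refine h.congr_deriv ?_
  unfold Sl Tl
  simp only [id_eq]
  field_simp
  ring

namespace Flow

variable (F : Flow dl)

/-- The normalised density. -/
noncomputable def c (l : ℝ) : ℝ := 2 * F.M l / (dl * Kc dl * F.z l)

noncomputable def f (l : ℝ) : ℝ := 2 * F.F0 l / (dl * Kc dl * F.z l)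

lemma c_mem (h : Small dl) (l : ℝ) : 0 ≤ F.c l ∧ F.c l ≤ 52 := by
  have hz := F.z_pos l
  have hK := h.Kc_pos
  have := h.1
  refine ⟨div_nonneg (by linarith [F.M_nonneg h l]) (by positivity), ?_⟩
  rw [c, div_le_iff₀ (by positivity)]
  nlinarith [F.M_le h l, mul_pos h.1 hz, h.Kc_mem.1, h.2]

lemma f_mem (h : Small dl) (l : ℝ) : |F.f l| ≤ 4500 := by
  have hz := F.z_pos l
  have hK := h.Kc_pos
  have hd := h.1
  have h1 := F.sq_term_le h l
  have h2 : 0 ≤ (F.E l ^ 2 - 1) / (4 * exp l) :=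
    div_nonneg (by nlinarith [F.one_le_E h l]) (by positivity)
  have h3 : |F.q l * (1 - F.q l) * exp l| ≤ 3 * (800 * dl * F.z l) := by
    have hq0 := F.q_nonneg h l
    have hqk := F.q_le_k h l
    have : |1 - F.q l| ≤ 3 := by
      rw [abs_le]; constructor <;> linarith [h.k_mem.2.1, h.2]
    calc |F.q l * (1 - F.q l) * exp l| = |1 - F.q l| * (F.q l * exp l) := by
          rw [abs_mul, abs_mul, abs_of_nonneg hq0, abs_of_pos (exp_pos l)]; ring
      _ ≤ _ := mul_le_mul this (F.qu_le h l) (by positivity) (by norm_num)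
  rw [f, abs_div, abs_of_pos (show 0 < dl * Kc dl * F.z l by positivity),
    div_le_iff₀ (by positivity), abs_mul, abs_two]
  have h4 : |F.F0 l| ≤ 4400 * dl * F.z l := by
    unfold F0
    rw [abs_le]
    constructor <;> nlinarith [abs_le.1 h3, mul_pos hd hz]
  nlinarith [mul_pos hd hz, h.Kc_mem.1, h.2]

noncomputable def err1 (l : ℝ) : ℝ :=
  2 * dl - dl * F.c l + F.c l *
    (2 / F.D l * (exp l * (1 - 2 * F.q l) - F.E l / 2) - Tl l)

noncomputable def err2 (l : ℝ) : ℝ :=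
  -(dl * F.f l) + F.c l * (2 / F.D l * (F.E l / 2 + (1 - 2 * F.q l) * exp l) - 1)

lemma hasDerivAt_c (h : Small dl) (l : ℝ) :
    HasDerivAt F.c (F.f l + F.c l * Tl l + F.err1 l) l := by
  have hz := F.z_pos l
  have hK := h.Kc_pos
  have hd := h.1
  refine (((F.hasDerivAt_M h l).const_mul 2).div ((F.hasDerivAt_z l).const_mul (dl * Kc dl))
    (by positivity)).congr_deriv ?_
  have := (F.D_pos l).ne'
  unfold err1 f c F0
  field_simp
  ring

lemma hasDerivAt_f (h : Small dl) (l : ℝ) :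
    HasDerivAt F.f (2 * F.c l - 2 + F.err2 l) l := by
  have hz := F.z_pos l
  have hK := h.Kc_pos
  have hd := h.1
  refine (((F.hasDerivAt_F0 h l).const_mul 2).div ((F.hasDerivAt_z l).const_mul (dl * Kc dl))
    (by positivity)).congr_deriv ?_
  have := (F.D_pos l).ne'
  unfold err2 f c
  field_simp
  ring

/-- The size of the errors. -/
def eps (dl : ℝ) : ℝ := 600000 * dl

lemma err_le (h : Small dl) (l : ℝ) : |F.err1 l| ≤ eps dl ∧ |F.err2 l| ≤ eps dl := by
  have hD := F.one_add_le_D h l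
  have hDp := F.D_pos l
  have hu := exp_pos l
  obtain ⟨hc0, hc1⟩ := F.c_mem h l
  have hf := abs_le.1 (F.f_mem h l)
  have hq := F.qu_le h l
  have hq0 : 0 ≤ F.q l * exp l := mul_nonneg (F.q_nonneg h l) hu.le
  have hE := (F.E_sub_one_le h l).2.1
  have hE0 := F.one_le_E h l
  have hb := h.k_mem.2.2
  have hb0 := h.one_lt_b
  have hz : F.z l ≤ 2 * (1 + 2 * exp l) := by
    have := (F.z_div_le h l).1
    rwa [div_le_iff₀ (by positivity)] at this
  have hT := Tl_mem l
  have hd := h.1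
  have hT' : Tl l * (1 + 2 * exp l) = 2 * exp l - 1 := by
    unfold Tl; field_simp; ring
  have d1 : |2 / F.D l * (exp l * (1 - 2 * F.q l) - F.E l / 2) - Tl l| ≤ 11000 * dl := by
    set N1 := -(F.E l - 1) - 4 * (F.q l * exp l) -
      Tl l * ((F.E l - 1) + 2 * (bExp dl - 1) * exp l + 2 * (F.q l * exp l))
    have e : 2 / F.D l * (exp l * (1 - 2 * F.q l) - F.E l / 2) - Tl l = N1 / F.D l := by
      field_simp
      simp only [N1, D]
      linear_combination -hT'
    have hX : 0 ≤ (F.E l - 1) + 2 * (bExp dl - 1) * exp l + 2 * (F.q l * exp l) := by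
      have := mul_nonneg (show 0 ≤ bExp dl - 1 by linarith) hu.le
      linarith
    have hb2 := mul_le_mul_of_nonneg_right hb hu.le
    rw [e, abs_div, abs_of_pos hDp, div_le_iff₀ hDp, abs_le]
    constructor <;>
      nlinarith [mul_le_mul_of_nonneg_right hT.1.le hX, mul_le_mul_of_nonneg_right hT.2.le hX,
        mul_le_mul_of_nonneg_left hz hd.le, mul_le_mul_of_nonneg_left hD hd.le]
  have d2 : |2 / F.D l * (F.E l / 2 + (1 - 2 * F.q l) * exp l) - 1| ≤ 11000 * dl := by
    have e : 2 / F.D l * (F.E l / 2 + (1 - 2 * F.q l) * exp l) - 1 =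
        -(2 * (bExp dl - 1) * exp l + 6 * (F.q l * exp l)) / F.D l := by
      field_simp
      simp only [D]
      ring
    have hb2 := mul_le_mul_of_nonneg_right hb hu.le
    have hb3 := mul_nonneg (show 0 ≤ bExp dl - 1 by linarith) hu.le
    rw [e, abs_div, abs_of_pos hDp, div_le_iff₀ hDp, abs_neg, abs_of_nonneg (by linarith)]
    nlinarith [mul_le_mul_of_nonneg_left hz hd.le, mul_le_mul_of_nonneg_left hD hd.le]
  constructor
  · have h1 : |F.c l * (2 / F.D l * (exp l * (1 - 2 * F.q l) - F.E l / 2) - Tl l)| ≤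
        52 * (11000 * dl) := by
      rw [abs_mul, abs_of_nonneg hc0]
      exact mul_le_mul hc1 d1 (abs_nonneg _) (by norm_num)
    unfold err1 eps
    rw [abs_le]
    constructor <;> nlinarith [abs_le.1 h1]
  · have h1 : |F.c l * (2 / F.D l * (F.E l / 2 + (1 - 2 * F.q l) * exp l) - 1)| ≤
        52 * (11000 * dl) := by
      rw [abs_mul, abs_of_nonneg hc0]
      exact mul_le_mul hc1 d2 (abs_nonneg _) (by norm_num)
    unfold err2 eps
    rw [abs_le]
    constructor <;> nlinarith [abs_le.1 h1]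

/-- The constant of the lower barrier. -/
noncomputable def lam : ℝ := 1826 / 10000

theorem c_ge (h : Small dl) (l : ℝ) : 1 - lam * Sl l - 30 * eps dl ≤ F.c l := by
  have key := neg_le_of_system (v := fun r => F.c r - (1 - lam * Sl r))
    (w := fun r => F.f r + F.c r * Tl r - lam * (Tl r * Sl r) / 2) (e1 := F.err1)
    (wd := fun r => 2 * F.c r - 2 + F.err2 r + ((F.f r + F.c r * Tl r + F.err1 r) * Tl r +
      F.c r * (Sl r ^ 2 / 2)) -
      lam * (Sl r ^ 2 / 2 * Sl r + Tl r * (-(Tl r * Sl r) / 2)) / 2)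
    (ε := 2 * eps dl) (C := -1)
    (fun r => ((F.hasDerivAt_c h r).sub (((hasDerivAt_Sl r).const_mul lam).const_sub 1)).congr_deriv
      (by ring))
    (fun r => ((F.hasDerivAt_f h r).add ((F.hasDerivAt_c h r).mul (hasDerivAt_Tl r))).sub
      ((((hasDerivAt_Tl r).mul (hasDerivAt_Sl r)).const_mul lam).div_const 2))
    (fun r => by linarith [(F.err_le h r).1, abs_nonneg (F.err1 r)])
    (fun r hr => ?_)
    (fun r => by
      have := mul_pos (show (0:ℝ) < lam by norm_num [lam]) (Sl_pos r)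
      linarith [(F.c_mem h r).1]) l
  · linarith
  · obtain ⟨e1, e2⟩ := F.err_le h r
    obtain ⟨t1, t2⟩ := Tl_mem r
    have hS := Sl_pos r
    have hsq := sq_add_sq r
    set S := Sl r
    set T := Tl r
    set W := F.f r + F.c r * T - lam * (T * S) / 2 with hW
    have hTw : T * W ≤ |W| := by
      calc T * W ≤ |T * W| := le_abs_self _
        _ = |T| * |W| := abs_mul _ _
        _ ≤ 1 * |W| := mul_le_mul_of_nonneg_right (abs_le.2 ⟨t1.le, t2.le⟩) (abs_nonneg _)
        _ = _ := one_mul _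
    have hTe : T * F.err1 r ≤ eps dl := by
      calc T * F.err1 r ≤ |T * F.err1 r| := le_abs_self _
        _ = |T| * |F.err1 r| := abs_mul _ _
        _ ≤ 1 * eps dl := mul_le_mul (abs_le.2 ⟨t1.le, t2.le⟩) e1 (abs_nonneg _) zero_le_one
        _ = _ := one_mul _
    have hbr : S ^ 2 / 2 - lam * S * (5 / 4 + 3 / 2 * S ^ 2) ≤ 0 := by
      have : S / 2 ≤ lam * (5 / 4 + 3 / 2 * S ^ 2) := by
        unfold lam; nlinarith [sq_nonneg (S - 91288 / 100000)]
      nlinarith
    have hsq2 : T ^ 2 = 1 - S ^ 2 := by linarith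
    have hV : (2 + S ^ 2 / 2) * (F.c r - (1 - lam * S)) ≤ F.c r - (1 - lam * S) := by
      nlinarith
    have expand : 2 * F.c r - 2 + F.err2 r + ((F.f r + F.c r * T + F.err1 r) * T +
        F.c r * (S ^ 2 / 2)) - lam * (S ^ 2 / 2 * S + T * (-(T * S) / 2)) / 2 =
        (2 + S ^ 2 / 2) * (F.c r - (1 - lam * S)) + T * W +
          (S ^ 2 / 2 - lam * S * (5 / 4 + 3 / 2 * S ^ 2)) + F.err2 r + T * F.err1 r := by
      rw [hW]; linear_combination (lam * S * 3 / 4) * (hsq2)
    show _ ≤ F.c r - (1 - lam * S) + |W| + 2 * eps dl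
    rw [expand]
    linarith [(abs_le.1 e2).2]

theorem c_le (h : Small dl) (l : ℝ) : F.c l ≤ 1 - Sl l ^ 2 / 6 + 30 * eps dl := by
  have key := neg_le_of_system (v := fun r => 1 - Sl r ^ 2 / 6 - F.c r)
    (w := fun r => Tl r * Sl r ^ 2 / 6 - (F.f r + F.c r * Tl r)) (e1 := fun r => -F.err1 r)
    (wd := fun r => (Sl r ^ 2 / 2 * Sl r ^ 2 +
      Tl r * (2 * Sl r * (-(Tl r * Sl r) / 2))) / 6 -
      (2 * F.c r - 2 + F.err2 r + ((F.f r + F.c r * Tl r + F.err1 r) * Tl r +
      F.c r * (Sl r ^ 2 / 2))))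
    (ε := 2 * eps dl) (C := -53)
    (fun r => ((((hasDerivAt_Sl r).pow 2).div_const 6).const_sub 1 |>.sub
      (F.hasDerivAt_c h r)).congr_deriv (by simp; ring))
    (fun r => ((((hasDerivAt_Tl r).mul ((hasDerivAt_Sl r).pow 2)).div_const 6).sub
      ((F.hasDerivAt_f h r).add ((F.hasDerivAt_c h r).mul (hasDerivAt_Tl r)))).congr_deriv
      (by simp))
    (fun r => by rw [abs_neg]; linarith [(F.err_le h r).1, abs_nonneg (F.err1 r)])
    (fun r hr => ?_)
    (fun r => by
      have := Sl_le_one r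
      nlinarith [(F.c_mem h r).2, Sl_pos r]) l
  · linarith
  · obtain ⟨e1, e2⟩ := F.err_le h r
    obtain ⟨t1, t2⟩ := Tl_mem r
    have hS := Sl_pos r
    have hsq := sq_add_sq r
    set S := Sl r
    set T := Tl r
    set W := T * S ^ 2 / 6 - (F.f r + F.c r * T) with hW
    have hTw : T * W ≤ |W| := by
      calc T * W ≤ |T * W| := le_abs_self _
        _ = |T| * |W| := abs_mul _ _
        _ ≤ 1 * |W| := mul_le_mul_of_nonneg_right (abs_le.2 ⟨t1.le, t2.le⟩) (abs_nonneg _)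
        _ = _ := one_mul _
    have hTe : -(T * F.err1 r) ≤ eps dl := by
      calc -(T * F.err1 r) ≤ |T * F.err1 r| := neg_le_abs _
        _ = |T| * |F.err1 r| := abs_mul _ _
        _ ≤ 1 * eps dl := mul_le_mul (abs_le.2 ⟨t1.le, t2.le⟩) e1 (abs_nonneg _) zero_le_one
        _ = _ := one_mul _
    have hsq2 : T ^ 2 = 1 - S ^ 2 := by linarith
    have hbr : 0 ≤ S ^ 2 * (1 / 2 - S ^ 2 / 2) :=
      mul_nonneg (sq_nonneg S) (by nlinarith [Sl_le_one r])
    have hV : (2 + S ^ 2 / 2) * (1 - S ^ 2 / 6 - F.c r) ≤ 1 - S ^ 2 / 6 - F.c r := by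
      nlinarith
    have expand : (S ^ 2 / 2 * S ^ 2 + T * (2 * S * (-(T * S) / 2))) / 6 -
        (2 * F.c r - 2 + F.err2 r + ((F.f r + F.c r * T + F.err1 r) * T +
        F.c r * (S ^ 2 / 2))) =
        (2 + S ^ 2 / 2) * (1 - S ^ 2 / 6 - F.c r) + T * W -
          S ^ 2 * (1 / 2 - S ^ 2 / 2) - F.err2 r - T * F.err1 r := by
      rw [hW]; linear_combination (-(S ^ 2) / 3) * (hsq2)
    show _ ≤ 1 - S ^ 2 / 6 - F.c r + |W| + 2 * eps dl
    rw [expand]
    linarith [(abs_le.1 e2).1]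

end Flow

end Vale.Agent.P371.Leg
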