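import Vale.Agent.P371.Leg.Flow

/-!
# P371: the profile is monotone
-/

namespace Vale.Agent.P371.Leg

open Set Filter Topology Real

variable {dl : ℝ}

namespace Flow

variable (F : Flow dl)

/-- `ζ = (4 u)^dl`. -/
noncomputable def z (_F : Flow dl) (l : ℝ) : ℝ := (4 * exp l) ^ dl

noncomputable def D (l : ℝ) : ℝ := F.E l + 2 * (bExp dl + F.q l) * exp l

noncomputable def M (l : ℝ) : ℝ :=
  dl * Kc dl * F.z l - F.q l * (1 - F.q l) * exp l - (F.E l ^ 2 - 1) / (4 * exp l)

noncomputable def F0 (l : ℝ) : ℝ :=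
  (F.E l ^ 2 - 1) / (4 * exp l) - F.q l * (1 - F.q l) * exp l

lemma D_pos (l : ℝ) : 0 < F.D l := F.den_pos l

lemma z_pos (l : ℝ) : 0 < F.z l := rpow_pos_of_pos (by positivity) _

lemma hasDerivAt_z (l : ℝ) : HasDerivAt F.z (dl * F.z l) l := by
  have h := ((Real.hasDerivAt_exp l).const_mul 4).rpow_const (p := dl)
    (Or.inl (by positivity : (4 * exp l) ≠ 0))
  refine h.congr_deriv ?_
  rw [z, rpow_sub_one (by positivity : (4 * exp l) ≠ 0)]
  field_simp

lemma hasDerivAt_quad (l : ℝ) : HasDerivAt (fun r => F.q r * (1 - F.q r) * exp r)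
    (F.qd l * (1 - 2 * F.q l) * exp l + F.q l * (1 - F.q l) * exp l) l := by
  refine (((F.hq l).mul ((F.hq l).const_sub 1)).mul (Real.hasDerivAt_exp l)).congr_deriv ?_
  simp only [Pi.mul_apply]
  ring

lemma hasDerivAt_sq (l : ℝ) : HasDerivAt (fun r => (F.E r ^ 2 - 1) / (4 * exp r))
    (-(F.E l * F.qd l) / 2 - (F.E l ^ 2 - 1) / (4 * exp l)) l := by
  have h := (((F.hE l).pow 2).sub_const 1).div ((Real.hasDerivAt_exp l).const_mul 4)
    (by positivity)
  refine h.congr_deriv ?_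
  simp only [Pi.pow_apply, Nat.cast_ofNat, Nat.add_one_sub_one, pow_one]
  field_simp
  ring

lemma M_eq (h : Small dl) (l : ℝ) : F.M l = -(F.qd l * F.D l) / 2 := by
  have h1 : HasDerivAt (fun r => Kc dl * F.z r) (Kc dl * (dl * F.z l)) l :=
    (F.hasDerivAt_z l).const_mul _
  have h2 := ((((F.hq l).const_sub (kExp dl)).mul (F.hE l)).add (F.hasDerivAt_quad l)).sub
    (F.hasDerivAt_sq l)
  have e : (fun r => Kc dl * F.z r) = fun r => (kExp dl - F.q r) * F.E r +
      F.q r * (1 - F.q r) * exp r - (F.E r ^ 2 - 1) / (4 * exp r) := funext F.ident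
  rw [e] at h1
  have u := h1.unique h2
  unfold M D
  rw [h.k_eq] at u
  linear_combination u

lemma qd_eq (h : Small dl) (l : ℝ) : F.qd l = -(2 * F.M l / F.D l) := by
  have := (F.D_pos l).ne'
  rw [F.M_eq h]; field_simp

lemma hasDerivAt_M (h : Small dl) (l : ℝ) : HasDerivAt F.M
    (dl ^ 2 * Kc dl * F.z l + F.F0 l +
      2 * F.M l / F.D l * (exp l * (1 - 2 * F.q l) - F.E l / 2)) l := by
  refine ((((F.hasDerivAt_z l).const_mul (dl * Kc dl)).sub (F.hasDerivAt_quad l)).sub
    (F.hasDerivAt_sq l)).congr_deriv ?_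
  rw [F.qd_eq h, F0]
  ring

lemma hasDerivAt_F0 (h : Small dl) (l : ℝ) : HasDerivAt F.F0
    (F.M l - dl * Kc dl * F.z l +
      2 * F.M l / F.D l * (F.E l / 2 + (1 - 2 * F.q l) * exp l)) l := by
  refine ((F.hasDerivAt_sq l).sub (F.hasDerivAt_quad l)).congr_deriv ?_
  rw [F.qd_eq h, M]
  ring

/-- `dl² K ζ + F0`. -/
noncomputable def G2 (l : ℝ) : ℝ := dl ^ 2 * Kc dl * F.z l + F.F0 l

lemma hasDerivAt_G2 (h : Small dl) (l : ℝ) : HasDerivAt F.G2
    (2 * F.M l / F.D l * (2 * (F.E l + (kExp dl - F.q l) * exp l)) / 2 -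
      (dl - dl ^ 3) * Kc dl * F.z l) l := by
  refine (((F.hasDerivAt_z l).const_mul (dl ^ 2 * Kc dl)).add (F.hasDerivAt_F0 h l)).congr_deriv ?_
  have hD := (F.D_pos l).ne'
  rw [h.k_eq]
  field_simp
  unfold D
  ring

lemma G2_deriv_neg (h : Small dl) {l : ℝ} (hM : F.M l ≤ 0) :
    2 * F.M l / F.D l * (2 * (F.E l + (kExp dl - F.q l) * exp l)) / 2 -
      (dl - dl ^ 3) * Kc dl * F.z l < 0 := by
  have h3 : 0 < (dl - dl ^ 3) * Kc dl * F.z l := by
    have : 0 < dl - dl ^ 3 := by nlinarith [h.1, h.2, mul_pos h.1 h.1]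
    have := h.Kc_pos; have := F.z_pos l; positivity
  have h2 : 2 * F.M l / F.D l * (2 * (F.E l + (kExp dl - F.q l) * exp l)) / 2 ≤ 0 :=
    div_nonpos_of_nonpos_of_nonneg (mul_nonpos_of_nonpos_of_nonneg
      (div_nonpos_of_nonpos_of_nonneg (by linarith) (F.D_pos l).le)
      (by linarith [F.sum_pos l])) (by norm_num)
  linarith

lemma continuous_T1 :
    Continuous fun l => 2 / F.D l * (exp l * (1 - 2 * F.q l) - F.E l / 2) := by
  have hq : Continuous F.q := continuous_iff_continuousAt.2 fun l => (F.hq l).continuousAt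
  have hE : Continuous F.E := continuous_iff_continuousAt.2 fun l => (F.hE l).continuousAt
  have hD : Continuous F.D := hE.add ((continuous_const.mul (continuous_const.add hq)).mul
    Real.continuous_exp)
  exact (continuous_const.div hD fun l => (F.D_pos l).ne').mul
    ((Real.continuous_exp.mul (continuous_const.sub (continuous_const.mul hq))).sub
      (hE.div_const 2))

lemma forward (h : Small dl) {l0 : ℝ} (hM : F.M l0 < 0) (hG : F.G2 l0 ≤ 0) :
    ∀ l, l0 ≤ l → F.M l < 0 := by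
  have hMc : Continuous F.M := continuous_iff_continuousAt.2 fun l => (F.hasDerivAt_M h l).continuousAt
  intro l1 hl1
  by_contra hc
  push Not at hc
  set S := {l ∈ Icc l0 l1 | 0 ≤ F.M l} with hS
  have hne : S.Nonempty := ⟨l1, ⟨hl1, le_rfl⟩, hc⟩
  have hcl : IsClosed S := isClosed_Icc.inter (isClosed_le continuous_const hMc)
  obtain ⟨s, hs⟩ := (isCompact_Icc.of_isClosed_subset hcl fun l hl => hl.1).exists_isLeast hne
  have hneg : ∀ l ∈ Ico l0 s, F.M l < 0 := fun l hl => by
    by_contra hh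
    push Not at hh
    exact absurd (hs.2 ⟨⟨hl.1, hl.2.le.trans hs.1.1.2⟩, hh⟩) (not_le.2 hl.2)
  have hG2 : ∀ l ∈ Icc l0 s, F.G2 l ≤ 0 := by
    have anti : AntitoneOn F.G2 (Icc l0 s) := antitoneOn_of_hasDerivWithinAt_nonpos
      (convex_Icc _ _) (fun l _ => (F.hasDerivAt_G2 h l).continuousAt.continuousWithinAt)
      (fun l _ => (F.hasDerivAt_G2 h l).hasDerivWithinAt) fun l hl => by
        rw [interior_Icc] at hl
        exact (F.G2_deriv_neg h (hneg l ⟨hl.1.le, hl.2⟩).le).le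
    exact fun l hl => (anti (left_mem_Icc.2 hs.1.1.1) hl hl.1).trans hG
  obtain ⟨m, hm⟩ := isCompact_Icc.exists_bound_of_continuousOn
    F.continuous_T1.continuousOn (s := Icc l0 s)
  have anti : AntitoneOn (fun l => F.M l * exp (m * l)) (Icc l0 s) :=
    antitoneOn_of_hasDerivWithinAt_nonpos (convex_Icc _ _)
      ((hMc.mul (Real.continuous_exp.comp (continuous_const.mul continuous_id))).continuousOn)
      (fun l _ => ((F.hasDerivAt_M h l).mul
        ((hasDerivAt_id l).const_mul m).exp).hasDerivWithinAt) fun l hl => by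
        rw [interior_Icc] at hl
        have h1 := hneg l ⟨hl.1.le, hl.2⟩
        have h2 := hG2 l ⟨hl.1.le, hl.2.le⟩
        have h3 := (abs_le.1 (hm l ⟨hl.1.le, hl.2.le⟩)).1
        have he := exp_pos (m * l)
        have h4 : 2 * F.M l / F.D l * (exp l * (1 - 2 * F.q l) - F.E l / 2) + m * F.M l ≤ 0 := by
          have : 2 * F.M l / F.D l * (exp l * (1 - 2 * F.q l) - F.E l / 2) + m * F.M l =
              F.M l * (2 / F.D l * (exp l * (1 - 2 * F.q l) - F.E l / 2) + m) := by ring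
          rw [this]
          exact mul_nonpos_of_nonpos_of_nonneg h1.le (by linarith)
        simp only [id_eq, mul_one]
        unfold G2 at h2
        nlinarith
  have := anti (left_mem_Icc.2 hs.1.1.1) (right_mem_Icc.2 hs.1.1.1) hs.1.1.1
  nlinarith [exp_pos (m * l0), exp_pos (m * s), hs.1.2]

lemma backward (h : Small dl) {l0 : ℝ} (hM : F.M l0 < 0) (hG : 0 ≤ F.G2 l0) :
    ∀ l, l ≤ l0 → F.M l < 0 ∧ F.G2 l0 ≤ F.G2 l := by
  have hMc : Continuous F.M := continuous_iff_continuousAt.2 fun l => (F.hasDerivAt_M h l).continuousAt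
  have mono : ∀ {s}, s ≤ l0 → (∀ l ∈ Ioc s l0, F.M l < 0) →
      ∀ l ∈ Icc s l0, F.G2 l0 ≤ F.G2 l := fun {s} hs hneg l hl => by
    have anti : AntitoneOn F.G2 (Icc s l0) := antitoneOn_of_hasDerivWithinAt_nonpos
      (convex_Icc _ _) (fun l _ => (F.hasDerivAt_G2 h l).continuousAt.continuousWithinAt)
      (fun l _ => (F.hasDerivAt_G2 h l).hasDerivWithinAt) fun l hl => by
        rw [interior_Icc] at hl
        exact (F.G2_deriv_neg h (hneg l ⟨hl.1, hl.2.le⟩).le).le
    exact anti hl (right_mem_Icc.2 hs) hl.2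
  have key : ∀ l, l ≤ l0 → F.M l < 0 := by
    intro l1 hl1
    by_contra hc
    push Not at hc
    set S := {l ∈ Icc l1 l0 | 0 ≤ F.M l} with hS
    have hne : S.Nonempty := ⟨l1, ⟨le_rfl, hl1⟩, hc⟩
    have hcl : IsClosed S := isClosed_Icc.inter (isClosed_le continuous_const hMc)
    obtain ⟨s, hs⟩ := (isCompact_Icc.of_isClosed_subset hcl fun l hl => hl.1).exists_isGreatest hne
    have hneg : ∀ l ∈ Ioc s l0, F.M l < 0 := fun l hl => by
      by_contra hh
      push Not at hh
      exact absurd (hs.2 ⟨⟨hs.1.1.1.trans hl.1.le, hl.2⟩, hh⟩) (not_le.2 hl.1)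
    obtain ⟨m, hm⟩ := isCompact_Icc.exists_bound_of_continuousOn
      F.continuous_T1.continuousOn (s := Icc s l0)
    have mon : MonotoneOn (fun l => F.M l * exp (-m * l)) (Icc s l0) :=
      monotoneOn_of_hasDerivWithinAt_nonneg (convex_Icc _ _)
        ((hMc.mul (Real.continuous_exp.comp (continuous_const.mul continuous_id))).continuousOn)
        (fun l _ => ((F.hasDerivAt_M h l).mul
          ((hasDerivAt_id l).const_mul (-m)).exp).hasDerivWithinAt) fun l hl => by
          rw [interior_Icc] at hl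
          have h1 := hneg l ⟨hl.1, hl.2.le⟩
          have h2 := mono hs.1.1.2 hneg l ⟨hl.1.le, hl.2.le⟩
          have h3 := (abs_le.1 (hm l ⟨hl.1.le, hl.2.le⟩)).2
          have he := exp_pos (-m * l)
          have h4 : 0 ≤ 2 * F.M l / F.D l * (exp l * (1 - 2 * F.q l) - F.E l / 2) - m * F.M l := by
            have : 2 * F.M l / F.D l * (exp l * (1 - 2 * F.q l) - F.E l / 2) - m * F.M l =
                (-F.M l) * (m - 2 / F.D l * (exp l * (1 - 2 * F.q l) - F.E l / 2)) := by ring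
            rw [this]
            exact mul_nonneg (by linarith) (by linarith)
          simp only [id_eq, mul_one]
          unfold G2 at h2 hG
          nlinarith
    have := mon (left_mem_Icc.2 hs.1.1.2) (right_mem_Icc.2 hs.1.1.2) hs.1.1.2
    nlinarith [exp_pos (-m * l0), exp_pos (-m * s), hs.1.2]
  exact fun l hl => ⟨key l hl, mono hl (fun r hr => key r hr.2) l (left_mem_Icc.2 hl)⟩

lemma z_atTop (h : Small dl) : Tendsto F.z atTop atTop :=
  (tendsto_rpow_atTop h.1).comp (Real.tendsto_exp_atTop.const_mul_atTop four_pos)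

theorem M_nonneg (h : Small dl) (l0 : ℝ) : 0 ≤ F.M l0 := by
  by_contra hM
  push Not at hM
  have sign : ∀ {s : Set ℝ}, Convex ℝ s → (∀ l ∈ s, F.M l < 0) →
      MonotoneOn F.q s ∧ AntitoneOn F.E s := fun {s} hs hneg => by
    have hpos : ∀ l ∈ s, 0 < F.qd l := fun l hl => by
      rw [F.qd_eq h, neg_pos]
      exact div_neg_of_neg_of_pos (by linarith [hneg l hl]) (F.D_pos l)
    exact ⟨monotoneOn_of_hasDerivWithinAt_nonneg hs
        (fun l _ => (F.hq l).continuousAt.continuousWithinAt)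
        (fun l _ => (F.hq l).hasDerivWithinAt) fun l hl => (hpos l (interior_subset hl)).le,
      antitoneOn_of_hasDerivWithinAt_nonpos hs
        (fun l _ => (F.hE l).continuousAt.continuousWithinAt)
        (fun l _ => (F.hE l).hasDerivWithinAt) fun l hl =>
          neg_nonpos.2 (mul_nonneg (exp_pos l).le (hpos l (interior_subset hl)).le)⟩
  rcases le_or_gt (F.G2 l0) 0 with hG | hG
  · obtain ⟨mq, aE⟩ := sign (convex_Ici l0) (fun l hl => F.forward h hM hG l hl)
    have hq0 : ∀ l, l0 ≤ l → F.q l ≤ 0 := fun l hl =>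
      ge_of_tendsto F.q_top (eventually_atTop.2 ⟨l, fun r hr => mq hl (hl.trans hr) hr⟩)
    obtain ⟨l, hl⟩ := (((F.z_atTop h).const_mul_atTop h.Kc_pos).eventually_gt_atTop
      ((kExp dl - F.q l0) * |F.E l0| + 1) |>.and
        (F.E_top.and ((eventually_ge_atTop l0).and (eventually_ge_atTop 0)))).exists
    obtain ⟨hz, hE, hl0, hlz⟩ := hl
    have hid := F.ident l
    have h1 : F.q l * (1 - F.q l) * exp l ≤ 0 :=
      mul_nonpos_of_nonpos_of_nonneg (mul_nonpos_of_nonpos_of_nonneg (hq0 l hl0)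
        (by linarith [hq0 l hl0])) (exp_pos l).le
    have h2 : -((F.E l ^ 2 - 1) / (4 * exp l)) ≤ 1 := by
      rw [← neg_div, div_le_one (by positivity)]
      nlinarith [sq_nonneg (F.E l), add_one_le_exp l]
    have hk : 0 ≤ kExp dl - F.q l := by
      rw [h.k_eq]; linarith [hq0 l hl0, h.one_lt_b]
    have h3 : (kExp dl - F.q l) * F.E l ≤ (kExp dl - F.q l0) * |F.E l0| :=
      mul_le_mul (by linarith [mq self_mem_Ici hl0 hl0])
        ((aE self_mem_Ici hl0 hl0).trans (le_abs_self _)) hE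
        (by linarith [mq self_mem_Ici hl0 hl0])
    unfold z at hz
    linarith
  · obtain ⟨C, hC⟩ := F.q_bot
    have hb := F.backward h hM hG.le
    obtain ⟨mq, aE⟩ := sign (convex_Iic l0) (fun l hl => (hb l hl).1)
    have hE1 : ∀ l, l ≤ l0 → F.E l ≤ 1 := fun l hl =>
      ge_of_tendsto F.E_bot (eventually_atBot.2 ⟨l, fun r hr => aE (hr.trans hl) hl hr⟩)
    have hz0 : Tendsto (fun l => dl ^ 2 * Kc dl * F.z l +
        (max (|C|) (|F.q l0|) + 1) ^ 2 * exp l) atBot (𝓝 0) := by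
      have hz : Tendsto F.z atBot (𝓝 0) := by
        have := (Real.tendsto_exp_atBot.const_mul 4).rpow_const (p := dl) (Or.inr h.1.le)
        rwa [mul_zero, zero_rpow h.1.ne'] at this
      simpa using (hz.const_mul (dl ^ 2 * Kc dl)).add
        (Real.tendsto_exp_atBot.const_mul ((max (|C|) (|F.q l0|) + 1) ^ 2))
    obtain ⟨l, h1, hCl, hl, hEn⟩ := ((hz0.eventually_lt_const hG).and (hC.and
      ((eventually_le_atBot l0).and (F.E_bot.eventually_const_le one_half_lt_one)))).exists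
    have hG2 := (hb l hl).2
    rw [show F.G2 l = dl ^ 2 * Kc dl * F.z l + ((F.E l ^ 2 - 1) / (4 * exp l) -
      F.q l * (1 - F.q l) * exp l) from rfl] at hG2
    have hsq : (F.E l ^ 2 - 1) / (4 * exp l) ≤ 0 :=
      div_nonpos_of_nonpos_of_nonneg (by nlinarith [hE1 l hl]) (by positivity)
    have hq2 : -(F.q l * (1 - F.q l)) ≤ (max (|C|) (|F.q l0|) + 1) ^ 2 := by
      have hup : F.q l ≤ |F.q l0| :=
        (mq hl (Set.self_mem_Iic) hl).trans (le_abs_self _)
      have habs : |F.q l| ≤ max (|C|) (|F.q l0|) := by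
        rw [abs_le]
        exact ⟨by linarith [neg_abs_le C, le_max_left (|C|) (|F.q l0|)],
          hup.trans (le_max_right _ _)⟩
      nlinarith [abs_nonneg (F.q l), sq_abs (F.q l), neg_abs_le (F.q l)]
    nlinarith [mul_le_mul_of_nonneg_right hq2 (exp_pos l).le]

lemma qd_nonpos (h : Small dl) (l : ℝ) : F.qd l ≤ 0 := by
  rw [F.qd_eq h, neg_nonpos]
  exact div_nonneg (by linarith [F.M_nonneg h l]) (F.D_pos l).le

lemma q_anti (h : Small dl) : Antitone F.q :=
  antitone_of_hasDerivAt_nonpos F.hq fun l => F.qd_nonpos h l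

lemma E_mono (h : Small dl) : Monotone F.E :=
  monotone_of_hasDerivAt_nonneg F.hE fun l =>
    neg_nonneg.2 (mul_nonpos_of_nonneg_of_nonpos (exp_pos l).le (F.qd_nonpos h l))

lemma q_nonneg (h : Small dl) (l : ℝ) : 0 ≤ F.q l :=
  le_of_tendsto F.q_top (eventually_atTop.2 ⟨l, fun _ hr => F.q_anti h hr⟩)

lemma one_le_E (h : Small dl) (l : ℝ) : 1 ≤ F.E l :=
  le_of_tendsto F.E_bot (eventually_atBot.2 ⟨l, fun _ hr => F.E_mono h hr⟩)

lemma q_le_k (h : Small dl) (l : ℝ) : F.q l ≤ kExp dl := by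
  by_contra hc
  push Not at hc
  have hz := F.z_pos l
  have hE := F.one_le_E h l
  have hid := F.ident l
  have hk : 1 < kExp dl := by rw [h.k_eq]; linarith [h.one_lt_b]
  have h1 : (kExp dl - F.q l) * F.E l ≤ 0 :=
    mul_nonpos_of_nonpos_of_nonneg (by linarith) (by linarith)
  have h2 : F.q l * (1 - F.q l) * exp l ≤ 0 :=
    mul_nonpos_of_nonpos_of_nonneg (mul_nonpos_of_nonneg_of_nonpos (by linarith) (by linarith))
      (exp_pos l).le
  have h3 : 0 ≤ (F.E l ^ 2 - 1) / (4 * exp l) := div_nonneg (by nlinarith) (by positivity)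
  have := mul_pos h.Kc_pos hz
  unfold z at this
  linarith

end Flow

end Vale.Agent.P371.Leg
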