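import Vale.Agent.P371.Leg.Shape

/-!
# P371: the profile density does not increase too fast
-/

namespace Vale.Agent.P371.Leg

open Set Filter Topology Real

variable {dl : ℝ}

namespace Flow

variable (F : Flow dl)

/-- `ċ - c (1+T)/4`, up to `err1`. -/
noncomputable def G (l : ℝ) : ℝ := F.f l + F.c l * (3 * Tl l - 1) / 4

/-- The factor of `c` in the forcing of `G`. -/
noncomputable def Mf (l : ℝ) : ℝ := 2 + (1 + Tl l) * (5 - 3 * Tl l) / 16

lemma hasDerivAt_G (h : Small dl) (l : ℝ) : HasDerivAt F.G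
    (F.c l * Mf l - 2 + (3 * Tl l - 1) / 4 * F.G l + F.err2 l +
      (3 * Tl l - 1) / 4 * F.err1 l) l := by
  refine ((F.hasDerivAt_f h l).add (((F.hasDerivAt_c h l).mul
    (((hasDerivAt_Tl l).const_mul 3).sub_const 1)).div_const 4)).congr_deriv ?_
  have e : Sl l ^ 2 = 1 - Tl l ^ 2 := by linarith [sq_add_sq l]
  unfold G Mf
  rw [e]
  ring

lemma hasDerivAt_H (h : Small dl) (l : ℝ) : HasDerivAt (fun r => F.c r * Mf r - 2)
    ((F.G l + F.c l * (1 + Tl l) / 4 + F.err1 l) * Mf l +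
      F.c l * ((2 - 6 * Tl l) / 16 * (Sl l ^ 2 / 2))) l := by
  have hM : HasDerivAt Mf ((2 - 6 * Tl l) / 16 * (Sl l ^ 2 / 2)) l :=
    (((((hasDerivAt_Tl l).const_add 1).mul
      (((hasDerivAt_Tl l).const_mul 3).const_sub 5)).div_const 16).const_add 2).congr_deriv
      (by ring)
  refine (((F.hasDerivAt_c h l).mul hM).sub_const 2).congr_deriv ?_
  unfold G
  ring

/-- The threshold for `G`. -/
noncomputable def kap (dl : ℝ) : ℝ := 6000 * eps dl

lemma G_le_bdd (h : Small dl) (l : ℝ) : |F.G l| ≤ 4600 := by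
  obtain ⟨h0, h1⟩ := F.c_mem h l
  obtain ⟨t1, t2⟩ := Tl_mem l
  have hf := abs_le.1 (F.f_mem h l)
  rw [abs_le]
  unfold G
  constructor <;> nlinarith

lemma err_bound (h : Small dl) (l : ℝ) :
    -(2 * eps dl) ≤ F.err2 l + (3 * Tl l - 1) / 4 * F.err1 l ∧
      F.err2 l + (3 * Tl l - 1) / 4 * F.err1 l ≤ 2 * eps dl := by
  obtain ⟨e1, e2⟩ := F.err_le h l
  obtain ⟨t1, t2⟩ := Tl_mem l
  have ha : |(3 * Tl l - 1) / 4| ≤ 1 := by rw [abs_le]; constructor <;> linarith
  have h1 : |(3 * Tl l - 1) / 4 * F.err1 l| ≤ 1 * eps dl := by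
    rw [abs_mul]; exact mul_le_mul ha e1 (abs_nonneg _) zero_le_one
  constructor <;> linarith [abs_le.1 h1, abs_le.1 e2]

lemma G_le_left (h : Tiny dl) {l : ℝ} (hl : Tl l ≤ 3 / 10) : F.G l ≤ kap dl := by
  by_contra hc
  push Not at hc
  have hs := h.small
  have heps : 0 < eps dl := by unfold eps; linarith [h.1]
  have hT : ∀ r, r ≤ l → Tl r ≤ 3 / 10 := fun r hr => le_trans
    ((monotone_of_hasDerivAt_nonneg hasDerivAt_Tl fun x => by positivity) hr) hl
  -- the slope of `G` on the region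
  have neg : ∀ r, Tl r ≤ 3 / 10 → kap dl ≤ F.G r →
      F.c r * Mf r - 2 + (3 * Tl r - 1) / 4 * F.G r + F.err2 r +
        (3 * Tl r - 1) / 4 * F.err1 r ≤ -eps dl := by
    intro r hr hk
    obtain ⟨t1, t2⟩ := Tl_mem r
    have he := (F.err_bound hs r).2
    have hM : 0 ≤ Mf r := by unfold Mf; nlinarith
    have hM2 : Mf r ≤ 3 := by unfold Mf; nlinarith
    have hc := mul_le_mul_of_nonneg_right (F.c_le hs r) hM
    have hp : (1 - Sl r ^ 2 / 6) * Mf r ≤ 2 := by
      rw [show Sl r ^ 2 = 1 - Tl r ^ 2 by linarith [sq_add_sq r]]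
      have : (6 - (1 - Tl r ^ 2)) * (32 + (1 + Tl r) * (5 - 3 * Tl r)) ≤ 192 := by
        nlinarith [mul_nonneg (show 0 ≤ 1 + Tl r by linarith) (show 0 ≤ 3 / 10 - Tl r by linarith),
          sq_nonneg (Tl r), sq_nonneg (Tl r + 1),
          mul_nonneg (mul_nonneg (show 0 ≤ 1 + Tl r by linarith)
            (show 0 ≤ 3 / 10 - Tl r by linarith)) (show 0 ≤ 1 + Tl r by linarith)]
      unfold Mf
      linarith
    have hG : (3 * Tl r - 1) / 4 * F.G r ≤ -(1 / 40) * F.G r :=
      mul_le_mul_of_nonneg_right (by linarith) (by unfold kap at hk; linarith)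
    have h90 := mul_le_mul_of_nonneg_left hM2 (show 0 ≤ 30 * eps dl by linarith)
    unfold kap at hk
    nlinarith
  -- backward in time `G` stays above the threshold
  have stay : ∀ r, r ≤ l → kap dl ≤ F.G r := by
    intro r hr
    by_contra hh
    push Not at hh
    have hGc : Continuous F.G :=
      continuous_iff_continuousAt.2 fun x => (F.hasDerivAt_G hs x).continuousAt
    set S := {x ∈ Icc r l | F.G x ≤ kap dl} with hS
    have hne : S.Nonempty := ⟨r, ⟨le_rfl, hr⟩, hh.le⟩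
    have hcl : IsClosed S := isClosed_Icc.inter (isClosed_le hGc continuous_const)
    obtain ⟨s, hs'⟩ := (isCompact_Icc.of_isClosed_subset hcl fun x hx => hx.1).exists_isGreatest hne
    have hab : ∀ x ∈ Ioc s l, kap dl ≤ F.G x := fun x hx => by
      by_contra h2
      exact absurd (hs'.2 ⟨⟨hs'.1.1.1.trans hx.1.le, hx.2⟩, (not_le.1 h2).le⟩) (not_le.2 hx.1)
    have anti : AntitoneOn F.G (Icc s l) := antitoneOn_of_hasDerivWithinAt_nonpos (convex_Icc _ _)
      hGc.continuousOn (fun x _ => (F.hasDerivAt_G hs x).hasDerivWithinAt) fun x hx => by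
        rw [interior_Icc] at hx
        linarith [neg x (hT x hx.2.le) (hab x ⟨hx.1, hx.2.le⟩)]
    have := anti (left_mem_Icc.2 hs'.1.1.2) (right_mem_Icc.2 hs'.1.1.2) hs'.1.1.2
    linarith [hs'.1.2]
  have anti : AntitoneOn (fun x => F.G x + eps dl * x) (Iic l) :=
    antitoneOn_of_hasDerivWithinAt_nonpos (convex_Iic _)
      (fun x _ => ((F.hasDerivAt_G hs x).add ((hasDerivAt_id x).const_mul _)).continuousAt
        |>.continuousWithinAt)
      (fun x _ => ((F.hasDerivAt_G hs x).add ((hasDerivAt_id x).const_mul _)).hasDerivWithinAt)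
      fun x hx => by
        rw [interior_Iic, mem_Iio] at hx
        simp only [mul_one]
        linarith [neg x (hT x hx.le) (stay x hx.le)]
  set x0 := l - 9300 / eps dl with hx0
  have hle : x0 ≤ l := by
    have : 0 ≤ 9300 / eps dl := by positivity
    linarith
  have := anti (mem_Iic.2 hle) self_mem_Iic hle
  have e : eps dl * x0 = eps dl * l - 9300 := by rw [hx0]; field_simp
  linarith [abs_le.1 (F.G_le_bdd hs l), abs_le.1 (F.G_le_bdd hs x0)]

lemma exists_crossing (h : Tiny dl) {l : ℝ} (hc : 2 * kap dl < F.G l) :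
    ∃ s, 3 / 10 ≤ Tl s ∧ kap dl < F.G s ∧ -(2 * kap dl) ≤ F.c s * Mf s - 2 := by
  have hs := h.small
  have heps : 0 < eps dl := by unfold eps; linarith [h.1]
  have hk : kap dl ≤ 1 / 100 := by unfold kap eps; linarith [h.2]
  have hk0 : 6000 * eps dl = kap dl := rfl
  have hGc : Continuous F.G :=
    continuous_iff_continuousAt.2 fun x => (F.hasDerivAt_G hs x).continuousAt
  -- a crossing of `[kap, 2 kap]` with positive slope
  have hTl : 3 / 10 < Tl l := by
    by_contra hh
    push Not at hh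
    linarith [F.G_le_left h hh]
  have hmonoT : Monotone Tl := monotone_of_hasDerivAt_nonneg hasDerivAt_Tl fun x => by positivity
  obtain ⟨a, haT, haG⟩ : ∃ a, a ≤ l ∧ F.G a ≤ kap dl ∧ ∀ x, a < x → x ≤ l → kap dl < F.G x := by
    set p := log (13 / 14) with hp
    have hTp : Tl p = 3 / 10 := by
      unfold Tl; rw [hp, exp_log (by norm_num)]; norm_num
    have hpl : p ≤ l := by
      by_contra hh
      push Not at hh
      linarith [hmonoT hh.le]
    set S := {x ∈ Icc p l | F.G x ≤ kap dl}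
    have hne : S.Nonempty := ⟨p, ⟨le_rfl, hpl⟩, F.G_le_left h hTp.le⟩
    have hcl : IsClosed S := isClosed_Icc.inter (isClosed_le hGc continuous_const)
    obtain ⟨s, hs'⟩ := (isCompact_Icc.of_isClosed_subset hcl fun x hx => hx.1).exists_isGreatest hne
    refine ⟨s, hs'.1.1.2, hs'.1.2, fun x hx hxl => ?_⟩
    by_contra h2
    exact absurd (hs'.2 ⟨⟨hs'.1.1.1.trans hx.le, hxl⟩, not_lt.1 h2⟩) (not_le.2 hx)
  obtain ⟨haG, habove⟩ := haG
  obtain ⟨b, hb, hbmin⟩ : ∃ b ∈ Icc a l, 2 * kap dl ≤ F.G b ∧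
      ∀ x ∈ Ico a b, F.G x < 2 * kap dl := by
    set S := {x ∈ Icc a l | 2 * kap dl ≤ F.G x}
    have hne : S.Nonempty := ⟨l, ⟨haT, le_rfl⟩, hc.le⟩
    have hcl : IsClosed S := isClosed_Icc.inter (isClosed_le continuous_const hGc)
    obtain ⟨s, hs'⟩ := (isCompact_Icc.of_isClosed_subset hcl fun x hx => hx.1).exists_isLeast hne
    refine ⟨s, hs'.1.1, hs'.1.2, fun x hx => ?_⟩
    by_contra h2
    exact absurd (hs'.2 ⟨⟨hx.1, hx.2.le.trans hs'.1.1.2⟩, not_lt.1 h2⟩) (not_le.2 hx.2)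
  obtain ⟨hbG, hbelow⟩ := hbmin
  have hab : a < b := by
    rcases hb.1.eq_or_lt with e | e
    · rw [← e] at hbG; linarith
    · exact e
  obtain ⟨s, hs1, hs2⟩ := exists_hasDerivAt_eq_slope F.G _ hab hGc.continuousOn
    fun x _ => F.hasDerivAt_G hs x
  have hslope : 0 < (F.G b - F.G a) / (b - a) := div_pos (by linarith) (by linarith)
  rw [← hs2] at hslope
  have hGs1 : kap dl < F.G s := habove s hs1.1 (hs1.2.le.trans hb.2)
  have hGs2 : F.G s < 2 * kap dl := hbelow s ⟨hs1.1.le, hs1.2⟩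
  have hTs : 3 / 10 ≤ Tl s := by
    by_contra hh
    push Not at hh
    linarith [F.G_le_left h hh.le]
  have hH : -(2 * kap dl) ≤ F.c s * Mf s - 2 := by
    have := (F.err_bound hs s).2
    have ha : (3 * Tl s - 1) / 4 * F.G s ≤ 1 * (F.G s) :=
      mul_le_mul_of_nonneg_right (by linarith [(Tl_mem s).2]) (by linarith)
    nlinarith [mul_le_mul_of_nonneg_right (show (3 * Tl s - 1) / 4 ≤ 1 / 2 by
      linarith [(Tl_mem s).2]) (show 0 ≤ F.G s by linarith)]
  exact ⟨s, hTs, hGs1, hH⟩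

lemma H_grow (h : Tiny dl) {s : ℝ} (hTs : 3 / 10 ≤ Tl s)
    (hH : -(2 * kap dl) ≤ F.c s * Mf s - 2) :
    ∀ e, s ≤ e → (∀ x ∈ Ioo s e, 0 ≤ F.G x) →
      ∀ x ∈ Icc s e, -(2 * kap dl) + 2 / 5 * (x - s) ≤ F.c x * Mf x - 2 := by
  have hs := h.small
  have heps : 0 < eps dl := by unfold eps; linarith [h.1]
  have hk : kap dl ≤ 1 / 100 := by unfold kap eps; linarith [h.2]
  have hmonoT : Monotone Tl := monotone_of_hasDerivAt_nonneg hasDerivAt_Tl fun x => by positivity
  intro e he hpos x hx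
  have mon : MonotoneOn (fun r => F.c r * Mf r - 2 - 2 / 5 * r) (Icc s e) := by
    refine monotoneOn_of_hasDerivWithinAt_nonneg (convex_Icc _ _)
      (fun r _ => ((F.hasDerivAt_H hs r).sub ((hasDerivAt_id r).const_mul _)).continuousAt
        |>.continuousWithinAt)
      (fun r _ => ((F.hasDerivAt_H hs r).sub
        ((hasDerivAt_id r).const_mul _)).hasDerivWithinAt) fun r hr => ?_
    rw [interior_Icc] at hr
    have hG0 := hpos r hr
    have hT0 : 3 / 10 ≤ Tl r := hTs.trans (hmonoT hr.1.le)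
    obtain ⟨t1, t2⟩ := Tl_mem r
    have hc8 : 8 / 10 ≤ F.c r := by
      have := F.c_ge hs r
      have := mul_le_mul_of_nonneg_left (Sl_le_one r) (show (0:ℝ) ≤ lam by norm_num [lam])
      unfold lam at *; unfold kap at hk; linarith
    have hM0 : 2 ≤ Mf r := by unfold Mf; nlinarith
    have hM2 : Mf r ≤ 3 := by unfold Mf; nlinarith
    have he1 : -(3 * eps dl) ≤ F.err1 r * Mf r := by
      have := abs_le.1 (F.err_le hs r).1
      nlinarith
    have hbr : 3 / 5 ≤ Mf r * (1 + Tl r) / 4 + (2 - 6 * Tl r) / 16 * (Sl r ^ 2 / 2) := by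
      rw [show Sl r ^ 2 = 1 - Tl r ^ 2 by linarith [sq_add_sq r]]
      have : -(1 / 4) ≤ (2 - 6 * Tl r) * (1 - Tl r) / 8 := by
        nlinarith [sq_nonneg (Tl r - 2 / 3)]
      nlinarith [mul_nonneg (show 0 ≤ Mf r - 2 by linarith) (show 0 ≤ 1 + Tl r by linarith)]
    simp only [mul_one]
    have hk0 : 6000 * eps dl = kap dl := rfl
    nlinarith [mul_nonneg hG0 (show 0 ≤ Mf r by linarith),
      mul_le_mul hc8 hbr (by norm_num) (by linarith)]
  have := mon (left_mem_Icc.2 he) hx hx.1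
  linarith

lemma G_stay (h : Tiny dl) {s : ℝ} (hTs : 3 / 10 ≤ Tl s) (hGs1 : kap dl < F.G s)
    (hH : -(2 * kap dl) ≤ F.c s * Mf s - 2) : ∀ e, s ≤ e → 0 ≤ F.G e := by
  have hs := h.small
  have heps : 0 < eps dl := by unfold eps; linarith [h.1]
  have hk : kap dl ≤ 1 / 1000 := by unfold kap eps; linarith [h.2]
  have hk0 : 6000 * eps dl = kap dl := rfl
  have hGc : Continuous F.G :=
    continuous_iff_continuousAt.2 fun x => (F.hasDerivAt_G hs x).continuousAt
  have hmonoT : Monotone Tl := monotone_of_hasDerivAt_nonneg hasDerivAt_Tl fun x => by positivity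
  have hHgrow := F.H_grow h hTs hH
  intro e0 he0
  by_contra hh
  push Not at hh
  set S := {x ∈ Icc s e0 | F.G x ≤ 0}
  have hne : S.Nonempty := ⟨e0, ⟨he0, le_rfl⟩, hh.le⟩
  have hcl : IsClosed S := isClosed_Icc.inter (isClosed_le hGc continuous_const)
  obtain ⟨e, he'⟩ := (isCompact_Icc.of_isClosed_subset hcl fun x hx => hx.1).exists_isLeast hne
  have hpos : ∀ x ∈ Ioo s e, 0 ≤ F.G x := fun x hx => by
    by_contra h2
    exact absurd (he'.2 ⟨⟨hx.1.le, hx.2.le.trans he'.1.1.2⟩, (not_le.1 h2).le⟩)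
      (not_le.2 hx.2)
  have hse := he'.1.1.1
  -- integrating factor for the linear loss
  have mon : MonotoneOn (fun r => F.G r * exp ((r - s) / 40) -
      (r - s) ^ 2 / 5 + 6 * kap dl * (r - s)) (Icc s e) := by
    refine monotoneOn_of_hasDerivWithinAt_nonneg (convex_Icc _ _) (by fun_prop)
      (fun r _ => ((((F.hasDerivAt_G hs r).mul ((((hasDerivAt_id r).sub_const s).div_const 40).exp)).sub
        ((((hasDerivAt_id r).sub_const s).pow 2).div_const 5)).add
        (((hasDerivAt_id r).sub_const s).const_mul (6 * kap dl))).hasDerivWithinAt) fun r hr => ?_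
    rw [interior_Icc] at hr
    have hG0 := hpos r hr
    have hH' := hHgrow e hse hpos r (Ioo_subset_Icc_self hr)
    have he1 := (F.err_bound hs r).1
    have hT0 : 3 / 10 ≤ Tl r := hTs.trans (hmonoT hr.1.le)
    have hx0 : 0 ≤ r - s := by linarith [hr.1]
    simp only [id_eq, Nat.cast_ofNat, Nat.add_one_sub_one, pow_one, mul_one]
    have hα : -(1 / 40) * F.G r ≤ (3 * Tl r - 1) / 4 * F.G r :=
      mul_le_mul_of_nonneg_right (by linarith) hG0
    have hex : 1 ≤ exp ((r - s) / 40) := one_le_exp (by linarith)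
    have key : 2 / 5 * (r - s) - 6 * kap dl ≤
        (2 / 5 * (r - s) - 2 * kap dl - 2 * eps dl) * exp ((r - s) / 40) := by
      rcases le_total 0 (2 / 5 * (r - s) - 2 * kap dl - 2 * eps dl) with hb | hb
      · nlinarith
      · have h1 : exp ((r - s) / 40) ≤ 2 := by
          have h2 := add_one_le_exp (-((r - s) / 40))
          have e : exp (-((r - s) / 40)) * exp ((r - s) / 40) = 1 := by rw [← exp_add]; simp
          nlinarith [exp_pos ((r - s) / 40)]
        nlinarith [mul_le_mul_of_nonpos_left h1 hb]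
    have hgoal : (2 / 5 * (r - s) - 2 * kap dl - 2 * eps dl) * exp ((r - s) / 40) ≤
        (F.c r * Mf r - 2 + (3 * Tl r - 1) / 4 * F.G r + F.err2 r +
          (3 * Tl r - 1) / 4 * F.err1 r + F.G r / 40) * exp ((r - s) / 40) :=
      mul_le_mul_of_nonneg_right (by linarith) (exp_pos _).le
    linarith
  have hfin := mon (left_mem_Icc.2 hse) (right_mem_Icc.2 hse) hse
  simp only [sub_self, zero_div, exp_zero, mul_one] at hfin
  have hGe : F.G e * exp ((e - s) / 40) ≤ 0 :=
    mul_nonpos_of_nonpos_of_nonneg he'.1.2 (exp_pos _).le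
  nlinarith [sq_nonneg (e - s - 15 * kap dl)]

theorem G_le (h : Tiny dl) (l : ℝ) : F.G l ≤ 2 * kap dl := by
  by_contra hc
  push Not at hc
  obtain ⟨s, hTs, hGs1, hH⟩ := F.exists_crossing h hc
  have hs := h.small
  have heps : 0 < eps dl := by unfold eps; linarith [h.1]
  have hk : kap dl ≤ 1 / 100 := by unfold kap eps; linarith [h.2]
  have hk0 : 6000 * eps dl = kap dl := rfl
  have hmonoT : Monotone Tl := monotone_of_hasDerivAt_nonneg hasDerivAt_Tl fun x => by positivity
  have hHgrow := F.H_grow h hTs hH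
  have hGc : Continuous F.G :=
    continuous_iff_continuousAt.2 fun x => (F.hasDerivAt_G hs x).continuousAt
  have stay := F.G_stay h hTs hGs1 hH
  have hd : ∀ x ∈ Ici s, 2 / 5 * (x - s) - 117 ≤ F.c x * Mf x - 2 +
      (3 * Tl x - 1) / 4 * F.G x + F.err2 x + (3 * Tl x - 1) / 4 * F.err1 x := by
    intro x hx
    have hH' := hHgrow x hx (fun y hy => stay y hy.1.le) x (right_mem_Icc.2 hx)
    have he1 := (F.err_bound hs x).1
    have hT0 : 3 / 10 ≤ Tl x := hTs.trans (hmonoT hx)
    have hα : -(1 / 40) * F.G x ≤ (3 * Tl x - 1) / 4 * F.G x :=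
      mul_le_mul_of_nonneg_right (by linarith) (stay x hx)
    linarith [abs_le.1 (F.G_le_bdd hs x)]
  have mon : MonotoneOn (fun x => F.G x - (x - s) ^ 2 / 5 + 117 * (x - s)) (Ici s) := by
    refine monotoneOn_of_hasDerivWithinAt_nonneg (convex_Ici _) (by fun_prop)
      (fun r _ => (((F.hasDerivAt_G hs r).sub
        ((((hasDerivAt_id r).sub_const s).pow 2).div_const 5)).add
        (((hasDerivAt_id r).sub_const s).const_mul 117)).hasDerivWithinAt) fun r hr => ?_
    rw [interior_Ici, mem_Ioi] at hr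
    simp only [id_eq, Nat.cast_ofNat, Nat.add_one_sub_one, pow_one, mul_one]
    linarith [hd r (le_of_lt hr)]
  have := mon self_mem_Ici (mem_Ici.2 (show s ≤ s + 2000 by linarith)) (by linarith)
  simp only [sub_self, add_sub_cancel_left] at this
  linarith [abs_le.1 (F.G_le_bdd hs (s + 2000)), stay s le_rfl]

end Flow

end Vale.Agent.P371.Leg
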