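import Vale.Agent.P371.Leg.Third

/-!
# P371: the elementary inequality for small `p`, and the size of the left part
-/

namespace Vale.Agent.P371.Leg

open Real Set

lemma chain_cubic {p y : ℝ} (hp : 0 ≤ p) (hy : 0 ≤ y) :
    0 ≤ p ^ 3 + 889 / 1000 * p ^ 2 * y - 1111 / 2000 * p * y ^ 2 + 43 / 600 * y ^ 3 := by
  nlinarith [mul_nonneg hp (sq_nonneg (p - 3 / 10 * y)), mul_nonneg hy (sq_nonneg (p - 3 / 10 * y)),
    mul_nonneg hy (sq_nonneg (2 * p - y / 2)), mul_nonneg hp (sq_nonneg (p - y / 2)),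
    pow_nonneg hp 3, pow_nonneg hy 3, mul_nonneg (mul_nonneg hp hp) hy]

lemma P0_small {p th t : ℝ} (h0 : 0 ≤ p) (h1 : p ≤ 11 / 20) (hpt : p ≤ t) (hth : 0 < th) :
    0 ≤ P0 p th t := by
  have h := P0_lower (m := 43 / 100) hpt fun s hs => P3_lower h0 h1 hs.1 hth
  have hy : 0 ≤ t - p := sub_nonneg.2 hpt
  nlinarith [chain_cubic h0 hy, base_zero h0 h1 hth,
    mul_le_mul_of_nonneg_right (base_one h0 h1 hth) hy,
    mul_le_mul_of_nonneg_right (base_two h0 h1 hth) (sq_nonneg (t - p))]

/-- The left part dominates `sinh (2t) tanh² t`. -/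
lemma fq_ge {p th t : ℝ} (h0 : 0 ≤ p) (ht : 0 < t) (hth : 0 < th) :
    1 / 70 * (sinh (2 * t) * tanh t ^ 2) ≤ fq t (t + p) th := by
  have hs := sinh_pos_iff.2 ht
  have hc := cosh_pos t
  obtain ⟨hh0, hh1, -, hh2⟩ := tanh_bounds ht.le
  have hw := wt_mem hth
  have e : sinh (2 * t) * tanh t ^ 2 = 2 * (tanh t * sinh t ^ 2) := by
    rw [tanh_eq_sinh_div_cosh, sinh_two_mul]; field_simp
  have hd : 0 ≤ sinh (t + p) := sinh_nonneg_iff.2 (by linarith)
  have hX : 0 ≤ cosh (t + p - th) - 1 := sub_nonneg.2 (one_le_cosh _)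
  rw [fq, e]
  rcases le_or_gt (tanh t / 4) th with hc1 | hc1
  · nlinarith [mul_le_mul_of_nonneg_right hc1 (sq_nonneg (sinh t)),
      mul_nonneg (mul_nonneg hw.1.le hd) hX, mul_nonneg hh0 (sq_nonneg (sinh t))]
  · have hw2 : 3 / 4 ≤ wt th := by
      rw [wt, le_div_iff₀ (sinh_pos_iff.2 hth)]
      linarith [sinh_le_mul hth.le (by linarith)]
    have key : 1 / 12 * (tanh t * sinh t) ≤ cosh (t + p - th) - 1 := by
      rcases le_or_gt t 1 with h1 | h1
      · have hx : 9 / 32 * t ^ 2 ≤ cosh (t + p - th) - 1 := by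
          have := cosh_ge_quad (t + p - th)
          nlinarith
        have := mul_le_mul hh1 (sinh_le_mul ht.le (by linarith)) hs.le ht.le
        nlinarith
      · have hx : 3 / 2 ≤ cosh t := by
          have := cosh_le_cosh.2 (show |(1:ℝ)| ≤ |t| by rw [abs_one, abs_of_pos ht]; exact h1.le)
          have := cosh_ge_quad 1
          linarith
        have hth4 : th ≤ 1 / 4 := by linarith
        have he : exp (-th) * cosh t ≤ cosh (t + p - th) := by
          calc exp (-th) * cosh t = (cosh th - sinh th) * cosh t := by rw [Real.cosh_sub_sinh]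
            _ ≤ cosh t * cosh th - sinh t * sinh th := by
              nlinarith [mul_le_mul_of_nonneg_right (sinh_lt_cosh t).le (sinh_nonneg_iff.2 hth.le)]
            _ = cosh (t - th) := (cosh_sub t th).symm
            _ ≤ _ := by
              rw [cosh_le_cosh, abs_of_nonneg (by linarith), abs_of_nonneg (by linarith)]
              linarith
        have h3 : 3 / 4 ≤ exp (-th) := by linarith [add_one_le_exp (-th)]
        have h5 : tanh t * sinh t ≤ cosh t :=
          (mul_le_of_le_one_left hs.le hh2.le).trans (sinh_lt_cosh t).le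
        nlinarith
    have h6 : sinh t ≤ sinh (t + p) := sinh_le_sinh.2 (by linarith)
    have h7 := mul_le_mul hw2 (mul_le_mul h6 key (by positivity) hd) (by positivity) hw.1.le
    nlinarith [mul_nonneg hth.le (sq_nonneg (sinh t))]

end Vale.Agent.P371.Leg
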