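import Vale.Agent.P371.Gamma.Calibration

/-!
# P371: spectral sums of a symmetric operator, comparison and differentiation
-/

namespace Vale.Agent.P371.Leg

open Finset Filter Vale.Agent.P371 Vale.Agent.P371.Gamma
open scoped InnerProductSpace Topology ComplexConjugate

variable {N : ℕ}

/-- An orthonormal eigenbasis of `G`. -/
structure Eig (G : Op N) where
  b : OrthonormalBasis (Fin N) ℂ (Vec N)
  g : Fin N → ℝ
  hb : ∀ a, G (b a) = (g a : ℂ) • b a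
  hs : ∀ v w : Vec N, ⟪G v, w⟫_ℂ = ⟪v, G w⟫_ℂ

namespace Eig

variable {G G' : Op N} (F : Eig G) (F' : Eig G')

/-- The weights of a vector. -/
noncomputable def pw (u : Vec N) (a : Fin N) : ℝ := ‖⟪F.b a, u⟫_ℂ‖ ^ 2

lemma pw_nonneg (u : Vec N) (a : Fin N) : 0 ≤ F.pw u a := sq_nonneg _

lemma sum_pw (u : Vec N) : ∑ a, F.pw u a = ‖u‖ ^ 2 := F.b.sum_sq_norm_inner_right u

lemma norm_inner_le (u : Vec N) (a : Fin N) : ‖⟪F.b a, u⟫_ℂ‖ ≤ ‖u‖ := by
  simpa [F.b.norm_eq_one] using norm_inner_le_norm (𝕜 := ℂ) (F.b a) u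

lemma norm_inner_basis_le (i j : Fin N) : ‖⟪F.b i, F'.b j⟫_ℂ‖ ≤ 1 := by
  simpa [F'.b.norm_eq_one] using F.norm_inner_le (F'.b j) i

lemma inner_apply (v : Vec N) (a : Fin N) : ⟪F.b a, G v⟫_ℂ = (F.g a : ℂ) * ⟪F.b a, v⟫_ℂ := by
  rw [← F.hs, F.hb, inner_smul_left, Complex.conj_ofReal]

lemma overlap (i j : Fin N) :
    |F.g i - F'.g j| * ‖⟪F.b i, F'.b j⟫_ℂ‖ = ‖⟪F.b i, (G - G') (F'.b j)⟫_ℂ‖ := by
  rw [sub_apply, inner_sub_right, F.inner_apply, F'.hb, inner_smul_right, ← sub_mul, norm_mul,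
    ← Complex.ofReal_sub, Complex.norm_real, Real.norm_eq_abs]

lemma overlap_le (i j : Fin N) :
    |F.g i - F'.g j| * ‖⟪F.b i, F'.b j⟫_ℂ‖ ≤ ‖G - G'‖ := by
  rw [overlap]
  refine (F.norm_inner_le _ i).trans ?_
  simpa [F'.b.norm_eq_one] using (G - G').le_opNorm (F'.b j)

/-- Every eigenvalue of `G'` is near one of `G`. -/
lemma exists_near (j : Fin N) : ∃ i, |F.g i - F'.g j| ≤ ‖G - G'‖ := by
  by_contra hc
  push Not at hc
  have h1 : ∑ i, ‖⟪F.b i, F'.b j⟫_ℂ‖ ^ 2 = 1 := by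
    rw [F.b.sum_sq_norm_inner_right, F'.b.norm_eq_one, one_pow]
  have hne : ∃ i, ⟪F.b i, F'.b j⟫_ℂ ≠ 0 := by
    by_contra h0
    push Not at h0
    simp [h0] at h1
  obtain ⟨i, hi⟩ := hne
  have h2 : ∑ i, (|F.g i - F'.g j| * ‖⟪F.b i, F'.b j⟫_ℂ‖) ^ 2 ≤ ‖G - G'‖ ^ 2 := by
    simp only [overlap]
    rw [F.b.sum_sq_norm_inner_right]
    refine pow_le_pow_left₀ (norm_nonneg _) ?_ 2
    simpa [F'.b.norm_eq_one] using (G - G').le_opNorm (F'.b j)
  have h3 : ∑ i, ‖G - G'‖ ^ 2 * ‖⟪F.b i, F'.b j⟫_ℂ‖ ^ 2 <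
      ∑ i, (|F.g i - F'.g j| * ‖⟪F.b i, F'.b j⟫_ℂ‖) ^ 2 := by
    refine sum_lt_sum (fun k _ => ?_) ⟨i, mem_univ i, ?_⟩
    · rw [mul_pow]
      exact mul_le_mul_of_nonneg_right (pow_le_pow_left₀ (norm_nonneg _) (hc k).le 2) (sq_nonneg _)
    · rw [mul_pow]
      exact mul_lt_mul_of_pos_right (pow_lt_pow_left₀ (hc i) (norm_nonneg _) two_ne_zero)
        (pow_pos (norm_pos_iff.2 hi) 2)
  rw [← Finset.mul_sum, h1, mul_one] at h3
  linarith

lemma sum_sub_eq (f : ℝ → ℝ) :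
    ∑ i, f (F.g i) - ∑ j, f (F'.g j) =
      ∑ i, ∑ j, (f (F.g i) - f (F'.g j)) * ‖⟪F.b i, F'.b j⟫_ℂ‖ ^ 2 := by
  simp only [sub_mul, sum_sub_distrib, ← Finset.mul_sum]
  congr 1
  · refine sum_congr rfl fun i _ => ?_
    rw [F'.b.sum_sq_norm_inner_left, F.b.norm_eq_one, one_pow, mul_one]
  · rw [Finset.sum_comm]
    refine sum_congr rfl fun j _ => ?_
    rw [← Finset.mul_sum, F.b.sum_sq_norm_inner_right, F'.b.norm_eq_one, one_pow, mul_one]

/-- Lipschitz dependence of a spectral trace. -/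
lemma abs_sum_sub_le {f : ℝ → ℝ} {L : ℝ} (hL : 0 ≤ L)
    (hf : ∀ i j, |f (F.g i) - f (F'.g j)| ≤ L * |F.g i - F'.g j|) :
    |∑ i, f (F.g i) - ∑ j, f (F'.g j)| ≤ L * (N : ℝ) ^ 2 * ‖G - G'‖ := by
  rw [F.sum_sub_eq F']
  calc |∑ i, ∑ j, (f (F.g i) - f (F'.g j)) * ‖⟪F.b i, F'.b j⟫_ℂ‖ ^ 2|
      ≤ ∑ i, ∑ j, |(f (F.g i) - f (F'.g j)) * ‖⟪F.b i, F'.b j⟫_ℂ‖ ^ 2| :=
        (abs_sum_le_sum_abs _ _).trans (sum_le_sum fun i _ => abs_sum_le_sum_abs _ _)
    _ ≤ ∑ _i : Fin N, ∑ _j : Fin N, L * ‖G - G'‖ := by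
        refine sum_le_sum fun i _ => sum_le_sum fun j _ => ?_
        rw [abs_mul, abs_of_nonneg (sq_nonneg ‖⟪F.b i, F'.b j⟫_ℂ‖), sq, ← mul_assoc]
        refine (mul_le_of_le_one_right (by positivity) (F.norm_inner_basis_le F' i j)).trans ?_
        refine (mul_le_mul_of_nonneg_right (hf i j) (norm_nonneg _)).trans ?_
        rw [mul_assoc]
        exact mul_le_mul_of_nonneg_left (F.overlap_le F' i j) hL
    _ = L * (N : ℝ) ^ 2 * ‖G - G'‖ := by simp [sq]; ring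

/-- Lipschitz dependence of a spectral quadratic form on the operator. -/
lemma abs_quad_sub_le (u : Vec N) {f : ℝ → ℝ} {L : ℝ} (hL : 0 ≤ L)
    (hf : ∀ i j, |f (F.g i) - f (F'.g j)| ≤ L * |F.g i - F'.g j|) :
    |∑ i, F.pw u i * f (F.g i) - ∑ j, F'.pw u j * f (F'.g j)| ≤
      L * (N : ℝ) ^ 2 * ‖u‖ ^ 2 * ‖G - G'‖ := by
  have e : ((∑ i, F.pw u i * f (F.g i) - ∑ j, F'.pw u j * f (F'.g j) : ℝ) : ℂ) =
      ∑ i, ∑ j, ((f (F.g i) : ℂ) - f (F'.g j)) *
        (⟪u, F.b i⟫_ℂ * ⟪F.b i, F'.b j⟫_ℂ * ⟪F'.b j, u⟫_ℂ) := by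
    simp only [sub_mul, sum_sub_distrib, Complex.ofReal_sub, Complex.ofReal_sum,
      Complex.ofReal_mul, pw, Complex.ofReal_pow]
    congr 1
    · refine sum_congr rfl fun i _ => ?_
      rw [← Finset.mul_sum]
      simp only [mul_assoc]
      rw [← Finset.mul_sum, F'.b.sum_inner_mul_inner, ← inner_conj_symm u (F.b i),
        Complex.conj_mul', mul_comm]
    · rw [Finset.sum_comm]
      refine sum_congr rfl fun j _ => ?_
      rw [← Finset.mul_sum, ← Finset.sum_mul, F.b.sum_inner_mul_inner,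
        ← inner_conj_symm u (F'.b j), Complex.conj_mul', mul_comm]
  have e' := congrArg (fun z : ℂ => ‖z‖) e
  simp only [Complex.norm_real, Real.norm_eq_abs] at e'
  rw [e']
  calc ‖∑ i, ∑ j, ((f (F.g i) : ℂ) - f (F'.g j)) *
        (⟪u, F.b i⟫_ℂ * ⟪F.b i, F'.b j⟫_ℂ * ⟪F'.b j, u⟫_ℂ)‖
      ≤ ∑ _i : Fin N, ∑ _j : Fin N, L * ‖u‖ ^ 2 * ‖G - G'‖ := by
        refine (norm_sum_le _ _).trans (sum_le_sum fun i _ => (norm_sum_le _ _).trans
          (sum_le_sum fun j _ => ?_))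
        rw [norm_mul, norm_mul, norm_mul, ← Complex.ofReal_sub, Complex.norm_real, Real.norm_eq_abs]
        have h1 : ‖⟪u, F.b i⟫_ℂ‖ ≤ ‖u‖ := by rw [norm_inner_symm]; exact F.norm_inner_le u i
        have h2 := F'.norm_inner_le u j
        calc |f (F.g i) - f (F'.g j)| * (‖⟪u, F.b i⟫_ℂ‖ * ‖⟪F.b i, F'.b j⟫_ℂ‖ * ‖⟪F'.b j, u⟫_ℂ‖)
            = (|f (F.g i) - f (F'.g j)| * ‖⟪F.b i, F'.b j⟫_ℂ‖) *
                (‖⟪u, F.b i⟫_ℂ‖ * ‖⟪F'.b j, u⟫_ℂ‖) := by ring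
          _ ≤ (L * ‖G - G'‖) * (‖u‖ * ‖u‖) := by
              refine mul_le_mul ?_ (mul_le_mul h1 h2 (norm_nonneg _) (norm_nonneg _)) (by positivity)
                (by positivity)
              refine (mul_le_mul_of_nonneg_right (hf i j) (norm_nonneg _)).trans ?_
              rw [mul_assoc]
              exact mul_le_mul_of_nonneg_left (F.overlap_le F' i j) hL
          _ = _ := by ring
    _ = L * (N : ℝ) ^ 2 * ‖u‖ ^ 2 * ‖G - G'‖ := by simp [sq]; ring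

/-- Lipschitz dependence of a spectral quadratic form on the vector. -/
lemma abs_quad_vec_le (u v : Vec N) {f : ℝ → ℝ} {M R : ℝ} (hM : 0 ≤ M)
    (hf : ∀ i, |f (F.g i)| ≤ M) (hu : ‖u‖ ≤ R) (hv : ‖v‖ ≤ R) :
    |∑ i, F.pw u i * f (F.g i) - ∑ i, F.pw v i * f (F.g i)| ≤ M * N * (2 * R) * ‖u - v‖ := by
  rw [← sum_sub_distrib]
  calc |∑ i, (F.pw u i * f (F.g i) - F.pw v i * f (F.g i))|
      ≤ ∑ _i : Fin N, M * (2 * R * ‖u - v‖) := by
        refine (abs_sum_le_sum_abs _ _).trans (sum_le_sum fun i _ => ?_)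
        rw [← sub_mul, abs_mul, mul_comm]
        refine mul_le_mul (hf i) ?_ (abs_nonneg _) hM
        unfold pw
        set a := ‖⟪F.b i, u⟫_ℂ‖
        set c := ‖⟪F.b i, v⟫_ℂ‖
        have ha : a ≤ R := (F.norm_inner_le u i).trans hu
        have hc : c ≤ R := (F.norm_inner_le v i).trans hv
        have h : |a - c| ≤ ‖u - v‖ := (abs_norm_sub_norm_le _ _).trans (by
          rw [← inner_sub_right]; exact F.norm_inner_le _ i)
        rw [sq_sub_sq, abs_mul, abs_of_nonneg (by positivity : 0 ≤ a + c)]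
        exact mul_le_mul (by linarith) h (abs_nonneg _) (by linarith [norm_nonneg u])
    _ = M * N * (2 * R) * ‖u - v‖ := by simp; ring

lemma pow_apply (n : ℕ) (a : Fin N) : (G ^ n) (F.b a) = ((F.g a : ℂ) ^ n) • F.b a := by
  induction n with
  | zero => simp
  | succ n ih =>
    rw [pow_succ, ContinuousLinearMap.mul_apply, F.hb, map_smul, ih, smul_smul, pow_succ']

lemma inner_pow (n : ℕ) (v w : Vec N) :
    ⟪v, (G ^ n) w⟫_ℂ = ∑ a, (F.g a : ℂ) ^ n * (⟪v, F.b a⟫_ℂ * ⟪F.b a, w⟫_ℂ) := by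
  conv_lhs => rw [← F.b.sum_repr' w, map_sum, inner_sum]
  refine sum_congr rfl fun a _ => ?_
  rw [map_smul, F.pow_apply, smul_smul, inner_smul_right]
  ring

end Eig

lemma exists_eig {δ T : ℝ} {G : Op N} (hG : G ∈ box δ T) :
    ∃ F : Eig G, ∀ a, F.g a ∈ Set.Icc δ T := by
  have hs : ((G : Vec N →ₗ[ℂ] Vec N)).IsSymmetric := hG.1
  refine ⟨⟨hs.eigenvectorBasis finrank_euclideanSpace_fin,
    hs.eigenvalues finrank_euclideanSpace_fin,
    fun a => hs.apply_eigenvectorBasis finrank_euclideanSpace_fin a, hG.1⟩, fun a => ?_⟩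
  have h := hG.2 (hs.eigenvectorBasis finrank_euclideanSpace_fin a)
  have e : G (hs.eigenvectorBasis finrank_euclideanSpace_fin a)
      = (hs.eigenvalues finrank_euclideanSpace_fin a : ℂ) •
        hs.eigenvectorBasis finrank_euclideanSpace_fin a :=
    hs.apply_eigenvectorBasis finrank_euclideanSpace_fin a
  rw [e, inner_smul_right, inner_self_eq_norm_sq_to_K, OrthonormalBasis.norm_eq_one] at h
  simpa using h

/-- `⟪u, P(G) u⟫`. -/
noncomputable def quad (P : Polynomial ℝ) (u : Vec N) (G : Op N) : ℝ :=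
  ∑ n ∈ P.support, P.coeff n * (⟪u, (G ^ n) u⟫_ℂ).re

/-- The symmetric divided difference of a polynomial. -/
noncomputable def ddPoly (P : Polynomial ℝ) (x y : ℝ) : ℝ :=
  ∑ n ∈ P.support, P.coeff n * ∑ k ∈ Finset.range n, x ^ k * y ^ (n - 1 - k)

lemma ddPoly_mul (P : Polynomial ℝ) (x y : ℝ) :
    ddPoly P x y * (x - y) = P.eval x - P.eval y := by
  rw [ddPoly, Finset.sum_mul, Polynomial.eval_eq_sum, Polynomial.eval_eq_sum, Polynomial.sum,
    Polynomial.sum, ← sum_sub_distrib]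
  exact sum_congr rfl fun n _ => by rw [mul_assoc, geom_sum₂_mul]; ring

lemma ddPoly_self (P : Polynomial ℝ) (x : ℝ) : ddPoly P x x = P.derivative.eval x := by
  rw [ddPoly, Polynomial.derivative_eval, Polynomial.sum]
  refine sum_congr rfl fun n _ => ?_
  rw [Finset.sum_congr rfl fun k hk => ?_, Finset.sum_const, Finset.card_range, nsmul_eq_mul,
    mul_assoc]
  rw [← pow_add]
  congr 1
  have := Finset.mem_range.1 hk
  omega

lemma quad_eq {G : Op N} (F : Eig G) (P : Polynomial ℝ) (u : Vec N) :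
    quad P u G = ∑ a, F.pw u a * P.eval (F.g a) := by
  have h : ∀ n : ℕ, (⟪u, (G ^ n) u⟫_ℂ).re = ∑ a, F.pw u a * F.g a ^ n := fun n => by
    rw [F.inner_pow, Complex.re_sum]
    refine sum_congr rfl fun a _ => ?_
    rw [← inner_conj_symm u (F.b a), Complex.conj_mul', ← Complex.ofReal_pow,
      ← Complex.ofReal_pow, ← Complex.ofReal_mul, Complex.ofReal_re, Eig.pw, mul_comm]
  simp only [quad, h, Polynomial.eval_eq_sum, Polynomial.sum, Finset.mul_sum]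
  rw [Finset.sum_comm]
  exact sum_congr rfl fun a _ => sum_congr rfl fun n _ => by ring

/-- The derivative of `G^n` along `G' = R`, as a sum. -/
noncomputable def powDeriv (G R : Op N) (n : ℕ) : Op N :=
  ∑ k ∈ Finset.range n, G ^ k * R * G ^ (n - 1 - k)

lemma powDeriv_succ (G R : Op N) (n : ℕ) :
    powDeriv G R (n + 1) = powDeriv G R n * G + G ^ n * R := by
  rw [powDeriv, powDeriv, Finset.sum_range_succ, Finset.sum_mul]
  simp only [Nat.add_sub_cancel, Nat.sub_self, pow_zero, mul_one]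
  congr 1
  refine sum_congr rfl fun k hk => ?_
  have := Finset.mem_range.1 hk
  rw [show n - k = n - 1 - k + 1 by omega, pow_succ, ← mul_assoc]

lemma hasDerivAt_opPow {G : ℝ → Op N} {R : Op N} {x : ℝ} (h : HasDerivAt G R x) (n : ℕ) :
    HasDerivAt (fun y => G y ^ n) (powDeriv (G x) R n) x := by
  induction n with
  | zero => simpa [powDeriv] using hasDerivAt_const x (1 : Op N)
  | succ n ih =>
    simp only [pow_succ, powDeriv_succ]
    exact ih.mul h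

/-- Differentiation of a polynomial spectral form along `G' = u u*`. -/
lemma hasDerivAt_quad {V : ℝ → Vec N} {G : ℝ → Op N} {D u : Vec N} {x : ℝ} (F : Eig (G x))
    (hV : HasDerivAt V D x) (hG : HasDerivAt G (rk u) x) (P : Polynomial ℝ) :
    HasDerivAt (fun y => quad P (V y) (G y))
      ((∑ a, P.eval (F.g a) * (2 * (⟪D, F.b a⟫_ℂ * ⟪F.b a, V x⟫_ℂ).re)) +
        ∑ a, ∑ c, ddPoly P (F.g a) (F.g c) *
          (⟪V x, F.b a⟫_ℂ * ⟪F.b a, u⟫_ℂ * (⟪u, F.b c⟫_ℂ * ⟪F.b c, V x⟫_ℂ)).re) x := by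
  have hR : ∀ n : ℕ, HasDerivAt (fun y => (⟪V y, (G y ^ n) (V y)⟫_ℂ).re)
      ((∑ a, F.g a ^ n * (2 * (⟪D, F.b a⟫_ℂ * ⟪F.b a, V x⟫_ℂ).re)) +
        ∑ a, ∑ c, (∑ k ∈ Finset.range n, F.g a ^ k * F.g c ^ (n - 1 - k)) *
          (⟪V x, F.b a⟫_ℂ * ⟪F.b a, u⟫_ℂ * (⟪u, F.b c⟫_ℂ * ⟪F.b c, V x⟫_ℂ)).re) x := by
    intro n
    have happ : HasDerivAt (fun y => (G y ^ n) (V y))
        (powDeriv (G x) (rk u) n (V x) + (G x ^ n) D) x := by
      have hc := hasDerivAt_opPow hG n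
      exact (((ContinuousLinearMap.restrictScalarsL ℂ (Vec N) (Vec N) ℝ ℝ).hasFDerivAt.comp_hasDerivAt
        x hc).clm_apply hV)
    have h := Complex.reCLM.hasFDerivAt.comp_hasDerivAt x (hV.inner ℂ happ)
    refine h.congr_deriv ?_
    have s1 : (⟪D, (G x ^ n) (V x)⟫_ℂ).re = ∑ a, F.g a ^ n * (⟪D, F.b a⟫_ℂ * ⟪F.b a, V x⟫_ℂ).re := by
      rw [F.inner_pow, Complex.re_sum]
      exact sum_congr rfl fun a _ => by rw [← Complex.ofReal_pow, Complex.re_ofReal_mul]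
    have s2 : (⟪V x, (G x ^ n) D⟫_ℂ).re = ∑ a, F.g a ^ n * (⟪D, F.b a⟫_ℂ * ⟪F.b a, V x⟫_ℂ).re := by
      rw [F.inner_pow, Complex.re_sum]
      refine sum_congr rfl fun a _ => ?_
      rw [← Complex.ofReal_pow, Complex.re_ofReal_mul, ← inner_conj_symm (V x) (F.b a),
        ← inner_conj_symm (F.b a) D, ← map_mul, Complex.conj_re, mul_comm ⟪F.b a, V x⟫_ℂ]
    have s3 : (⟪V x, powDeriv (G x) (rk u) n (V x)⟫_ℂ).re =
        ∑ a, ∑ c, (∑ k ∈ Finset.range n, F.g a ^ k * F.g c ^ (n - 1 - k)) *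
          (⟪V x, F.b a⟫_ℂ * ⟪F.b a, u⟫_ℂ * (⟪u, F.b c⟫_ℂ * ⟪F.b c, V x⟫_ℂ)).re := by
      rw [powDeriv, _root_.sum_apply, inner_sum, Complex.re_sum]
      simp only [Finset.sum_mul]
      rw [Finset.sum_congr rfl fun a _ => Finset.sum_comm, Finset.sum_comm]
      refine sum_congr rfl fun k _ => ?_
      rw [ContinuousLinearMap.mul_apply, ContinuousLinearMap.mul_apply, rk,
        InnerProductSpace.rankOne_apply, map_smul, inner_smul_right, F.inner_pow, F.inner_pow,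
        Finset.sum_mul_sum, Complex.re_sum, Finset.sum_comm]
      refine sum_congr rfl fun a _ => ?_
      rw [Complex.re_sum]
      refine sum_congr rfl fun c _ => ?_
      rw [← Complex.re_ofReal_mul]
      push_cast
      congr 1
      ring
    simp only [Complex.reCLM_apply, inner_add_right, Complex.add_re, s1, s2, s3]
    simp only [mul_add, two_mul, sum_add_distrib]
    ring
  have := HasDerivAt.sum (u := P.support) fun n _ => (hR n).const_mul (P.coeff n)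
  refine (this.congr_deriv ?_).congr_of_eventuallyEq (Eventually.of_forall fun y => ?_)
  · simp only [mul_add, sum_add_distrib, Polynomial.eval_eq_sum, Polynomial.sum, ddPoly,
      Finset.sum_mul, Finset.mul_sum]
    congr 1
    · rw [Finset.sum_comm]
      exact sum_congr rfl fun a _ => sum_congr rfl fun n _ => by ring
    · rw [Finset.sum_comm]
      refine sum_congr rfl fun a _ => ?_
      rw [Finset.sum_comm]
      exact sum_congr rfl fun c _ => sum_congr rfl fun n _ => sum_congr rfl fun k _ => by ring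
  · simp [quad, Finset.sum_apply]

end Vale.Agent.P371.Leg
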