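import Vale.Agent.P371.Leg.Base

/-!
# P371: the third derivative of the chain is bounded below
-/

namespace Vale.Agent.P371.Leg

open Real Set

variable {p th t : ℝ}

lemma artanh_series {t : ℝ} (ht : 0 ≤ t) :
    tanh t + tanh t ^ 3 / 3 + tanh t ^ 5 / 5 + tanh t ^ 7 / 7 ≤ t :=
  le_of_deriv_le ht
    (fun z _ => ((((hasDerivAt_tanh' z).add (((hasDerivAt_tanh' z).pow 3).div_const 3)).add
      (((hasDerivAt_tanh' z).pow 5).div_const 5)).add (((hasDerivAt_tanh' z).pow 7).div_const 7)))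
    (fun z _ => hasDerivAt_id z) (by simp) fun z _ => by
      simp only [Nat.cast_ofNat, Nat.add_one_sub_one]
      nlinarith [sq_nonneg (tanh z ^ 4)]

lemma gain_series {t : ℝ} (ht : 0 ≤ t) :
    tanh t ^ 2 / 2 + tanh t ^ 4 / 12 + tanh t ^ 6 / 30 + tanh t ^ 8 / 56 ≤
      tanh t * t - log (cosh t) :=
  le_of_deriv_le ht
    (fun z _ => (((((hasDerivAt_tanh' z).pow 2).div_const 2).add
      (((hasDerivAt_tanh' z).pow 4).div_const 12)).add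
      (((hasDerivAt_tanh' z).pow 6).div_const 30)).add (((hasDerivAt_tanh' z).pow 8).div_const 56))
    (fun z _ => ((hasDerivAt_tanh' z).mul (hasDerivAt_id z)).sub
      ((hasDerivAt_cosh z).log (cosh_pos z).ne')) (by simp) fun z hz => by
      have h1 : 0 ≤ 1 - tanh z ^ 2 := by
        nlinarith [(tanh_bounds hz.1.le).1, tanh_lt_one z]
      have h2 := mul_le_mul_of_nonneg_left (artanh_series hz.1.le) h1
      simp only [id_eq, Nat.cast_ofNat, Nat.add_one_sub_one, mul_one, ← tanh_eq_sinh_div_cosh]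
      linarith

lemma log_cosh_ge {p : ℝ} (h : 0 ≤ p) : p ^ 2 / 2 - p ^ 4 / 12 ≤ log (cosh p) :=
  le_of_deriv_le h
    (fun z _ => (((hasDerivAt_id z).pow 2).div_const 2).sub (((hasDerivAt_id z).pow 4).div_const 12))
    (fun z _ => (hasDerivAt_cosh z).log (cosh_pos z).ne') (by simp) fun z hz => by
      simp only [id_eq, Nat.cast_ofNat, Nat.add_one_sub_one, mul_one, ← tanh_eq_sinh_div_cosh]
      linarith [(tanh_bounds hz.1.le).2.2.1]

lemma loss_factor {p u : ℝ} (h0 : 0 ≤ p) (h1 : p ≤ 11 / 20) (hu : 0 ≤ u) (hu1 : u ≤ 1)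
    (hl : 2 * p - 8 / 3 * p ^ 3 ≤ u) :
    2 * p - u * (1 - 23 / 10 * p ^ 2) + 3 / 2 * p ^ 3 ≤
      502 / 1000 * (1 + 2 * p ^ 2 + 2 * p * u) ∧
    (0 ≤ 2 * p - u * (1 - 23 / 10 * p ^ 2) + 3 / 2 * p ^ 3 →
      11 / 4 * (2 * p - u * (1 - 23 / 10 * p ^ 2) + 3 / 2 * p ^ 3) ^ 2 ≤
      (1 + 2 * p ^ 2 + 2 * p * u) *
        (991 / 100 * p ^ 2 - 18875 / 10000 * p * u + 1 / 10 * u ^ 2)) := by
  refine ⟨?_, fun hA => ?_⟩
  · nlinarith [mul_nonneg h0 h0, mul_nonneg (mul_nonneg h0 h0) h0,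
      mul_nonneg (sub_nonneg.2 h1) (sq_nonneg p),
      mul_nonneg (sub_nonneg.2 hl) (show (0:ℝ) ≤ 1 - 23 / 10 * p ^ 2 by nlinarith),
      mul_nonneg h0 (sub_nonneg.2 hl), sq_nonneg (p - 1 / 2)]
  · have hup : 2 * p - u * (1 - 23 / 10 * p ^ 2) + 3 / 2 * p ^ 3 ≤
        (8 / 3 + 23 / 5 + 3 / 2) * p ^ 3 := by
      nlinarith [mul_le_mul_of_nonneg_right hl (show (0:ℝ) ≤ 1 - 23 / 10 * p ^ 2 by nlinarith),
        pow_nonneg h0 5]
    nlinarith [mul_le_mul hup hup hA (by positivity), mul_nonneg h0 hu, sq_nonneg (p - u),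
      mul_nonneg (sub_nonneg.2 h1) (sq_nonneg p),
      mul_nonneg (mul_nonneg h0 h0) (sub_nonneg.2 hu1)]

lemma third_poly {x : ℝ} (h0 : 0 ≤ x) (h1 : x ≤ 1) :
    0 ≤ (1 + x) ^ 2 * (-(494375 / 100000) + 8 * (x / 2 + x ^ 2 / 12 + x ^ 3 / 30 + x ^ 4 / 56)) +
      (1 - x ^ 2) * (338875 / 100000 + 8 * (x + x ^ 2 / 3 + x ^ 3 / 5 + x ^ 4 / 7) +
        2 * (1 - x) - 43 / 100) - 4 / 10 * x := by
  nlinarith [sq_nonneg (x - 9 / 100), mul_nonneg h0 (sq_nonneg (x - 9 / 100)),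
    mul_nonneg h0 (sub_nonneg.2 h1), mul_nonneg (mul_nonneg h0 h0) (sub_nonneg.2 h1),
    pow_nonneg h0 3, mul_nonneg (pow_nonneg h0 3) (sub_nonneg.2 h1),
    mul_nonneg (pow_nonneg h0 4) (sub_nonneg.2 h1),
    mul_nonneg (sub_nonneg.2 h1) (sq_nonneg (x - 9 / 100)),
    mul_nonneg (mul_nonneg h0 h0) (sq_nonneg (x - 1)), pow_nonneg h0 5, pow_nonneg h0 6]

lemma loss_third (h0 : 0 ≤ p) (h1 : p ≤ 11 / 20) (hpt : p ≤ t) (hth : 0 < th) :
    4 * cc * (th * (sinh (2 * (t + p)) - 2 * sinh (2 * t)) - cosh (2 * (t + p)) * (tc th - 1)) ≤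
      cosh (2 * t) * (991 / 100 * p ^ 2) - 18875 / 10000 * p * sinh (2 * t) +
        1 / 10 * (sinh (2 * t) ^ 2 / cosh (2 * t)) := by
  have ht : 0 ≤ t := h0.trans hpt
  obtain ⟨hv0, hv1, hs0, hs1, -⟩ := base_facts h0 h1
  have hCp : 0 < cosh (2 * t) := cosh_pos _
  obtain ⟨u, hu⟩ : ∃ u, tanh (2 * t) = u := ⟨_, rfl⟩
  have hu0 : 0 ≤ u := hu ▸ (tanh_bounds (show (0:ℝ) ≤ 2 * t by linarith)).1
  have eu : sinh (2 * t) = u * cosh (2 * t) := by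
    rw [← hu, tanh_eq_sinh_div_cosh, div_mul_cancel₀ _ hCp.ne']
  have hu1 : u ≤ 1 := hu ▸ (tanh_lt_one _).le
  have hl : 2 * p - 8 / 3 * p ^ 3 ≤ u := by
    have := (tanh_bounds (show (0:ℝ) ≤ 2 * p by linarith)).2.2.1
    have := monotone_of_hasDerivAt_nonneg hasDerivAt_tanh' (fun z => sub_nonneg.2 ((tanh_sq_lt_one z).le)) (show 2 * p ≤ 2 * t by linarith)
    linarith [show (2 * p) ^ 3 = 8 * p ^ 3 by ring]
  obtain ⟨f1, f2⟩ := loss_factor h0 h1 hu0 hu1 hl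
  obtain ⟨A, hA⟩ : ∃ A, 2 * p - u * (1 - 23 / 10 * p ^ 2) + 3 / 2 * p ^ 3 = A := ⟨_, rfl⟩
  obtain ⟨C, hC⟩ : ∃ C, 1 + 2 * p ^ 2 + 2 * p * u = C := ⟨_, rfl⟩
  rw [hA, hC] at f1
  rw [hA, hC] at f2
  have hSC : 0 ≤ sinh (2 * t) := sinh_nonneg_iff.2 (by linarith)
  have hCd : cosh (2 * t) * C ≤ cosh (2 * (t + p)) := by
    rw [mul_add, cosh_add, ← hC]
    have a1 := mul_le_mul_of_nonneg_left hv0 hCp.le
    have a2 := mul_le_mul_of_nonneg_left hs0 hSC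
    rw [eu] at a2 ⊢
    linarith
  have hSd : sinh (2 * (t + p)) - 2 * sinh (2 * t) ≤ cosh (2 * t) * A := by
    rw [mul_add, sinh_add, ← hA]
    have a1 := mul_le_mul_of_nonneg_left hv1 hSC
    have a2 := mul_le_mul_of_nonneg_left hs1 hCp.le
    rw [eu] at a1 ⊢
    linarith
  obtain ⟨a, ha⟩ : ∃ a, sinh (2 * (t + p)) - 2 * sinh (2 * t) = a := ⟨_, rfl⟩
  obtain ⟨G, hGe⟩ : ∃ G, cosh (2 * (t + p)) = G := ⟨_, rfl⟩
  rw [ha] at hSd ⊢
  rw [hGe] at hCd ⊢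
  have hG : 0 < G := hGe ▸ cosh_pos _
  obtain ⟨B, hB⟩ : ∃ B, 991 / 100 * p ^ 2 - 18875 / 10000 * p * u + 1 / 10 * u ^ 2 = B := ⟨_, rfl⟩
  rw [hB] at f2
  have hB0 : 0 ≤ B := by nlinarith [sq_nonneg (u - 94375 / 10000 * p), sq_nonneg p]
  have eB : cosh (2 * t) * (991 / 100 * p ^ 2) - 18875 / 10000 * p * sinh (2 * t) +
      1 / 10 * (sinh (2 * t) ^ 2 / cosh (2 * t)) = cosh (2 * t) * B := by
    rw [← hB, eu]; field_simp
  rw [eB]
  have hr : a ≤ 502 / 1000 * G := by linarith [mul_le_mul_of_nonneg_left f1 hCp.le]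
  have h5 : 0 ≤ 4 * cc := by norm_num [cc]
  rcases le_or_gt a 0 with ha0 | ha0
  · have h6 := mul_nonneg hG.le (sub_nonneg.2 (tc_ge_one hth))
    have h7 := mul_nonpos_of_nonneg_of_nonpos hth.le ha0
    exact (mul_nonpos_of_nonneg_of_nonpos h5 (by linarith)).trans (mul_nonneg hCp.le hB0)
  · have hA0 : 0 ≤ A := le_of_lt (pos_of_mul_pos_right (ha0.trans_le hSd) hCp.le)
    have h3 : 11 / 4 * a ^ 2 / G ≤ cosh (2 * t) * B := by
      rw [div_le_iff₀ hG]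
      calc 11 / 4 * a ^ 2 ≤ 11 / 4 * (cosh (2 * t) * A) ^ 2 := by
            linarith [pow_le_pow_left₀ ha0.le hSd 2]
        _ = cosh (2 * t) ^ 2 * (11 / 4 * A ^ 2) := by ring
        _ ≤ cosh (2 * t) ^ 2 * (C * B) := mul_le_mul_of_nonneg_left (f2 hA0) (sq_nonneg _)
        _ = cosh (2 * t) * B * (cosh (2 * t) * C) := by ring
        _ ≤ _ := mul_le_mul_of_nonneg_left hCd (mul_nonneg hCp.le hB0)
    have h4 : 4 * cc * (84 / 100 * a ^ 2 / G) ≤ 11 / 4 * a ^ 2 / G := by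
      rw [← mul_div_assoc]
      refine div_le_div_of_nonneg_right ?_ hG.le
      unfold cc; linarith [sq_nonneg a]
    exact ((mul_le_mul_of_nonneg_left (loss_le hth hG hr) h5).trans h4).trans h3

lemma series_third {t : ℝ} (ht : 0 ≤ t) :
    43 / 100 ≤ cosh (2 * t) * (-(494375 / 100000) + 8 * (tanh t * t - log (cosh t))) +
      338875 / 100000 + 8 * (tanh t * t) + 2 * (1 - tanh t ^ 2) -
        1 / 10 * (sinh (2 * t) ^ 2 / cosh (2 * t)) := by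
  obtain ⟨-, e2, e3⟩ := tanh_mul_facts t
  have hh := (tanh_bounds ht).1
  obtain ⟨x, hx⟩ : ∃ x, tanh t ^ 2 = x := ⟨_, rfl⟩
  have hx0 : 0 ≤ x := hx ▸ sq_nonneg _
  have hx1 : x < 1 := by nlinarith [tanh_lt_one t]
  have hxl : 0 < 1 - x ^ 2 := by nlinarith
  have hP := third_poly hx0 hx1.le
  rw [hx] at e2 ⊢
  have hC : cosh (2 * t) = (1 + x) / (1 - x) := by
    rw [eq_div_iff (by linarith)]; linarith
  have hS : sinh (2 * t) = tanh t * (2 / (1 - x)) := by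
    have : (1:ℝ) - x ≠ 0 := by linarith
    rw [← e3, hC]; field_simp; ring
  have eU : sinh (2 * t) ^ 2 / cosh (2 * t) = 4 * x / (1 - x ^ 2) := by
    have : (1:ℝ) - x ≠ 0 := by linarith
    have : (1:ℝ) + x ≠ 0 := by linarith
    rw [hS, hC, mul_pow, hx, show (1:ℝ) - x ^ 2 = (1 - x) * (1 + x) by ring]
    field_simp
    ring
  have g1 : x / 2 + x ^ 2 / 12 + x ^ 3 / 30 + x ^ 4 / 56 ≤ tanh t * t - log (cosh t) :=
    le_of_eq_of_le (by rw [← hx]; ring) (gain_series ht)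
  have g2 : x + x ^ 2 / 3 + x ^ 3 / 5 + x ^ 4 / 7 ≤ tanh t * t :=
    le_of_eq_of_le (by rw [← hx]; ring) (mul_le_mul_of_nonneg_left (artanh_series ht) hh)
  obtain ⟨T, hT⟩ : ∃ T, tanh t * t - log (cosh t) = T := ⟨_, rfl⟩
  rw [hT] at g1 ⊢
  rw [eU]
  have eC : cosh (2 * t) = (1 + x) ^ 2 / (1 - x ^ 2) := by
    have : (1:ℝ) - x ≠ 0 := by linarith
    have : (1:ℝ) + x ≠ 0 := by linarith
    rw [hC, show (1:ℝ) - x ^ 2 = (1 - x) * (1 + x) by ring]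
    field_simp
  rw [eC, div_mul_eq_mul_div, ← sub_nonneg]
  have a1 := mul_le_mul_of_nonneg_left g1 (sq_nonneg (1 + x))
  have a2 := mul_le_mul_of_nonneg_left g2 hxl.le
  have key : 0 ≤ ((1 + x) ^ 2 * (-(494375 / 100000) + 8 * T) + (1 - x ^ 2) *
      (338875 / 100000 + 8 * (tanh t * t) + 2 * (1 - x) - 43 / 100) - 4 / 10 * x) / (1 - x ^ 2) :=
    div_nonneg (by linarith) hxl.le
  refine key.trans_eq ?_
  field_simp
  ring

lemma P3_lower (h0 : 0 ≤ p) (h1 : p ≤ 11 / 20) (hpt : p ≤ t) (hth : 0 < th) :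
    43 / 100 ≤ P3 p th t := by
  have ht : 0 ≤ t := h0.trans hpt
  obtain ⟨hv0, -, hs0, -, -⟩ := base_facts h0 h1
  obtain ⟨-, -, e3⟩ := tanh_mul_facts t
  have hloss := loss_third h0 h1 hpt hth
  have hser := series_third ht
  have hCp : 0 < cosh (2 * t) := cosh_pos _
  have hmain : 2 * cosh (2 * (t + p)) - cosh (t + p) / 2 -
      2 * (th * (sinh (2 * (t + p)) - 2 * sinh (2 * t)) - cosh (2 * (t + p)) * (tc th - 1)) ≤
      4 * th * sinh (2 * t) + wt th / 2 * (4 * cosh (2 * (t + p) - th) - cosh (t + p)) := by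
    have h := (wt_cosh hth (2 * (t + p))).1
    have := mul_le_of_le_one_left (cosh_pos (t + p)).le (wt_mem hth).2
    linarith
  have hcd : cosh (t + p) ≤ 1 + (cosh (2 * (t + p)) - 1) / 4 := by
    have := cosh_sq (t + p)
    rw [cosh_two_mul]
    nlinarith [sq_nonneg (cosh (t + p) - 1)]
  have hCd : cosh (2 * t) + 2 * cosh (2 * t) * p ^ 2 + 2 * p * sinh (2 * t) ≤
      cosh (2 * (t + p)) := by
    rw [mul_add, cosh_add]
    linarith [mul_le_mul_of_nonneg_left hv0 hCp.le,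
      mul_le_mul_of_nonneg_left hs0 (sinh_nonneg_iff.2 (show (0:ℝ) ≤ 2 * t by linarith))]
  have hp4 : p ^ 4 ≤ 121 / 400 * p ^ 2 := by
    nlinarith [mul_le_mul h1 h1 h0 (by norm_num : (0:ℝ) ≤ 11 / 20)]
  have hlog := mul_le_mul_of_nonneg_left (log_cosh_ge h0) hCp.le
  have hp2 := mul_le_mul_of_nonneg_left hp4 hCp.le
  have hp0 : 0 ≤ cosh (2 * t) * p ^ 2 := by positivity
  have eh : tanh t * p * cosh (2 * t) + tanh t * p = p * sinh (2 * t) := by rw [← e3]; ring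
  have hc : cc = 815 / 1000 := rfl
  unfold P3 psi
  rw [hc] at hloss ⊢
  linarith

end Vale.Agent.P371.Leg
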