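import Vale.Agent.P371.Leg.Spectral
import Vale.Agent.P371.Leg.Kernel

/-!
# P371: the calibration as a function of the vector and the operator
-/

namespace Vale.Agent.P371.Leg

open Finset Vale.Agent.P371 Vale.Agent.P371.Gamma
open scoped InnerProductSpace

variable {N : ℕ} {dl : ℝ} {E Q : ℝ → ℝ}

/-- Positive eigenvalues. -/
def Eig.Pos {G : Op N} (F : Eig G) : Prop := ∀ a, 0 < F.g a

/-- The point of an eigenbasis. -/
noncomputable def Eig.point {G : Op N} (F : Eig G) (hF : F.Pos) (u : Vec N) : Point N :=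
  ⟨F.pw u, F.g, F.pw_nonneg u, hF⟩

/-- The moment of a kernel. -/
noncomputable def Eig.mom {G : Op N} (F : Eig G) (K : ℝ → ℝ → ℝ) (u : Vec N) (t : ℝ) : ℝ :=
  ∑ c, F.pw u c * K t (F.g c)

open Classical in
/-- The calibration. -/
noncomputable def Phi (dl : ℝ) (E Q : ℝ → ℝ) (u : Vec N) (G : Op N) : ℝ :=
  if h : ∃ F : Eig G, F.Pos then (h.choose.point h.choose_spec u).val dl E Q else 0

/-- The spectral weight of the vector term. -/
noncomputable def Eig.phi {G : Op N} (F : Eig G) (dl : ℝ) (E Q : ℝ → ℝ) (u : Vec N) (t : ℝ) : ℝ :=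
  F.mom Gk u t - persp E Q (t ^ bExp dl) (F.mom (Hk dl) u t)

lemma val_point {G : Op N} (F : Eig G) (hF : F.Pos) (u : Vec N) :
    (F.point hF u).val dl E Q =
      -(∑ i, F.g i ^ gExp dl / gExp dl) + ∑ i, F.pw u i * F.phi dl E Q u (F.g i) := by
  simp only [Point.val, Eig.point, Point.av, Point.Av, Point.eps, Point.Ev, Point.qv, Point.uv,
    Eig.phi, Eig.mom, persp]
  congr 1
  exact sum_congr rfl fun i _ => by ring

section bounds

variable {δ T R : ℝ} {G G' : Op N} (F : Eig G) (F' : Eig G')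
  (hg : ∀ a, F.g a ∈ Set.Icc δ T) (hg' : ∀ a, F'.g a ∈ Set.Icc δ T)
  {K : ℝ → ℝ → ℝ} {L M : ℝ} (hL : 0 ≤ L) (hM : 0 ≤ M)
  (hK : ∀ x ∈ Set.Icc δ T, ∀ y ∈ Set.Icc δ T, ∀ x' ∈ Set.Icc δ T, ∀ y' ∈ Set.Icc δ T,
    |K x y| ≤ M ∧ |K x y - K x' y'| ≤ L * (|x - x'| + |y - y'|))

lemma Eig.sum_pw_le {u : Vec N} (hu : ‖u‖ ≤ R) : ∑ a, F.pw u a ≤ R ^ 2 := by
  rw [F.sum_pw]; exact pow_le_pow_left₀ (norm_nonneg _) hu 2

include hg hK hM

lemma Eig.abs_mom_le {u : Vec N} (hu : ‖u‖ ≤ R) {t : ℝ} (ht : t ∈ Set.Icc δ T) :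
    |F.mom K u t| ≤ M * R ^ 2 := by
  calc |F.mom K u t| ≤ ∑ c, |F.pw u c * K t (F.g c)| := abs_sum_le_sum_abs _ _
    _ ≤ ∑ c, M * F.pw u c := sum_le_sum fun c _ => by
        rw [abs_mul, abs_of_nonneg (F.pw_nonneg u c), mul_comm]
        exact mul_le_mul_of_nonneg_right (hK t ht _ (hg c) t ht _ (hg c)).1 (F.pw_nonneg u c)
    _ ≤ M * R ^ 2 := by
        rw [← Finset.mul_sum]; exact mul_le_mul_of_nonneg_left (F.sum_pw_le hu) hM

include hL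

lemma Eig.abs_mom_arg_le {u : Vec N} (hu : ‖u‖ ≤ R) {t t' : ℝ} (ht : t ∈ Set.Icc δ T)
    (ht' : t' ∈ Set.Icc δ T) : |F.mom K u t - F.mom K u t'| ≤ L * R ^ 2 * |t - t'| := by
  rw [Eig.mom, Eig.mom, ← sum_sub_distrib]
  calc |∑ c, (F.pw u c * K t (F.g c) - F.pw u c * K t' (F.g c))|
      ≤ ∑ c, |F.pw u c * K t (F.g c) - F.pw u c * K t' (F.g c)| := abs_sum_le_sum_abs _ _
    _ ≤ ∑ c, F.pw u c * (L * |t - t'|) := sum_le_sum fun c _ => by
        rw [← mul_sub, abs_mul, abs_of_nonneg (F.pw_nonneg u c)]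
        refine mul_le_mul_of_nonneg_left ?_ (F.pw_nonneg u c)
        simpa using (hK t ht _ (hg c) t' ht' _ (hg c)).2
    _ ≤ L * R ^ 2 * |t - t'| := by
        rw [← Finset.sum_mul]
        refine (mul_le_mul_of_nonneg_right (F.sum_pw_le hu) (by positivity)).trans_eq ?_
        ring

include hg'

lemma Eig.abs_mom_sub_le {u u' : Vec N} (hu : ‖u‖ ≤ R) (hu' : ‖u'‖ ≤ R) {t : ℝ}
    (ht : t ∈ Set.Icc δ T) :
    |F.mom K u t - F'.mom K u' t| ≤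
      M * N * (2 * R) * ‖u - u'‖ + L * (N : ℝ) ^ 2 * R ^ 2 * ‖G - G'‖ := by
  have h1 := F.abs_quad_vec_le u u' (f := K t) hM
    (fun i => (hK t ht _ (hg i) t ht _ (hg i)).1) hu hu'
  have h2 := F.abs_quad_sub_le F' u' (f := K t) hL fun i j => by
    simpa using (hK t ht _ (hg i) t ht _ (hg' j)).2
  have h3 : L * (N : ℝ) ^ 2 * ‖u'‖ ^ 2 * ‖G - G'‖ ≤ L * (N : ℝ) ^ 2 * R ^ 2 * ‖G - G'‖ :=
    mul_le_mul_of_nonneg_right (mul_le_mul_of_nonneg_left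
      (pow_le_pow_left₀ (norm_nonneg _) hu' 2) (by positivity)) (norm_nonneg _)
  unfold Eig.mom
  exact (abs_sub_le _ (∑ i, F.pw u' i * K t (F.g i)) _).trans (add_le_add h1 (h2.trans h3))

end bounds

lemma exists_rpow_lipschitz {δ T : ℝ} (hδ : 0 < δ) (r : ℝ) :
    ∃ C : ℝ, 0 ≤ C ∧ ∀ x ∈ Set.Icc δ T, ∀ y ∈ Set.Icc δ T, |x ^ r - y ^ r| ≤ C * |x - y| := by
  have h : ContDiffOn ℝ 1 (fun x : ℝ => x ^ r) (Set.Icc δ T) := fun x hx =>
    (Real.contDiffAt_rpow_const_of_ne (lt_of_lt_of_le hδ hx.1).ne').contDiffWithinAt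
  obtain ⟨C, hC⟩ := h.exists_lipschitzOnWith (by decide) (convex_Icc _ _) isCompact_Icc
  exact ⟨C, C.2, fun x hx y hy => by simpa [Real.dist_eq] using hC.dist_le_mul x hx y hy⟩

/-- The weight is Lipschitz in the argument, bounded, and Lipschitz in the data. -/
lemma exists_phi_bounds (hdl : 0 < dl) (hdl1 : dl < 1) (hP : IsProfile dl E Q) (N : ℕ)
    {δ T R : ℝ} (hδ : 0 < δ) (hR : 0 ≤ R) :
    ∃ Lp Mp Cp : ℝ, 0 ≤ Lp ∧ 0 ≤ Mp ∧ 0 ≤ Cp ∧ ∀ (G G' : Op N) (F : Eig G) (F' : Eig G')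
      (u u' : Vec N), (∀ a, F.g a ∈ Set.Icc δ T) → (∀ a, F'.g a ∈ Set.Icc δ T) → ‖u‖ ≤ R →
      ‖u'‖ ≤ R → ∀ t ∈ Set.Icc δ T, ∀ t' ∈ Set.Icc δ T,
        |F'.phi dl E Q u' t - F'.phi dl E Q u' t'| ≤ Lp * |t - t'| ∧
        |F'.phi dl E Q u' t| ≤ Mp ∧
        |F.phi dl E Q u t - F'.phi dl E Q u' t| ≤ Cp * (‖u - u'‖ + ‖G - G'‖) := by
  obtain ⟨L, M, hL, hM, hb⟩ := exists_kernel_bounds dl (T := T) hδ
  obtain ⟨Cb, hCb0, hCb⟩ := exists_rpow_lipschitz (T := T) hδ (bExp dl)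
  have hb0 : 0 ≤ bExp dl := div_nonneg (by linarith) (by linarith)
  set e0 := δ ^ bExp dl
  have he0 : 0 < e0 := Real.rpow_pos_of_pos hδ _
  set Am := M * R ^ 2 with hAm
  set k := kExp dl with hkdef
  have hk : 0 ≤ k := (hP.q_mem 0 le_rfl).1.trans (hP.q_mem 0 le_rfl).2
  set CE := 1 + k * (Am / e0) with hCEdef
  have hCE : 0 ≤ CE := by positivity
  set Eb := max T 1 ^ bExp dl
  set Cm := M * N * (2 * R) + L * (N : ℝ) ^ 2 * R ^ 2 with hCm
  refine ⟨L * R ^ 2 + (CE * Cb + k * (L * R ^ 2)), Am + (CE * Eb + k * Am), (1 + k) * Cm,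
    by positivity, by positivity, by positivity,
    fun G G' F F' u u' hg hg' hu hu' t ht t' ht' => ?_⟩
  have kG : ∀ x ∈ Set.Icc δ T, ∀ y ∈ Set.Icc δ T, ∀ x' ∈ Set.Icc δ T, ∀ y' ∈ Set.Icc δ T,
      |Gk x y| ≤ M ∧ |Gk x y - Gk x' y'| ≤ L * (|x - x'| + |y - y'|) :=
    fun x hx y hy x' hx' y' hy' =>
      ⟨(hb x hx y hy x' hx' y' hy').1, (hb x hx y hy x' hx' y' hy').2.2.1⟩
  have kH : ∀ x ∈ Set.Icc δ T, ∀ y ∈ Set.Icc δ T, ∀ x' ∈ Set.Icc δ T, ∀ y' ∈ Set.Icc δ T,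
      |Hk dl x y| ≤ M ∧ |Hk dl x y - Hk dl x' y'| ≤ L * (|x - x'| + |y - y'|) :=
    fun x hx y hy x' hx' y' hy' =>
      ⟨(hb x hx y hy x' hx' y' hy').2.1, (hb x hx y hy x' hx' y' hy').2.2.2⟩
  have heps : ∀ s ∈ Set.Icc δ T, e0 ≤ s ^ bExp dl := fun s hs =>
    Real.rpow_le_rpow hδ.le hs.1 hb0
  have hA : ∀ {G : Op N} (F : Eig G), (∀ a, F.g a ∈ Set.Icc δ T) → ∀ v : Vec N, ‖v‖ ≤ R →
      ∀ s ∈ Set.Icc δ T, 0 ≤ F.mom (Hk dl) v s ∧ F.mom (Hk dl) v s ≤ Am := by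
    intro G F hg v hv s hs
    refine ⟨sum_nonneg fun c _ => mul_nonneg (F.pw_nonneg v c) (Hk_nonneg hdl.le hdl1.le
      (lt_of_lt_of_le hδ hs.1) (lt_of_lt_of_le hδ (hg c).1)), ?_⟩
    exact (le_abs_self _).trans (F.abs_mom_le hg hM kH hv hs)
  refine ⟨?_, ?_, ?_⟩
  · have a1 := F'.abs_mom_arg_le hg' hL hM kG hu' ht ht'
    have a2 := F'.abs_mom_arg_le hg' hL hM kH hu' ht ht'
    have b1 := hA F' hg' u' hu' _ ht
    have b2 := hA F' hg' u' hu' _ ht'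
    have a3 := abs_persp_sub_le hP he0 (heps _ ht) (heps _ ht') b1.1 b2.1 b1.2 b2.2
    rw [← hkdef, ← hCEdef] at a3
    have a4 := mul_le_mul_of_nonneg_left (hCb _ ht _ ht') hCE
    have a5 := mul_le_mul_of_nonneg_left a2 hk
    simp only [Eig.phi]
    rw [sub_sub_sub_comm]
    refine (abs_sub _ _).trans ((add_le_add a1 a3).trans ?_)
    rw [add_mul, add_mul]
    linarith
  · have a1 := F'.abs_mom_le hg' hM kG hu' ht
    obtain ⟨b1, b2⟩ := hA F' hg' u' hu' _ ht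
    set A := F'.mom (Hk dl) u' t
    set e := t ^ bExp dl with he
    have htpos : 0 < t := lt_of_lt_of_le hδ ht.1
    have hepos : 0 < e := Real.rpow_pos_of_pos htpos _
    have hv : 0 ≤ A / e := div_nonneg b1 hepos.le
    have a2 : e ≤ Eb := Real.rpow_le_rpow htpos.le (ht.2.trans (le_max_left _ _)) hb0
    have a3 : E (A / e) ≤ CE := (profile_E_le hP hv).trans
      (add_le_add le_rfl (mul_le_mul_of_nonneg_left (div_le_div₀ (b1.trans b2) b2 he0 (heps _ ht)) hk))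
    have a4 := mul_le_mul a2 a3 (zero_le_one.trans (hP.one_le _ hv)) (by positivity)
    have a5 : Q (A / e) * A ≤ k * Am := mul_le_mul (hP.q_mem _ hv).2 b2 b1 hk
    have a6 : 0 ≤ persp E Q e A :=
      add_nonneg (mul_nonneg hepos.le (zero_le_one.trans (hP.one_le _ hv)))
        (mul_nonneg (hP.q_mem _ hv).1 b1)
    refine (abs_sub _ _).trans ?_
    rw [abs_of_nonneg a6, persp]
    linarith [mul_comm Eb CE]
  · have a1 := F.abs_mom_sub_le F' hg hg' hL hM kG hu hu' ht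
    have a2 := F.abs_mom_sub_le F' hg hg' hL hM kH hu hu' ht
    have b1 := hA F hg u hu _ ht
    have b2 := hA F' hg' u' hu' _ ht
    have a3 := abs_persp_sub_le hP he0 (heps _ ht) (heps _ ht) b1.1 b2.1 b1.2 b2.2
    rw [sub_self, abs_zero, mul_zero, zero_add] at a3
    have hd : M * N * (2 * R) * ‖u - u'‖ + L * (N : ℝ) ^ 2 * R ^ 2 * ‖G - G'‖ ≤
        Cm * (‖u - u'‖ + ‖G - G'‖) := by
      have : 0 ≤ M * N * (2 * R) * ‖G - G'‖ := by positivity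
      have : 0 ≤ L * (N : ℝ) ^ 2 * R ^ 2 * ‖u - u'‖ := by positivity
      rw [hCm, add_mul, mul_add, mul_add]
      linarith
    have a4 := mul_le_mul_of_nonneg_left (a2.trans hd) hk
    simp only [Eig.phi]
    rw [sub_sub_sub_comm]
    refine (abs_sub _ _).trans ((add_le_add (a1.trans hd) (a3.trans a4)).trans_eq ?_)
    ring

/-- The value is Lipschitz, whatever the eigenbases. -/
lemma exists_val_lipschitz (hdl : 0 < dl) (hdl1 : dl < 1) (hP : IsProfile dl E Q) (N : ℕ)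
    {δ T R : ℝ} (hδ : 0 < δ) (hR : 0 ≤ R) :
    ∃ C : ℝ, 0 ≤ C ∧ ∀ (G G' : Op N) (F : Eig G) (F' : Eig G') (hF : F.Pos) (hF' : F'.Pos)
      (u u' : Vec N), (∀ a, F.g a ∈ Set.Icc δ T) → (∀ a, F'.g a ∈ Set.Icc δ T) → ‖u‖ ≤ R →
      ‖u'‖ ≤ R → |(F.point hF u).val dl E Q - (F'.point hF' u').val dl E Q| ≤
        C * (‖u - u'‖ + ‖G - G'‖) := by
  obtain ⟨Lp, Mp, Cp, hLp, hMp, hCp, hb⟩ := exists_phi_bounds hdl hdl1 hP N (T := T) hδ hR
  obtain ⟨Cg, hCg0, hCg⟩ := exists_rpow_lipschitz (T := T) hδ (gExp dl)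
  have hg0 : 0 < gExp dl := by
    have : 0 ≤ bExp dl := div_nonneg (by linarith) (by linarith)
    rw [gExp]; linarith
  refine ⟨Cg / gExp dl * (N : ℝ) ^ 2 + R ^ 2 * Cp + Mp * N * (2 * R) + Lp * (N : ℝ) ^ 2 * R ^ 2,
    by positivity, fun G G' F F' hF hF' u u' hg hg' hu hu' => ?_⟩
  have hb' := hb G G' F F' u u' hg hg' hu hu'
  have q0 := F.abs_sum_sub_le F' (f := fun t => t ^ gExp dl / gExp dl)
    (L := Cg / gExp dl) (by positivity) fun i j => by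
      rw [← sub_div, abs_div, abs_of_pos hg0, div_mul_eq_mul_div]
      exact div_le_div_of_nonneg_right (hCg _ (hg i) _ (hg' j)) hg0.le
  have q1 : |∑ i, F.pw u i * F.phi dl E Q u (F.g i) - ∑ i, F.pw u i * F'.phi dl E Q u' (F.g i)| ≤
      R ^ 2 * (Cp * (‖u - u'‖ + ‖G - G'‖)) := by
    rw [← sum_sub_distrib]
    refine (abs_sum_le_sum_abs _ _).trans ((sum_le_sum fun i _ => ?_).trans
      (((Finset.sum_mul _ _ _).symm).trans_le
        (mul_le_mul_of_nonneg_right (F.sum_pw_le hu) (by positivity))))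
    rw [← mul_sub, abs_mul, abs_of_nonneg (F.pw_nonneg u i)]
    exact mul_le_mul_of_nonneg_left (hb' _ (hg i) _ (hg i)).2.2 (F.pw_nonneg u i)
  have q2 := F.abs_quad_vec_le u u' (f := F'.phi dl E Q u') hMp
    (fun i => (hb' _ (hg i) _ (hg i)).2.1) hu hu'
  have q3 := (F.abs_quad_sub_le F' u' (f := F'.phi dl E Q u') hLp
    (fun i j => (hb' _ (hg i) _ (hg' j)).1)).trans
    (mul_le_mul_of_nonneg_right (mul_le_mul_of_nonneg_left
      (pow_le_pow_left₀ (norm_nonneg _) hu' 2) (by positivity)) (norm_nonneg _))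
  rw [val_point, val_point, abs_le]
  rw [abs_le] at q0 q1 q2 q3
  have c1 : 0 ≤ Cg / gExp dl * (N : ℝ) ^ 2 * ‖u - u'‖ := by positivity
  have c2 : 0 ≤ Mp * N * (2 * R) * ‖G - G'‖ := by positivity
  have c3 : 0 ≤ Lp * (N : ℝ) ^ 2 * R ^ 2 * ‖u - u'‖ := by positivity
  constructor <;> linarith [q0.1, q0.2, q1.1, q1.2, q2.1, q2.2, q3.1, q3.2]

lemma Phi_eq (hdl : 0 < dl) (hdl1 : dl < 1) (hP : IsProfile dl E Q) {G : Op N} (F : Eig G)
    (hF : F.Pos) (u : Vec N) : Phi dl E Q u G = (F.point hF u).val dl E Q := by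
  have h : ∃ F : Eig G, F.Pos := ⟨F, hF⟩
  rw [Phi, dif_pos h]
  set F' := h.choose
  have hF' : F'.Pos := h.choose_spec
  rcases isEmpty_or_nonempty (Fin N) with hN | hN
  · simp [Point.val]
  set s := Finset.univ.image F.g ∪ Finset.univ.image F'.g
  have hs : s.Nonempty := Finset.Nonempty.inl (univ_nonempty.image _)
  have mem : ∀ a, F.g a ∈ Set.Icc (s.min' hs) (s.max' hs) ∧
      F'.g a ∈ Set.Icc (s.min' hs) (s.max' hs) := fun a => by
    have h1 : F.g a ∈ s := mem_union_left _ (mem_image_of_mem _ (mem_univ a))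
    have h2 : F'.g a ∈ s := mem_union_right _ (mem_image_of_mem _ (mem_univ a))
    exact ⟨⟨s.min'_le _ h1, s.le_max' _ h1⟩, ⟨s.min'_le _ h2, s.le_max' _ h2⟩⟩
  have hpos : 0 < s.min' hs := by
    obtain h | h := mem_union.1 (s.min'_mem hs) <;> obtain ⟨a, -, ha⟩ := mem_image.1 h
    · rw [← ha]; exact hF a
    · rw [← ha]; exact hF' a
  obtain ⟨C, -, hC⟩ := exists_val_lipschitz hdl hdl1 hP N (T := s.max' hs) hpos (norm_nonneg u)
  have := hC G G F' F hF' hF u u (fun a => (mem a).2) (fun a => (mem a).1) le_rfl le_rfl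
  simp only [sub_self, norm_zero, add_zero, mul_zero, abs_nonpos_iff, sub_eq_zero] at this
  exact this

lemma exists_lipschitz_Phi (hdl : 0 < dl) (hdl1 : dl < 1) (hP : IsProfile dl E Q)
    {δ T R : ℝ} (hδ : 0 < δ) (hR : 0 ≤ R) :
    ∃ L : NNReal, LipschitzOnWith L (fun p : Vec N × Op N => Phi dl E Q p.1 p.2)
      (Metric.closedBall (0 : Vec N) R ×ˢ box δ T) := by
  obtain ⟨C, hC0, hC⟩ := exists_val_lipschitz hdl hdl1 hP N (T := T) hδ hR
  refine ⟨⟨2 * C, by positivity⟩, LipschitzOnWith.of_dist_le_mul ?_⟩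
  rintro ⟨u, G⟩ ⟨hu, hG⟩ ⟨u', G'⟩ ⟨hu', hG'⟩
  rw [mem_closedBall_zero_iff] at hu hu'
  obtain ⟨F, hF⟩ := exists_eig hG
  obtain ⟨F', hF'⟩ := exists_eig hG'
  have p : F.Pos := fun a => lt_of_lt_of_le hδ (hF a).1
  have p' : F'.Pos := fun a => lt_of_lt_of_le hδ (hF' a).1
  simp only [Phi_eq hdl hdl1 hP F p, Phi_eq hdl hdl1 hP F' p', Real.dist_eq, NNReal.coe_mk]
  refine (hC G G' F F' p p' u u' hF hF' hu hu').trans ?_
  have h1 : ‖u - u'‖ ≤ dist (u, G) (u', G') := by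
    rw [Prod.dist_eq, dist_eq_norm]; exact le_max_left _ _
  have h2 : ‖G - G'‖ ≤ dist (u, G) (u', G') := by
    rw [Prod.dist_eq, dist_eq_norm G]; exact le_max_right _ _
  calc C * (‖u - u'‖ + ‖G - G'‖) ≤ C * (dist (u, G) (u', G') + dist (u, G) (u', G')) :=
        mul_le_mul_of_nonneg_left (add_le_add h1 h2) hC0
    _ = 2 * C * dist (u, G) (u', G') := by ring

end Vale.Agent.P371.Leg
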