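import Vale.Agent.P371.Leg.Bound

/-!
# P371: a profile for every small parameter gives the exact constant on a window below 3/2
-/

namespace Vale.Agent.P371.Leg

open Vale.Agent.P371.Gamma

/-- The exponents `γ` just below `3/2` correspond to small positive `dl`. -/
theorem window_of_profiles
    (h : ∃ d₀ > 0, ∀ dl, 0 < dl → dl < d₀ → ∃ E Q : ℝ → ℝ, IsProfile dl E Q ∧ Subsolution dl E Q) :
    ∃ η > 0, ∀ γ : ℝ, 3 / 2 - η < γ → γ < 3 / 2 →
      IsGreatest (Gamma.ratios γ) (Gamma.oneState γ) := by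
  obtain ⟨d₀, hd₀, hE⟩ := h
  set d := min d₀ 1
  have hd : 0 < d := lt_min hd₀ one_pos
  refine ⟨d / (1 + d), div_pos hd (by linarith), fun γ hlo hhi => ?_⟩
  have hη : d / (1 + d) < 1 := by rw [div_lt_one (by linarith)]; linarith
  set dl := 1 / (γ - 1 / 2) - 1
  have hs : 0 < γ - 1 / 2 := by linarith
  have h0 : 0 < dl := by
    rw [sub_pos, lt_div_iff₀ hs]; linarith
  have h1 : dl < d := by
    have e : d / (1 + d) = 1 - 1 / (1 + d) := by field_simp; ring
    have : 1 / (1 + d) < γ - 1 / 2 := by linarith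
    rw [div_lt_iff₀ (by linarith)] at this
    rw [sub_lt_iff_lt_add, div_lt_iff₀ hs]; linarith
  obtain ⟨E, Q, hP, hS⟩ := hE dl h0 (h1.trans_le (min_le_left _ _))
  have hgam : gam dl = γ := by simp [gam, dl]
  rw [← hgam]
  exact isGreatest_of_profile h0 (h1.trans_le (min_le_right _ _)) hP hS

end Vale.Agent.P371.Leg
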